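import Crest.Agent.N228.G.Defs

/-!
# Row 228, block G (helper15): the condition at one point, ledgers
-/

set_option autoImplicit false
set_option linter.unusedSectionVars false
open MeasureTheory Set Filter Topology Function Metric Real
open scoped ContDiff
open Crest.Agent.N222

noncomputable section

namespace Crest.Agent.N228.G

/-! ### signs -/

theorem Shr1.refl (a : ℝ) : Shr1 a a := ⟨id, id⟩

theorem Shr1.trans {a b c : ℝ} (h : Shr1 a b) (h' : Shr1 b c) : Shr1 a c :=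
  ⟨fun x => h'.1 (h.1 x), fun x => h'.2 (h.2 x)⟩

theorem Shr1.abs_le {a b : ℝ} (h : Shr1 a b) (hb : |b| ≤ π / 2) : |a| ≤ π / 2 := by
  obtain ⟨h1, h2⟩ := _root_.abs_le.1 hb
  exact _root_.abs_le.2 ⟨not_lt.1 fun x => (h.2 x).not_ge h1, not_lt.1 fun x => (h.1 x).not_ge h2⟩

theorem Shr1.of_abs_le {a : ℝ} (h : |a| ≤ π / 2) (b : ℝ) : Shr1 a b :=
  ⟨fun x => absurd (_root_.abs_le.1 h).2 x.not_ge, fun x => absurd (_root_.abs_le.1 h).1 x.not_ge⟩

theorem Shr2.shr1 {a b : ℝ} (h : Shr2 a b) : Shr1 a b := ⟨fun x => h.1 x.le, fun x => h.2 x.le⟩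

theorem not_fin_pi : π / 2 < |π| := by
  rw [abs_of_pos pi_pos]; linarith [pi_pos]

section Pt

variable {C : Type} [Fintype C] {η r r' φ φ' g g' : C → ℝ} {V V' : ℝ} {m m' : ℕ} {c : C}

theorem mem_fin : c ∈ fin φ ↔ |φ c| ≤ π / 2 := by simp [fin]

theorem notMem_fin : c ∉ fin φ ↔ π / 2 < |φ c| := by rw [mem_fin, not_le]

theorem fin_subset (h : ∀ c, Shr1 (φ c) (φ' c)) : fin φ' ⊆ fin φ :=
  fun c hc => mem_fin.2 ((h c).abs_le (mem_fin.1 hc))

theorem Few.of_subset (h : Few m φ) (hs : fin φ' ⊆ fin φ) : Few m φ' :=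
  (Nat.add_le_add_right (Finset.card_le_card hs) 2).trans h

theorem Few.shr (h : Few m φ) (hs : ∀ c, Shr1 (φ c) (φ' c)) : Few m φ' :=
  h.of_subset (fin_subset hs)

theorem Few.mono (h : Few m φ) (hm : m ≤ m') : Few m' φ := le_trans h hm

theorem few_of_none (hm : 2 ≤ m) (h : ∀ c, π / 2 < |φ c|) : Few m φ := by
  have : fin φ = ∅ := Finset.eq_empty_of_forall_notMem fun c => notMem_fin.2 (h c)
  rw [Few, this]; simpa using hm

theorem fin_update [DecidableEq C] (a : ℝ) : fin (update φ c a) ⊆ insert c (fin φ) := fun b hb => by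
  by_cases h : b = c
  · simp [h]
  · rw [mem_fin, update_of_ne h] at hb
    exact Finset.mem_insert_of_mem (mem_fin.2 hb)

theorem fin_update_out [DecidableEq C] {a : ℝ} (ha : π / 2 < |a|) :
    fin (update φ c a) = (fin φ).erase c := by
  ext b
  by_cases h : b = c
  · subst h; simp [mem_fin, ha]
  · simp [mem_fin, h]

theorem fin_update_in [DecidableEq C] {a : ℝ} (ha : |a| ≤ π / 2) :
    fin (update φ c a) = insert c (fin φ) := by
  ext b
  by_cases h : b = c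
  · subst h; simp [mem_fin, ha]
  · simp [mem_fin, h]

/-- one more colour, one more dimension -/
theorem Few.update [DecidableEq C] (h : Few m φ) (c : C) (a : ℝ) : Few (m + 1) (update φ c a) := by
  have h1 := (Finset.card_le_card (fin_update (φ := φ) (c := c) a)).trans
    (Finset.card_insert_le _ _)
  unfold Few at *
  omega

/-- one finite colour less, one dimension less -/
theorem Few.drop [DecidableEq C] (h : Few (m + 1) φ) (hc : |φ c| ≤ π / 2)
    (hs : fin φ' ⊆ fin φ) (hc' : π / 2 < |φ' c|) : Few m φ' := by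
  have h1 : fin φ' ⊆ (fin φ).erase c := fun b hb =>
    Finset.mem_erase.2 ⟨fun e => notMem_fin.2 hc' (e ▸ hb), hs hb⟩
  have h2 := Finset.card_le_card h1
  have h3 := Finset.card_erase_add_one (mem_fin.2 hc)
  unfold Few at *
  omega

theorem one_le_cos_add {t : ℝ} (h : |t| ≤ π / 2) : 1 ≤ cos t + sin t ^ 2 := by
  have h1 := cos_nonneg_of_mem_Icc (abs_le.1 h)
  nlinarith [cos_le_one t, sin_sq_add_cos_sq t]

theorem le_rate {η b t : ℝ} (hb : 0 ≤ b) (hη : b ≤ √η / 8) (h : |t| ≤ π / 2) : b ≤ rate η b t := by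
  have h1 := one_le_cos_add h
  have h2 := mul_le_mul_of_nonneg_right hη (sq_nonneg (sin t))
  unfold rate
  nlinarith

theorem rate_mono {η b b' t : ℝ} (hb : b ≤ b') (h : |t| ≤ π / 2) : rate η b t ≤ rate η b' t :=
  add_le_add_left (mul_le_mul_of_nonneg_right hb (cos_nonneg_of_mem_Icc (abs_le.1 h))) _

theorem continuous_rate (η b : ℝ) : Continuous (rate η b) := by unfold rate; fun_prop

/-- the slopes may be taken nonnegative -/
theorem Ok.abs (h : Ok η r V φ g) : ∃ β : C → ℝ, (∀ c, 0 ≤ β c) ∧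
    (∀ c ∈ fin φ, g c < rate (η c) (β c) (φ c)) ∧ ∑ c ∈ fin φ, (4 / 3 * β c ^ 2 + r c) < V := by
  obtain ⟨β, h1, h2⟩ := h
  exact ⟨fun c => |β c|, fun c => abs_nonneg _, fun c hc =>
    (h1 c hc).trans_le (rate_mono (le_abs_self _) (mem_fin.1 hc)), by simpa only [sq_abs] using h2⟩

theorem Ok.mono (h : Ok η r V φ g) (hV : V ≤ V') (hg : ∀ c ∈ fin φ, g' c ≤ g c)
    (hr : ∀ c ∈ fin φ, r' c ≤ r c) : Ok η r' V' φ g' := by
  obtain ⟨β, h1, h2⟩ := h
  exact ⟨β, fun c hc => (hg c hc).trans_lt (h1 c hc),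
    ((Finset.sum_le_sum fun c hc => add_le_add_right (hr c hc) _).trans_lt h2).trans_le hV⟩

theorem Ok.pos (h : Ok η r V φ g) (hr : ∀ c, 0 ≤ r c) : 0 < V := by
  obtain ⟨β, -, h2⟩ := h
  exact (Finset.sum_nonneg fun c _ => add_nonneg (by positivity) (hr c)).trans_lt h2

/-- reserves are paid by the potential -/
theorem Ok.add_res (h : Ok η r V φ g) {ℓ : C → ℝ} {a : ℝ} (ha : ∑ c ∈ fin φ, ℓ c ≤ a) :
    Ok η (r + ℓ) (V + a) φ g := by
  obtain ⟨β, h1, h2⟩ := h
  refine ⟨β, h1, ?_⟩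
  simp only [Pi.add_apply, ← add_assoc, Finset.sum_add_distrib] at h2 ⊢
  linarith

/-- colours which leave the band are dropped -/
theorem Ok.drop (h : Ok η r V φ g) (hr : ∀ c, 0 ≤ r c)
    (hs : ∀ c, |φ' c| ≤ π / 2 → φ' c = φ c ∧ g' c ≤ g c) : Ok η r V φ' g' := by
  obtain ⟨β, h1, h2⟩ := h
  have h3 : fin φ' ⊆ fin φ := fun c hc => mem_fin.2 ((hs c (mem_fin.1 hc)).1 ▸ mem_fin.1 hc)
  refine ⟨β, fun c hc => ?_, (Finset.sum_le_sum_of_subset_of_nonneg h3 fun c _ _ =>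
    add_nonneg (by positivity) (hr c)).trans_lt h2⟩
  rw [(hs c (mem_fin.1 hc)).1]
  exact (hs c (mem_fin.1 hc)).2.trans_lt (h1 c (h3 hc))

/-- a dropped colour frees its reserve -/
theorem Ok.drop_gain (h : Ok η r V φ g) (hr : ∀ c, 0 ≤ r c)
    (hs : ∀ c, |φ' c| ≤ π / 2 → φ' c = φ c ∧ g' c ≤ g c) (hc : |φ c| ≤ π / 2)
    (hc' : π / 2 < |φ' c|) : Ok η r (V - r c) φ' g' := by
  classical
  obtain ⟨β, h1, h2⟩ := h
  have h3 : fin φ' ⊆ (fin φ).erase c := fun b hb => Finset.mem_erase.2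
    ⟨fun e => notMem_fin.2 hc' (e ▸ hb), mem_fin.2 ((hs b (mem_fin.1 hb)).1 ▸ mem_fin.1 hb)⟩
  refine ⟨β, fun b hb => ?_, (Finset.sum_le_sum_of_subset_of_nonneg h3 fun c _ _ =>
    add_nonneg (by positivity) (hr c)).trans_lt ?_⟩
  · rw [(hs b (mem_fin.1 hb)).1]
    exact (hs b (mem_fin.1 hb)).2.trans_lt (h1 b (Finset.mem_of_mem_erase (h3 hb)))
  · have h4 := Finset.sum_erase_add (fin φ) (fun c => 4 / 3 * β c ^ 2 + r c) (mem_fin.2 hc)
    nlinarith [sq_nonneg (β c)]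

/-- a slow colour is put back: it costs `4 / 3 b ^ 2` and its reserve `ρ` -/
theorem Ok.put [DecidableEq C] (h : Ok η r V φ g) (hc : π / 2 < |φ c|) {a e b ρ : ℝ} (hb : 0 ≤ b)
    (hη : b ≤ √(η c) / 8) (hρ : 0 ≤ ρ) (he : |a| ≤ π / 2 → e < b) :
    Ok η (update r c ρ) (V + (4 / 3 * b ^ 2 + ρ)) (update φ c a) (update g c e) := by
  obtain ⟨β, h1, h2⟩ := h
  have h0 := notMem_fin.2 hc
  have hs := fin_update (φ := φ) (c := c) a
  have hn : ∀ b' ∈ fin φ, b' ≠ c := fun b' hb' e => h0 (e ▸ hb')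
  refine ⟨update β c b, fun b' hb' => ?_, ?_⟩
  · by_cases e : b' = c
    · subst e
      rw [mem_fin, update_self] at hb'
      simp only [update_self]
      exact (he hb').trans_le (le_rate hb hη hb')
    · simp only [update_of_ne e]
      exact h1 b' ((Finset.mem_insert.1 (hs hb')).resolve_left e)
  · by_cases ha : |a| ≤ π / 2
    · rw [fin_update_in ha, Finset.sum_insert h0, Finset.sum_congr rfl fun b' hb' => by
        rw [update_of_ne (hn b' hb'), update_of_ne (hn b' hb')]]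
      simp only [update_self]
      linarith
    · rw [fin_update_out (not_le.1 ha), Finset.erase_eq_of_notMem h0,
        Finset.sum_congr rfl fun b' hb' => by
        rw [update_of_ne (hn b' hb'), update_of_ne (hn b' hb')]]
      nlinarith [sq_nonneg b]

theorem Good.mono (h : Good m η r V φ g) (hV : V ≤ V') (hg : ∀ c ∈ fin φ, g' c ≤ g c)
    (hr : ∀ c ∈ fin φ, r' c ≤ r c) : Good m η r' V' φ g' := h.imp_right fun h => h.mono hV hg hr

theorem Good.monoV (h : Good m η r V φ g) (hV : V ≤ V') : Good m η r V' φ g :=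
  h.mono hV (fun _ _ => le_rfl) fun _ _ => le_rfl

theorem Good.drop (h : Good m η r V φ g) (hr : ∀ c, 0 ≤ r c)
    (hs : ∀ c, |φ' c| ≤ π / 2 → φ' c = φ c ∧ g' c ≤ g c) : Good m η r V φ' g' :=
  h.imp (fun h => h.of_subset fun c hc => mem_fin.2 ((hs c (mem_fin.1 hc)).1 ▸ mem_fin.1 hc))
    fun h => h.drop hr hs

/-- one dimension up: a slow colour is put back -/
theorem Good.put [DecidableEq C] (h : Good m η r V φ g) (hc : π / 2 < |φ c|) {a e b ρ : ℝ}
    (hb : 0 ≤ b) (hη : b ≤ √(η c) / 8) (hρ : 0 ≤ ρ) (he : |a| ≤ π / 2 → e < b) :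
    Good (m + 1) η (update r c ρ) (V + (4 / 3 * b ^ 2 + ρ)) (update φ c a) (update g c e) :=
  h.imp (fun h => h.update c a) fun h => h.put hc hb hη hρ he

theorem eventually_fin_subset {Z : Type*} [TopologicalSpace Z] {f : Z → C → ℝ} {z : Z}
    (hf : ContinuousAt f z) : ∀ᶠ w in 𝓝 z, fin (f w) ⊆ fin (f z) := by
  have h : ∀ c, ∀ᶠ w in 𝓝 z, c ∈ fin (f w) → c ∈ fin (f z) := fun c => by
    by_cases hc : c ∈ fin (f z)
    · exact Eventually.of_forall fun _ _ => hc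
    · exact (continuousAt_const.eventually_lt ((continuous_apply c).continuousAt.comp hf).abs
        (notMem_fin.1 hc)).mono fun w hw h => absurd h (notMem_fin.2 hw)
  exact (eventually_all.2 h).mono fun w hw c => hw c

theorem isOpen_few (m : ℕ) : IsOpen {φ : C → ℝ | Few m φ} :=
  isOpen_iff_eventually.2 fun _ h =>
    (eventually_fin_subset continuousAt_id).mono fun _ hw => Few.of_subset h hw

theorem isOpen_ok (η : C → ℝ) (hr : ∀ c, 0 ≤ r c) :
    IsOpen {z : ℝ × (C → ℝ) × (C → ℝ) | Ok η r z.1 z.2.1 z.2.2} := by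
  refine isOpen_iff_eventually.2 fun z ⟨β, h1, h2⟩ => ?_
  have h3 : ∀ c ∈ fin z.2.1, ∀ᶠ w : ℝ × (C → ℝ) × (C → ℝ) in 𝓝 z,
      w.2.2 c < rate (η c) (β c) (w.2.1 c) := fun c hc =>
    (by fun_prop : Continuous fun w : ℝ × (C → ℝ) × (C → ℝ) => w.2.2 c).continuousAt.eventually_lt
      ((continuous_rate _ _).comp
        (by fun_prop : Continuous fun w : ℝ × (C → ℝ) × (C → ℝ) => w.2.1 c)).continuousAt (h1 c hc)
  filter_upwards [(Finset.eventually_all _).2 h3, eventually_fin_subset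
    (f := fun w : ℝ × (C → ℝ) × (C → ℝ) => w.2.1) (by fun_prop),
    continuousAt_const.eventually_lt continuousAt_fst h2] with w a b c
  exact ⟨β, fun c hc => a c (b hc), (Finset.sum_le_sum_of_subset_of_nonneg b fun c _ _ =>
    add_nonneg (by positivity) (hr c)).trans_lt c⟩

/-- the class is open -/
theorem isOpen_good (m : ℕ) (η : C → ℝ) (hr : ∀ c, 0 ≤ r c) :
    IsOpen {z : ℝ × (C → ℝ) × (C → ℝ) | Good m η r z.1 z.2.1 z.2.2} :=
  ((isOpen_few m).preimage (by fun_prop)).union (isOpen_ok η hr)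

/-- room on a compact set -/
theorem exists_room (hr : ∀ c, 0 ≤ r c) {K : Set (ℝ × (C → ℝ) × (C → ℝ))} (hK : IsCompact K)
    (h : ∀ z ∈ K, Good m η r z.1 z.2.1 z.2.2) : ∃ γ : ℝ, 0 < γ ∧ ∀ z ∈ K, ∀ V φ g,
      z.1 - γ ≤ V → (∀ c, |φ c - z.2.1 c| ≤ γ) → (∀ c, g c ≤ z.2.2 c + γ) → Good m η r V φ g := by
  obtain ⟨γ, hγ, H⟩ := hK.exists_cthickening_subset_open (isOpen_good m η hr) h
  refine ⟨γ, hγ, fun z hz V φ g h1 h2 h3 => ?_⟩
  have h4 : (z.1 - γ, φ, fun c => z.2.2 c + γ) ∈ cthickening γ K := by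
    refine mem_cthickening_of_dist_le _ z γ K hz ?_
    simp only [Prod.dist_eq, max_le_iff, dist_pi_le_iff hγ.le, Real.dist_eq]
    exact ⟨by simp [abs_of_pos hγ], h2, fun c => by simp [abs_of_pos hγ]⟩
  exact Good.mono (H h4) h1 (fun c _ => h3 c) fun _ _ => le_rfl

end Pt

/-! ### states -/

section St

variable {X C : Type} {φ ψ χ : C → X → ℝ} {c : C} {f f' : X → ℝ}

theorem Shr.refl (φ : C → X → ℝ) : Shr φ φ := fun _ _ => Shr1.refl _

theorem Shr.trans (h : Shr φ ψ) (h' : Shr ψ χ) : Shr φ χ := fun c p => (h c p).trans (h' c p)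

theorem ev_update [DecidableEq C] (p : X) : ev (update φ c f) p = update (ev φ p) c (f p) := by
  funext b
  by_cases h : b = c
  · subst h; simp [ev]
  · simp [ev, update_of_ne h]

theorem Shr.update [DecidableEq C] (h : ∀ b, b ≠ c → ∀ p, Shr1 (φ b p) (ψ b p))
    (hf : ∀ p, Shr1 (φ c p) (f p)) : Shr φ (update ψ c f) := fun b p => by
  by_cases e : b = c
  · subst e; simpa using hf p
  · simpa [update_of_ne e] using h b e p

theorem Shr.park [DecidableEq C] (h : Shr φ ψ) (c : C) : Shr (park φ c) (park ψ c) :=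
  Shr.update (fun b e p => by simpa [update_of_ne e] using h b p) fun p => by simpa using Shr1.refl _

theorem Shr.of_park [DecidableEq C] (h : Shr (G.park φ c) ψ) {b : C} (e : b ≠ c) (p : X) :
    Shr1 (φ b p) (ψ b p) := by simpa [update_of_ne e] using h b p

theorem Shr.not_fin [DecidableEq C] (h : Shr (G.park φ c) ψ) (p : X) : π / 2 < |ψ c p| :=
  not_le.1 fun x => not_fin_pi.not_ge (by simpa using (h c p).abs_le x)

variable [Fintype C] {A A' : Set X} {η : C → ℝ} {ℓ : ℕ → C → ℝ} {m : ℕ} {ρ : ℝ}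

theorem Shr.fin (h : Shr φ ψ) (p : X) : fin (ev ψ p) ⊆ fin (ev φ p) := fin_subset fun c => h c p

theorem fin_park [DecidableEq C] (p : X) : fin (ev (park φ c) p) = (fin (ev φ p)).erase c := by
  rw [ev_update, fin_update_out not_fin_pi]

theorem Led.of_fin {Y : Type} {B : Set Y} {ψ : C → Y → ℝ} (h : Led η ℓ A φ)
    (hs : ∀ q ∈ B, ∃ p ∈ A, fin (ev ψ q) ⊆ fin (ev φ p)) : Led η ℓ B ψ :=
  ⟨h.1, h.2.1, fun k q hq c hc => by
    obtain ⟨p, hp, e⟩ := hs q hq
    exact (add_le_add_right (Finset.sum_le_sum_of_subset_of_nonneg e fun b _ _ => h.1 k b)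
      _).trans (h.2.2 k p hp c (e hc))⟩

theorem Led.shr (h : Led η ℓ A φ) (hs : Shr φ ψ) : Led η ℓ A ψ :=
  h.of_fin fun p hp => ⟨p, hp, hs.fin p⟩

theorem Led.led1 [DecidableEq C] (h : Led η ℓ A φ) (m : ℕ) (c : C) :
    Led1 η ℓ m A φ c (ℓ (m + 1) c) :=
  ⟨h.of_fin fun p hp => ⟨p, hp, fin_park (φ := φ) p ▸ Finset.erase_subset _ _⟩, h.2.1 m c,
    fun p hp hc => (add_le_add_right (Finset.sum_le_sum_of_subset_of_nonneg
      (fin_park (φ := φ) p ▸ Finset.erase_subset _ _) fun b _ _ => h.1 m b) _).trans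
      (h.2.2 m p hp c (mem_fin.2 hc))⟩

theorem Led1.shr [DecidableEq C] (h : Led1 η ℓ m A φ c ρ) (hs : Shr φ ψ) : Led1 η ℓ m A ψ c ρ :=
  ⟨h.1.shr (hs.park c), h.2.1, fun p hp hc => (add_le_add_right
    (Finset.sum_le_sum_of_subset_of_nonneg ((hs.park c).fin p) fun b _ _ => h.1.1 m b) _).trans
    (h.2.2 p hp ((hs c p).abs_le hc))⟩

variable [TopologicalSpace X]

theorem Inn0.inn (h : Inn0 m A φ) (c : C) : Inn m A φ c := fun p hp _ => h p hp

theorem Inn0.shr (h : Inn0 m A φ) (hs : Shr φ ψ) : Inn0 m A ψ :=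
  fun p hp => (h p hp).imp_left fun h => h.of_subset (hs.fin p)

theorem Inn.shr (h : Inn m A φ c) (hs : Shr φ ψ) : Inn m A ψ c :=
  fun p hp hc => (h p hp ((hs c p).abs_le hc)).imp_left fun h => h.of_subset (hs.fin p)

theorem inn0_of_inn (hm : 2 ≤ m) (h : ∀ c, Inn m A φ c) : Inn0 m A φ := fun p hp => by
  by_cases e : ∃ c, |φ c p| ≤ π / 2
  · obtain ⟨c, hc⟩ := e
    exact h c p hp hc
  · exact Or.inl (few_of_none hm fun c => not_le.1 fun x => e ⟨c, x⟩)

end St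

end Crest.Agent.N228.G

end
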