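import Crest.Agent.N228.Nk.Prof
import Mathlib.Analysis.SpecialFunctions.Trigonometric.ArctanDeriv
import Mathlib.Analysis.Real.Pi.Bounds

/-!
# Row 228, block G, leaf Boost, part 1: the scalar map of one colour and the damping profile

In the coordinate `y = cot t` the map is `y ↦ (1 - (1 - ρ²) μ) y - e q`.
-/

set_option autoImplicit false
open Set Filter Topology Real
open scoped ContDiff

noncomputable section

namespace Crest.Agent.N228.G.Bo

open Crest.Agent.N228.Nk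

/-- the damping profile -/
theorem exists_Om {A B : ℝ} (h : A + 1 ≤ B) : ∃ Ω Ω' : ℝ → ℝ, ContDiff ℝ ∞ Ω ∧
    (∀ x, HasDerivAt Ω (Ω' x) x ∧ 0 < Ω x ∧ Ω x ≤ 1 ∧ |Ω' x| ≤ 3 / 5 * Ω x) ∧
    (∀ x ≤ A, Ω x = 1 ∧ Ω' x = 0) ∧
    ∀ x, B ≤ x → Ω x = exp (-(3 / 5) * (B - A - 1)) ∧ Ω' x = 0 := by
  have hc : Continuous fun s : ℝ => smoothTransition (s / 1) := by fun_prop
  have e : ∀ x, ramp 1 (x - A) - ramp 1 (x - (B - 1)) =
      ∫ s in (x - (B - 1))..(x - A), smoothTransition (s / 1) := fun x =>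
    intervalIntegral.integral_interval_sub_left (hc.intervalIntegrable _ _)
      (hc.intervalIntegrable _ _)
  refine ⟨fun x => exp (-(3 / 5) * (ramp 1 (x - A) - ramp 1 (x - (B - 1)))),
    fun x => exp (-(3 / 5) * (ramp 1 (x - A) - ramp 1 (x - (B - 1)))) * (-(3 / 5) *
      (smoothTransition ((x - A) / 1) - smoothTransition ((x - (B - 1)) / 1))),
    (contDiff_const.mul (((contDiff_ramp 1).comp (contDiff_id.sub contDiff_const)).sub
      ((contDiff_ramp 1).comp (contDiff_id.sub contDiff_const)))).exp, fun x => ⟨?_, exp_pos _,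
      ?_, ?_⟩, fun x hx => ⟨?_, ?_⟩, fun x hx => ⟨?_, ?_⟩⟩
  · exact ((((hasDerivAt_ramp 1 _).comp_sub_const x A).sub
      ((hasDerivAt_ramp 1 _).comp_sub_const x (B - 1))).const_mul _).exp
  · rw [exp_le_one_iff, e]
    exact mul_nonpos_of_nonpos_of_nonneg (by norm_num)
      (intervalIntegral.integral_nonneg (by linarith) fun _ _ => smoothTransition.nonneg _)
  · rw [abs_mul, abs_of_pos (exp_pos _), mul_comm]
    refine mul_le_mul_of_nonneg_right (abs_le.2 ?_) (exp_pos _).le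
    constructor <;> linarith [smoothTransition.nonneg ((x - A) / 1),
      smoothTransition.le_one ((x - A) / 1), smoothTransition.nonneg ((x - (B - 1)) / 1),
      smoothTransition.le_one ((x - (B - 1)) / 1)]
  · simp only [ramp_eq_zero one_pos (show x - A ≤ 0 by linarith),
      ramp_eq_zero one_pos (show x - (B - 1) ≤ 0 by linarith), sub_zero, mul_zero, exp_zero]
  · simp only [smoothTransition.zero_of_nonpos (show (x - A) / 1 ≤ 0 by linarith),
      smoothTransition.zero_of_nonpos (show (x - (B - 1)) / 1 ≤ 0 by linarith), sub_zero, mul_zero]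
  · simp only [e]
    rw [intervalIntegral.integral_congr (g := fun _ => 1) fun s hs => ?_]
    · simp only [intervalIntegral.integral_const, smul_eq_mul, mul_one]; congr 2; ring
    · rw [uIcc_of_le (by linarith)] at hs
      exact smoothTransition.one_of_one_le (by linarith [hs.1])
  · simp only [smoothTransition.one_of_one_le (show 1 ≤ (x - A) / 1 by linarith),
      smoothTransition.one_of_one_le (show 1 ≤ (x - (B - 1)) / 1 by linarith), sub_self, mul_zero]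

theorem arctan_cot {t : ℝ} (h0 : 0 < t) (h1 : t < π) : arctan (cos t / sin t) = π / 2 - t := by
  rw [← arctan_tan (x := π / 2 - t) (by linarith) (by linarith), tan_eq_sin_div_cos,
    sin_pi_div_two_sub, cos_pi_div_two_sub]

/-- the cut-offs -/
structure Cu (η : ℝ) (Y ρ q : ℝ → ℝ) : Prop where
  pos : 0 < η
  le : η ≤ 1 / 4
  sY : ContDiff ℝ ∞ Y
  sρ : ContDiff ℝ ∞ ρ
  sq : ContDiff ℝ ∞ q
  ρm : ∀ t, 0 ≤ ρ t ∧ ρ t ≤ 1
  qm : ∀ t, 0 ≤ q t ∧ q t ≤ 1
  ρ1 : ∀ t ≤ η, ρ t = 1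
  ρ0 : ∀ t, 2 * η ≤ t → ρ t = 0
  q0 : ∀ t ≤ 3 * η, q t = 0
  q1 : ∀ t, 4 * η ≤ t → q t = 1
  cot : ∀ t, η / 2 ≤ t → t ≤ 2 → Y t = cos t / sin t
  far : ∀ t, π / 2 < t → Y t < 0 → π / 2 ≤ t + arctan (Y t)

theorem exists_cu {η : ℝ} (h0 : 0 < η) (h1 : η ≤ 1 / 4) : ∃ Y ρ q, Cu η Y ρ q := by
  let σ : ℝ → ℝ := fun t => smoothTransition (2 - 4 * (t / η)) + smoothTransition (t - 2)
  have s0 : ∀ t, 0 ≤ σ t := fun t => add_nonneg (smoothTransition.nonneg _)
    (smoothTransition.nonneg _)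
  have s1 : ∀ t, 0 < sin t ^ 2 + σ t := fun t => by
    rcases le_or_gt t 0 with h | h
    · exact add_pos_of_nonneg_of_pos (sq_nonneg _) (add_pos_of_pos_of_nonneg
        (smoothTransition.pos_of_pos (by linarith [div_nonpos_of_nonpos_of_nonneg h h0.le]))
        (smoothTransition.nonneg _))
    rcases lt_or_ge t π with h' | h'
    · exact add_pos_of_pos_of_nonneg (pow_pos (sin_pos_of_pos_of_lt_pi h h') 2) (s0 t)
    · exact add_pos_of_nonneg_of_pos (sq_nonneg _) (add_pos_of_nonneg_of_pos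
        (smoothTransition.nonneg _) (smoothTransition.pos_of_pos (by linarith [pi_gt_three])))
  have sm : ∀ {f : ℝ → ℝ}, ContDiff ℝ ∞ f → ContDiff ℝ ∞ fun t => smoothTransition (f t) :=
    fun hf => smoothTransition.contDiff.comp hf
  refine ⟨fun t => cos t * sin t / (sin t ^ 2 + σ t), fun t => smoothTransition (2 - t / η),
    fun t => smoothTransition (t / η - 3), h0, h1, (contDiff_cos.mul contDiff_sin).div
      ((contDiff_sin.pow 2).add ((sm (by fun_prop)).add (sm (by fun_prop)))) fun t => (s1 t).ne',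
    sm (by fun_prop), sm (by fun_prop),
    fun t => ⟨smoothTransition.nonneg _, smoothTransition.le_one _⟩,
    fun t => ⟨smoothTransition.nonneg _, smoothTransition.le_one _⟩,
    fun t h => smoothTransition.one_of_one_le (by linarith [(div_le_one h0).2 h]),
    fun t h => smoothTransition.zero_of_nonpos (by linarith [(le_div_iff₀ h0).2 h]),
    fun t h => smoothTransition.zero_of_nonpos (by linarith [(div_le_iff₀ h0).2 h]),
    fun t h => smoothTransition.one_of_one_le (by linarith [(le_div_iff₀ h0).2 h]),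
    fun t h h' => ?_, fun t h h' => ?_⟩
  · have := (sin_pos_of_pos_of_lt_pi (x := t) (by linarith) (by linarith [pi_gt_three])).ne'
    have e : σ t = 0 := by
      simp only [σ, smoothTransition.zero_of_nonpos (show t - 2 ≤ 0 by linarith),
        smoothTransition.zero_of_nonpos (show 2 - 4 * (t / η) ≤ 0 by
          linarith [(le_div_iff₀ h0).2 (show 1 / 2 * η ≤ t by linarith)]), add_zero]
    simp only [e, add_zero]
    field_simp
  · rcases lt_or_ge t π with h2 | h2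
    · have hs := sin_pos_of_pos_of_lt_pi (x := t) (by linarith [pi_pos]) h2
      have hc := cos_nonpos_of_pi_div_two_le_of_le h.le (by linarith [pi_pos])
      have : cos t / sin t ≤ cos t * sin t / (sin t ^ 2 + σ t) := by
        rw [div_le_div_iff₀ hs (s1 t)]
        nlinarith [mul_nonneg (neg_nonneg.2 hc) (s0 t)]
      linarith [arctan_mono this, arctan_cot (t := t) (by linarith [pi_pos]) h2]
    · linarith [neg_pi_div_two_lt_arctan (cos t * sin t / (sin t ^ 2 + σ t))]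

theorem core {y M r r' q q' C μ e δ a G b m g1 g2 g3 : ℝ} (hy : 0 ≤ y) (hyM : y ≤ M) (r0 : 0 ≤ r)
    (r1 : r ≤ 1) (hr : |r'| ≤ C) (q0 : 0 ≤ q) (q1 : q ≤ 1) (hq : |q'| ≤ C)
    (hd : (r = 0 ∧ r' = 0) ∨ (q = 0 ∧ q' = 0)) (μ0 : 0 ≤ μ) (μ1 : μ < 1) (e0 : 0 ≤ e) (δ0 : 0 < δ)
    (δ1 : δ ≤ 1 / 2) (hδ : 4 * δ * (C * G * M) ≤ a) (b0 : 0 ≤ b) (m0 : 0 ≤ m) (g10 : 0 ≤ g1)
    (g1G : g1 ≤ G) (h1 : (1 + y ^ 2) * g1 < b * y + a) (g20 : 0 ≤ g2) (h2 : g2 ≤ (1 - μ) * m)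
    (g30 : 0 ≤ g3) (h3 : (b + C * G) * e + g3 ≤ a * μ) (hem : e * m = 0)
    (hy' : 0 ≤ (1 - (1 - r ^ 2) * μ) * y - e * q) :
    |-((1 - (1 - r ^ 2) * μ) * (1 + y ^ 2)) + 2 * r * r' * μ * y - e * q'| * g1 +
      |-((1 - r ^ 2) * y)| * g2 + |-q| * g3 <
      (b + 2 * (C * G) / δ ^ 2 + m) * ((1 - (1 - r ^ 2) * μ) * y - e * q) + a := by
  have C0 : 0 ≤ C := (abs_nonneg _).trans hr
  have G0 : 0 ≤ G := g10.trans g1G
  have r2 : r ^ 2 ≤ 1 := pow_le_one₀ r0 r1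
  have l1 : 1 - μ ≤ 1 - (1 - r ^ 2) * μ := by nlinarith [sq_nonneg r]
  have l2 : r ^ 2 ≤ 1 - (1 - r ^ 2) * μ := by nlinarith
  set l := 1 - (1 - r ^ 2) * μ with hl
  have l0 : 0 < l := by linarith
  have a1 : |-(l * (1 + y ^ 2)) + 2 * r * r' * μ * y - e * q'| * g1 ≤
      l * ((1 + y ^ 2) * g1) + 2 * r * μ * y * (C * G) + e * |q'| * G := by
    refine (mul_le_mul_of_nonneg_right ((abs_sub _ _).trans (add_le_add (abs_add_le _ _) le_rfl))
      g10).trans ?_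
    rw [abs_neg, abs_of_nonneg (by positivity : 0 ≤ l * (1 + y ^ 2)),
      show 2 * r * r' * μ * y = 2 * r * μ * y * r' by ring, abs_mul _ r', abs_mul e,
      abs_of_nonneg (by positivity : 0 ≤ 2 * r * μ * y), abs_of_nonneg e0, add_mul, add_mul,
      mul_assoc l, mul_assoc _ |r'|]
    gcongr
  have a2 : |-((1 - r ^ 2) * y)| * g2 ≤ y * (l * m) := by
    rw [abs_neg, abs_of_nonneg (mul_nonneg (by linarith) hy)]
    exact mul_le_mul (mul_le_of_le_one_left hy (by linarith [sq_nonneg r]))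
      (h2.trans (mul_le_mul_of_nonneg_right l1 m0)) g20 hy
  have a3 := mul_lt_mul_of_pos_left h1 l0
  have a4 : 0 ≤ 2 * (C * G) / δ ^ 2 * (l * y - e * q) := by positivity
  rw [abs_neg q, abs_of_nonneg q0]
  rcases hd with ⟨rfl, rfl⟩ | ⟨rfl, rfl⟩
  · have a5 : e * |q'| * G ≤ e * C * G := by gcongr
    have a6 : b * (e * q) ≤ b * e := mul_le_mul_of_nonneg_left (mul_le_of_le_one_right e0 q1) b0
    have a7 : a * l = a - a * μ := by rw [hl]; ring
    have a8 : m * (e * q) = 0 := by linear_combination q * hem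
    have a9 := mul_le_of_le_one_left g30 q1
    simp only [mul_zero, zero_mul, add_zero] at a1 ⊢
    generalize 2 * (C * G) / δ ^ 2 = κ at a4 ⊢
    clear_value l
    linarith
  · have a5 : 2 * r * μ * y * (C * G) ≤ 2 * (C * G) / δ ^ 2 * (l * y) + a * (1 - l) := by
      have a0 : 0 ≤ a := le_trans (by have := hy.trans hyM; positivity) hδ
      have l3 : 1 - l = (1 - r ^ 2) * μ := by rw [hl]; ring
      rcases le_total δ r with h | h
      · refine le_add_of_le_of_nonneg ?_ (by rw [l3]; exact mul_nonneg a0 (mul_nonneg (by linarith) μ0))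
        calc _ = 2 * (C * G) / δ ^ 2 * (δ ^ 2 * y * (r * μ)) := by field_simp
          _ ≤ 2 * (C * G) / δ ^ 2 * (l * y * 1) := by
            gcongr
            exacts [(pow_le_pow_left₀ δ0.le h 2).trans l2, mul_le_one₀ r1 μ0 μ1.le]
          _ = _ := by ring
      · refine le_add_of_nonneg_of_le (by positivity) ?_
        calc _ ≤ 2 * δ * μ * M * (C * G) := by gcongr
          _ = 4 * δ * (C * G * M) * (1 / 2 * μ) := by ring
          _ ≤ a * ((1 - r ^ 2) * μ) := by gcongr; nlinarith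
          _ = _ := by rw [l3]
    simp only [abs_zero, mul_zero, zero_mul, sub_zero, add_zero] at a1 ⊢
    nlinarith

variable (Y ρ q : ℝ → ℝ)

/-- the new value of `y` -/
def yy (z : ℝ × ℝ × ℝ) : ℝ := (1 - (1 - ρ z.1 ^ 2) * z.2.1) * Y z.1 - z.2.2 * q z.1

def bb (z : ℝ × ℝ × ℝ) : ℝ := arctan (Y z.1) - arctan (yy Y ρ q z)

/-- the map -/
def BB (z : ℝ × ℝ × ℝ) : ℝ := z.1 + bb Y ρ q z - bb Y ρ q (-z.1, z.2)

theorem BB_neg (t : ℝ) (w : ℝ × ℝ) : BB Y ρ q (-t, w) = -BB Y ρ q (t, w) := by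
  simp only [BB, neg_neg]; ring

theorem BB_zero (t : ℝ) : BB Y ρ q (t, 0, 0) = t := by simp [BB, bb, yy]

/-- the derivative in coordinates -/
def Der (B : ℝ × ℝ × ℝ → ℝ) (z : ℝ × ℝ × ℝ) (c1 c2 c3 : ℝ) : Prop :=
  ∃ L : ℝ × ℝ × ℝ →L[ℝ] ℝ, HasFDerivAt B L z ∧ ∀ v, L v = c1 * v.1 + c2 * v.2.1 + c3 * v.2.2

namespace Cu

variable {Y ρ q} {η t μ e : ℝ} (h : Cu η Y ρ q)
include h

theorem contDiff : ContDiff ℝ ∞ (BB Y ρ q) := by
  have hb : ContDiff ℝ ∞ (bb Y ρ q) := (h.sY.comp contDiff_fst).arctan.sub (ContDiff.arctan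
    (((contDiff_const.sub ((contDiff_const.sub ((h.sρ.comp contDiff_fst).pow 2)).mul
      contDiff_snd.fst)).mul (h.sY.comp contDiff_fst)).sub
      (contDiff_snd.snd.mul (h.sq.comp contDiff_fst))))
  exact (contDiff_fst.add hb).sub (hb.comp (contDiff_fst.neg.prodMk contDiff_snd))

theorem bb_zero {z : ℝ × ℝ × ℝ} (hz : z.1 ≤ η) : bb Y ρ q z = 0 := by
  simp [bb, yy, h.ρ1 _ hz, h.q0 z.1 (by linarith [h.pos])]

theorem BB_cot {z : ℝ × ℝ × ℝ} (h0 : η / 2 ≤ z.1) (h1 : z.1 ≤ 2) :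
    BB Y ρ q z = π / 2 - arctan (yy Y ρ q z) := by
  have := h.pos
  rw [BB, h.bb_zero (z := (-z.1, z.2)) (by linarith), bb, h.cot _ h0 h1,
    arctan_cot (by linarith) (by linarith [pi_gt_three])]
  ring

theorem shr (μ0 : 0 ≤ μ) (μ1 : μ < 1) (e0 : 0 ≤ e) (ht : π / 2 < t) : π / 2 < BB Y ρ q (t, μ, e) := by
  have r2 : ρ t ^ 2 ≤ 1 := pow_le_one₀ (h.ρm t).1 (h.ρm t).2
  have e1 := mul_nonneg e0 (h.qm t).1
  rw [BB, h.bb_zero (z := (-t, μ, e)) (by linarith [h.pos, pi_pos]), bb, yy]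
  rcases le_or_gt 0 (Y t) with h1 | h1
  · have : (1 - (1 - ρ t ^ 2) * μ) * Y t - e * q t ≤ Y t := by
      nlinarith [mul_nonneg (mul_nonneg (sub_nonneg.2 r2) μ0) h1]
    linarith [arctan_mono this]
  · have : (1 - (1 - ρ t ^ 2) * μ) * Y t - e * q t < 0 := by
      have : 0 < 1 - (1 - ρ t ^ 2) * μ := by nlinarith [sq_nonneg (ρ t)]
      nlinarith
    linarith [arctan_lt_zero.2 this, h.far t ht h1]

theorem sin_pos : 0 < sin η := sin_pos_of_pos_of_lt_pi h.pos (by linarith [h.le, pi_gt_three])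

theorem inv_le (h0 : η ≤ t) (h1 : t ≤ π / 2) : 0 < sin t ∧ (sin t)⁻¹ ≤ (sin η)⁻¹ ∧ 0 ≤ cos t ∧
    Y t = cos t / sin t ∧ 0 ≤ Y t ∧ Y t ≤ (sin η)⁻¹ := by
  have h2 := sin_le_sin_of_le_of_le_pi_div_two (by linarith [h.pos, pi_pos]) h1 h0
  have h3 := h.sin_pos.trans_le h2
  have h4 := cos_nonneg_of_neg_pi_div_two_le_of_le (x := t) (by linarith [h.pos, pi_pos]) h1
  have h5 := h.cot t (by linarith [h.pos]) (by linarith [pi_le_four])
  have h6 := inv_anti₀ h.sin_pos h2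
  refine ⟨h3, h6, h4, h5, h5 ▸ div_nonneg h4 h3.le, le_trans ?_ h6⟩
  rw [h5, ← one_div]
  exact div_le_div_of_nonneg_right (cos_le_one t) h3.le

theorem push (μ0 : 0 ≤ μ) (μ1 : μ < 1) (ht : 4 * η ≤ t) (he : (1 - μ) * (sin η)⁻¹ < e) :
    π / 2 < BB Y ρ q (t, μ, e) := by
  have := h.pos
  have := h.sin_pos
  have : 0 < 1 - μ := by linarith
  rcases le_or_gt t (π / 2) with h1 | h1
  · rw [h.BB_cot (by linarith) (by linarith [pi_le_four]), lt_sub_comm, sub_self, arctan_lt_zero]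
    simp only [yy, h.ρ0 t (by linarith), h.q1 t ht]
    nlinarith [(h.inv_le (by linarith) h1).2.2.2.2.2]
  · exact h.shr μ0 μ1 (le_trans (by positivity) he.le) h1

theorem der_cot (h0 : η ≤ t) (h1 : t ≤ π / 2) : Der (BB Y ρ q) (t, μ, e)
    (-(1 / (1 + yy Y ρ q (t, μ, e) ^ 2) * (-((1 - (1 - ρ t ^ 2) * μ) * (1 + Y t ^ 2)) +
      2 * ρ t * deriv ρ t * μ * Y t - e * deriv q t)))
    (-(1 / (1 + yy Y ρ q (t, μ, e) ^ 2) * -((1 - ρ t ^ 2) * Y t)))
    (-(1 / (1 + yy Y ρ q (t, μ, e) ^ 2) * -q t)) := by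
  obtain ⟨hs, -, -, hY, -⟩ := h.inv_le h0 h1
  have hn : Ioo (η / 2) 2 ∈ 𝓝 t := Ioo_mem_nhds (by linarith [h.pos]) (by linarith [pi_lt_four])
  have dY : HasDerivAt Y (-(1 + Y t ^ 2)) t := by
    refine (((hasDerivAt_cos t).div (hasDerivAt_sin t) hs.ne').congr_of_eventuallyEq
      (mem_of_superset hn fun s hs => h.cot s hs.1.le hs.2.le)).congr_deriv ?_
    rw [hY]; field_simp; ring
  have f1 := hasFDerivAt_fst (𝕜 := ℝ) (p := (t, μ, e))
  have f2 := (hasFDerivAt_snd (𝕜 := ℝ) (p := (t, μ, e))).fst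
  have f3 := (hasFDerivAt_snd (𝕜 := ℝ) (p := (t, μ, e))).snd
  have dρ := ((h.sρ.differentiable (by simp)) t).hasDerivAt.comp_hasFDerivAt (t, μ, e) f1
  have dq := ((h.sq.differentiable (by simp)) t).hasDerivAt.comp_hasFDerivAt (t, μ, e) f1
  have dy : HasFDerivAt (yy Y ρ q) _ (t, μ, e) :=
    (((((dρ.pow 2).const_sub 1).mul f2).const_sub 1).mul
      (dY.comp_hasFDerivAt (t, μ, e) f1)).sub (f3.mul dq)
  refine ⟨_, (dy.arctan.const_sub (π / 2)).congr_of_eventuallyEq ?_, fun v => ?_⟩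
  · exact mem_of_superset (continuous_fst.continuousAt hn) fun z hz => h.BB_cot hz.1.le hz.2.le
  · simp
    ring

theorem der_id (h0 : 0 ≤ t) (h1 : t < η) : Der (BB Y ρ q) (t, μ, e) 1 0 0 := by
  refine ⟨_, hasFDerivAt_fst.congr_of_eventuallyEq ?_, fun v => by simp⟩
  refine mem_of_superset (continuous_fst.continuousAt (Ioo_mem_nhds (a := -η) (b := η)
    (by linarith [h.pos]) h1)) fun z hz => ?_
  show BB Y ρ q z = z.1
  rw [BB, h.bb_zero hz.2.le, h.bb_zero (z := (-z.1, z.2)) (by linarith [hz.1])]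
  ring

/-- the slope estimate -/
theorem est {a G bm : ℝ} (ha : 0 < a) (G0 : 0 ≤ G) (b0 : 0 ≤ bm) : ∃ x K : ℝ, 0 ≤ x ∧ 0 ≤ K ∧
    ∀ t μ e : ℝ, 0 ≤ μ → μ < 1 → 0 ≤ e → |BB Y ρ q (t, μ, e)| ≤ π / 2 → ∃ c1 c2 c3,
      Der (BB Y ρ q) (t, μ, e) c1 c2 c3 ∧ ∀ β m g1 g2 g3 : ℝ, |β| ≤ bm → 0 ≤ m → 0 ≤ g1 → g1 ≤ G →
        g1 < β * cos t + a * sin t ^ 2 → 0 ≤ g2 → g2 ≤ (1 - μ) * m → 0 ≤ g3 → K * e + g3 ≤ a * μ →
        e * m = 0 → |c1| * g1 + |c2| * g2 + |c3| * g3 <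
          (x + m) * cos (BB Y ρ q (t, μ, e)) + a * sin (BB Y ρ q (t, μ, e)) ^ 2 := by
  obtain ⟨C, hC⟩ := (isCompact_Icc (a := (0 : ℝ)) (b := π / 2)).exists_bound_of_continuousOn
    ((h.sρ.continuous_deriv (by simp)).prodMk (h.sq.continuous_deriv (by simp))).continuousOn
  have C0 : 0 ≤ C := (norm_nonneg _).trans (hC 0 ⟨le_rfl, by positivity⟩)
  have hs := h.sin_pos
  have M1 : 1 ≤ (sin η)⁻¹ := (one_le_inv₀ hs).2 (sin_le_one η)
  set M := (sin η)⁻¹ with hM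
  set δ := min (1 / 2) (a / (4 * (C * G * M) + 1)) with hδ
  have δ0 : 0 < δ := by positivity
  have δ2 : 4 * δ * (C * G * M) ≤ a := by
    have := (le_div_iff₀ (by positivity)).1 (min_le_right (1 / 2) (a / (4 * (C * G * M) + 1)))
    linarith
  refine ⟨bm * M + 2 * (C * G) / δ ^ 2, bm * M + C * G, by positivity, by positivity, ?_⟩
  intro t μ e μ0 μ1 e0
  wlog t0 : 0 ≤ t generalizing t with H
  · intro hB
    obtain ⟨c1, c2, c3, ⟨L, hL, hL'⟩, h2⟩ := H (-t) (by linarith) (by rwa [BB_neg, abs_neg])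
    refine ⟨c1, -c2, -c3, ⟨_, ((hL.comp (t, μ, e) (f := fun z : ℝ × ℝ × ℝ => (-z.1, z.2))
      (hasFDerivAt_fst.neg.prodMk hasFDerivAt_snd)).neg).congr_of_eventuallyEq
      (.of_forall fun z => ?_), fun v => ?_⟩, ?_⟩
    · simp [BB_neg]
    · simp [hL']; ring
    · simpa only [BB_neg, cos_neg, sin_neg, neg_sq, abs_neg] using h2
  intro hB
  have t1 : t ≤ π / 2 := le_of_not_gt fun h1 => (h.shr μ0 μ1 e0 h1).not_ge ((le_abs_self _).trans hB)
  rcases lt_or_ge t η with h1 | h1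
  · refine ⟨1, 0, 0, h.der_id t0 h1, fun β m g1 g2 g3 hβ m0 _ _ h2 _ _ _ _ _ => ?_⟩
    rw [BB, h.bb_zero h1.le, h.bb_zero (z := (-t, μ, e)) (by linarith [h.pos])]
    have h3 : β ≤ bm * M + 2 * (C * G) / δ ^ 2 + m := by
      have : 0 ≤ 2 * (C * G) / δ ^ 2 := by positivity
      linarith [le_abs_self β, le_mul_of_one_le_right b0 M1]
    have := mul_le_mul_of_nonneg_right h3
      (cos_nonneg_of_neg_pi_div_two_le_of_le (x := t) (by linarith [pi_pos]) t1)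
    simp only [abs_one, abs_zero, add_zero, sub_zero, zero_mul, one_mul]
    linarith
  refine ⟨_, _, _, h.der_cot h1 t1, fun β m g1 g2 g3 hβ m0 g10 g1G h2 g20 h3 g30 h4 h5 => ?_⟩
  obtain ⟨s0, s1, c0, hY, Y0, Y1⟩ := h.inv_le h1 t1
  have hB' := h.BB_cot (z := (t, μ, e)) (by linarith [h.pos]) (by linarith [pi_le_four])
  have y0 : 0 ≤ yy Y ρ q (t, μ, e) := arctan_nonneg.1 (by linarith [le_abs_self (BB Y ρ q (t, μ, e))])
  have hd : (ρ t = 0 ∧ deriv ρ t = 0) ∨ (q t = 0 ∧ deriv q t = 0) := by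
    have := h.pos
    rcases lt_or_ge (2 * η) t with h6 | h6
    · exact .inl ⟨h.ρ0 t h6.le, (EventuallyEq.deriv_eq (mem_of_superset (Ioi_mem_nhds h6)
        fun s hs => h.ρ0 s (le_of_lt hs))).trans (deriv_const _ _)⟩
    · exact .inr ⟨h.q0 t (by linarith), (EventuallyEq.deriv_eq (mem_of_superset
        (Iio_mem_nhds (show t < 3 * η by linarith)) fun s hs => h.q0 s (le_of_lt hs))).trans
        (deriv_const _ _)⟩
  have h6 : (1 + Y t ^ 2) * g1 < bm * M * Y t + a := by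
    have e1 : 1 + Y t ^ 2 = (sin t)⁻¹ ^ 2 := by rw [hY]; field_simp; simp
    have e2 : (sin t)⁻¹ ^ 2 * (β * cos t + a * sin t ^ 2) = β * (sin t)⁻¹ * Y t + a := by
      rw [hY]; field_simp
    have e3 : β * (sin t)⁻¹ * Y t ≤ bm * M * Y t := by
      gcongr; exact (le_abs_self β).trans hβ
    have := mul_lt_mul_of_pos_left h2 (pow_pos (inv_pos.2 s0) 2)
    rw [e1]; linarith
  have h7 := core Y0 Y1 (h.ρm t).1 (h.ρm t).2 ((norm_fst_le _).trans (hC t ⟨t0, t1⟩)) (h.qm t).1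
    (h.qm t).2 ((norm_snd_le _).trans (hC t ⟨t0, t1⟩)) hd μ0 μ1 e0 δ0 (min_le_left _ _) δ2
    (by positivity) m0 g10 g1G h6 g20 h3 g30 h4 h5 y0
  rw [hB', cos_pi_div_two_sub, sin_pi_div_two_sub, sin_arctan, cos_sq_arctan]
  change _ < _ * yy Y ρ q (t, μ, e) + a at h7
  generalize yy Y ρ q (t, μ, e) = y at y0 h7 ⊢
  have p0 : 0 < 1 / (1 + y ^ 2) := by positivity
  have h8 : 1 / (1 + y ^ 2) * y ≤ y / √(1 + y ^ 2) := by
    rw [one_div, inv_mul_eq_div]
    gcongr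
    exact sqrt_le_self_iff.2 (.inr (by linarith [sq_nonneg y]))
  have h9 := mul_le_mul_of_nonneg_left h8
    (by positivity : 0 ≤ bm * M + 2 * (C * G) / δ ^ 2 + m)
  have h10 := mul_lt_mul_of_pos_left h7 p0
  simp only [abs_neg (1 / (1 + y ^ 2) * _), abs_mul (1 / (1 + y ^ 2)), abs_of_pos p0]
  linarith

end Cu

end Crest.Agent.N228.G.Bo

end
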