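import Crest.Agent.N228.G.Defs
import Crest.Agent.N228.G.Boost1

/-!
# Row 228, block G, leaf Boost
-/

set_option autoImplicit false
open Set Filter Topology Function Real
open scoped ContDiff
open Crest.Agent.N222

noncomputable section

namespace Crest.Agent.N228.G

open Crest.Agent.N228.J (JC)

namespace Bo

variable {d : ℕ} {ι : Type} [Fintype ι] [DecidableEq ι] {X : Type} [TopologicalSpace X]
  {M : Imm d ι X} {p : X}

theorem grad_der {f1 f2 f3 : X → ℝ} (h1 : M.Sm f1) (h2 : M.Sm f2) (h3 : M.Sm f3)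
    {B : ℝ × ℝ × ℝ → ℝ} {c1 c2 c3 : ℝ} (h : Der B (f1 p, f2 p, f3 p) c1 c2 c3) :
    M.grad (fun q => B (f1 q, f2 q, f3 q)) p =
      c1 • M.grad f1 p + c2 • M.grad f2 p + c3 • M.grad f3 p := by
  obtain ⟨L, hL, hL'⟩ := h
  have := Imm.td_comp ((h1.prodMk (h2.prodMk h3)).diffAt p) hL.differentiableAt
  rw [hL.fderiv, Imm.td_prodMk (h1.diffAt p) ((h2.prodMk h3).diffAt p),
    Imm.td_prodMk (h2.diffAt p) (h3.diffAt p)] at this
  ext a
  exact (congrArg (fun T : E ι →L[ℝ] ℝ => T (ee a)) this).trans (hL' _)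

theorem grad_comp {f : X → ℝ} (hf : M.Sm f) {g : ℝ → ℝ} {g' : ℝ} (hg : HasDerivAt g g' (f p)) :
    M.grad (fun q => g (f q)) p = g' • M.grad f p := by
  ext a
  exact Imm.D_comp (hf.diffAt p) hg a

theorem abs_le_of_shr {a b : ℝ} (h : Shr1 a b) (hb : |b| ≤ π / 2) : |a| ≤ π / 2 :=
  abs_le.2 ⟨le_of_not_gt fun h1 => (h.2 h1).not_ge (abs_le.1 hb).1,
    le_of_not_gt fun h1 => (h.1 h1).not_ge (abs_le.1 hb).2⟩

theorem exp_le {θ c k t : ℝ} (hθ : 0 < θ) (hc : 0 < c) (ht : 0 < t)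
    (h : t ≤ exp (20 * (log θ + 3 / 5 * (log c - log k - 1)))) :
    exp (-(3 / 5) * (log (c / t ^ (7 / 4 : ℝ)) - log k - 1)) ≤ θ * t := by
  rw [← log_le_iff_le_exp ht] at h
  rw [← le_log_iff_exp_le (by positivity), log_mul hθ.ne' ht.ne',
    log_div hc.ne' (by positivity), log_rpow ht]
  linarith

end Bo

open Bo in
theorem boost : BoostStmt := by
  intro d ι _ _ X _ _ _ _ _ M hX C _ φ η η0 Vm Cχ c w0 D o hφ hη h0 hc hw ho hD
  obtain ⟨Y, ρ, q, h⟩ := exists_cu (η := min η0 1 / 4) (by positivity)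
    (by linarith [min_le_right η0 1])
  obtain ⟨G, G0, hG⟩ := (isCompact_range (continuous_pi fun b => (hφ b).grad.continuous)
    ).isBounded.exists_pos_norm_le
  have a0 : ∀ b, 0 < √(η b) / 8 := fun b => by have := hη b; positivity
  choose x K x0 K0 hx using fun b => h.est (a0 b) G0.le (sqrt_nonneg Vm)
  obtain ⟨θ, θ0, hθ⟩ : ∃ θ : ℝ, 0 < θ ∧ ∀ b, θ * (K b + |Cχ|) ≤ √(η b) / 8 / 2 := by
    have h1 : ∀ b, 0 ≤ (K b + |Cχ|) / (√(η b) / 8 / 2) := fun b => by
      have := K0 b; have := a0 b; positivity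
    have h2 : 0 < ∑ b, (K b + |Cχ|) / (√(η b) / 8 / 2) + 1 :=
      add_pos_of_nonneg_of_pos (Finset.sum_nonneg fun b _ => h1 b) one_pos
    refine ⟨_, inv_pos.2 h2, fun b => ?_⟩
    rw [inv_mul_le_iff₀ h2, ← div_le_iff₀ (half_pos (a0 b))]
    linarith [Finset.single_le_sum (fun b _ => h1 b) (Finset.mem_univ b)]
  have hs := inv_pos.2 h.sin_pos
  set M0 := (sin (min η0 1 / 4))⁻¹
  set θ' := min (1 / 2) (θ / (2 * M0)) with hθ'
  have θ1 : 0 < θ' := by positivity
  refine ⟨∑ b, 100 / 3 * x b ^ 2, fun k => min 1 (exp (20 * (log θ' + 3 / 5 * (log c - log k - 1)))),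
    by positivity, fun k => by positivity, fun W k t χ hW W1 k0 H => ?_⟩
  have km : ∀ i j, i ≤ j → j ≤ D → k i ≤ k j := fun i j hij => by
    induction j, hij using Nat.le_induction with
    | base => exact fun _ => le_rfl
    | succ j _ ih => exact fun hj => (ih (by omega)).trans (H j (by omega)).1
  have k1 : ∀ b, w0 ≤ k (o b) := fun b => k0 ▸ km 0 _ (Nat.zero_le _) (hD b).le
  have H := fun b => H _ (hD b)
  have t0 := fun b => (H b).2.1
  have t1 := fun b => (H b).2.2.1.trans (min_le_left _ _)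
  have e1 := fun b => exp_le θ1 hc (t0 b) ((H b).2.2.1.trans (min_le_right _ _))
  have e2 := fun b => (e1 b).trans ((mul_le_of_le_one_right θ1.le (t1 b)).trans (min_le_left _ _))
  have hAB : ∀ b, log (k (o b)) + 1 ≤ log (c / t (o b) ^ (7 / 4 : ℝ)) := fun b => by
    linarith [exp_le_one_iff.1 ((e2 b).trans one_half_lt_one.le)]
  choose Ω Ω' sΩ dΩ lo hi using fun b => exists_Om (hAB b)
  have W0 : ∀ p, 0 < W p := fun p => one_pos.trans_le (W1 p)
  have hL : M.Sm fun p => log (W p) := hW.log fun p => (W0 p).ne'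
  have sat : ∀ b p, log (W p) < log (c / t (o b) ^ (7 / 4 : ℝ)) →
      χ (o b) p = 1 ∧ M.pre.gam (χ (o b)) (χ (o b)) p = 0 := fun b p hp => by
    by_contra hn
    have := t0 b
    exact hp.not_ge (log_le_log (by positivity) ((H b).2.2.2.2.2.2.1 p (not_and_or.1 hn)))
  have rg : ∀ s ∈ Icc (0 : ℝ) 1, ∀ b p, 0 ≤ s * (1 - Ω b (log (W p))) ∧
      s * (1 - Ω b (log (W p))) < 1 ∧ 0 ≤ s * (θ * t (o b) * (1 - χ (o b) p)) := fun s hs b p =>
    ⟨mul_nonneg hs.1 (sub_nonneg.2 (dΩ b _).2.2.1), (mul_le_of_le_one_left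
      (sub_nonneg.2 (dΩ b _).2.2.1) hs.2).trans_lt (sub_lt_self _ (dΩ b _).2.1), mul_nonneg hs.1
      (mul_nonneg (mul_pos θ0 (t0 b)).le (sub_nonneg.2 ((H b).2.2.2.2.1 p).2))⟩
  have shr : ∀ s ∈ Icc (0 : ℝ) 1, ∀ b p, Shr1 (φ b p) (BB Y ρ q (φ b p, s * (1 - Ω b (log (W p))),
      s * (θ * t (o b) * (1 - χ (o b) p)))) := fun s hs b p => by
    obtain ⟨r1, r2, r3⟩ := rg s hs b p
    refine ⟨h.shr r1 r2 r3, fun h1 => ?_⟩
    have := h.shr r1 r2 r3 (lt_neg.1 h1)
    rw [BB_neg] at this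
    exact lt_neg.1 this
  have s1 : ∀ b, M.Sm fun p => 1 - Ω b (log (W p)) := fun b => (Imm.sm_const 1).sub (hL.comp (sΩ b))
  have s2 : ∀ b, M.Sm fun p => θ * t (o b) * (1 - χ (o b) p) := fun b =>
    (Imm.sm_const _).mul ((Imm.sm_const 1).sub (H b).2.2.2.1)
  refine ⟨fun s b p => BB Y ρ q (φ b p, s * (1 - Ω b (log (W p))),
    s * (θ * t (o b) * (1 - χ (o b) p))), fun b => ?_, ?_, fun b p h1 h2 => ?_,
    fun s hs => ⟨shr s hs, fun p hp b => ?_, fun p P r V hP r0 hV ⟨β, hβ, hV'⟩ => ?_⟩⟩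
  · exact ((JC.of_sm rfl isOpen_univ (hφ b)).prodMk
      (((JC.consts isOpen_univ continuous_id).mul (JC.of_sm rfl isOpen_univ (s1 b))).prodMk
      ((JC.consts isOpen_univ continuous_id).mul (JC.of_sm rfl isOpen_univ (s2 b))))).comp
      h.contDiff
  · funext b p
    simp only [zero_mul, BB_zero]
  · obtain ⟨r1, r2, -⟩ := rg 1 ⟨zero_le_one, le_rfl⟩ b p
    have h3 : (1 - 1 * (1 - Ω b (log (W p)))) * M0 < 1 * (θ * t (o b) * (1 - χ (o b) p)) := by
      rw [(hi b _ (le_of_not_gt fun h => by simpa [h1] using (sat b p h).1)).1, h1]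
      have h4 := (le_div_iff₀ (by positivity)).1 (min_le_right (1 / 2) (θ / (2 * M0)))
      nlinarith [mul_le_mul_of_nonneg_right (e1 b) hs.le, mul_pos θ0 (t0 b),
        mul_le_mul_of_nonneg_right h4 (t0 b).le]
    rcases le_abs.1 h2 with h4 | h4
    · exact (h.push r1 r2 (by linarith [min_le_left η0 1]) h3).trans_le (le_abs_self _)
    · have := h.push (t := -φ b p) r1 r2 (by linarith [min_le_left η0 1]) h3
      rw [BB_neg] at this
      exact this.trans_le (neg_le_abs _)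
  · have h1 := log_le_log (W0 p) (hp.le.trans (k1 b))
    simp only [(lo b _ h1).1, (sat b p (by linarith [hAB b])).1, sub_self, mul_zero, BB_zero]
  classical
  set l := ‖P (M.grad (fun q => log (W q)) p)‖ with hl
  have sub : ∀ b ∈ fin (ev (fun b p => BB Y ρ q (φ b p, s * (1 - Ω b (log (W p))),
      s * (θ * t (o b) * (1 - χ (o b) p)))) p), b ∈ fin (ev φ p) := fun b hb =>
    Finset.mem_filter.2 ⟨Finset.mem_univ _, abs_le_of_shr (shr s hs b p) (Finset.mem_filter.1 hb).2⟩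
  have nn : ∀ b, 0 ≤ 4 / 3 * β b ^ 2 + r b := fun b => add_nonneg (by positivity) (r0 b)
  have hP' : ∀ v, ‖P v‖ ≤ ‖v‖ := fun v =>
    (P.le_opNorm v).trans (mul_le_of_le_one_left (norm_nonneg _) hP)
  refine ⟨fun b => x b + if Ω' b (log (W p)) = 0 then 0 else 3 / 5 * l, fun b hb => ?_, ?_⟩
  · obtain ⟨r1, r2, r3⟩ := rg s hs b p
    obtain ⟨c1, c2, c3, hd, h1⟩ := hx b _ _ _ r1 r2 r3 (Finset.mem_filter.1 hb).2
    have d2 := grad_comp (p := p) hL (((dΩ b _).1.const_sub 1).const_mul s)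
    have d3 := grad_comp (p := p) (H b).2.2.2.1
      ((((hasDerivAt_id' _).const_sub 1).const_mul (θ * t (o b))).const_mul s)
    have h2 : ‖P (M.grad (fun p => s * (θ * t (o b) * (1 - χ (o b) p))) p)‖ ≤
        s * (θ * t (o b)) * √(M.pre.gam (χ (o b)) (χ (o b)) p) := by
      refine (hP' _).trans_eq ?_
      rw [d3, norm_smul, Imm.gam_self_eq, sqrt_sq (norm_nonneg _), mul_neg, mul_neg, norm_neg,
        mul_one, Real.norm_of_nonneg (mul_nonneg hs.1 (mul_pos θ0 (t0 b)).le)]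
    refine lt_of_le_of_lt ?_ (h1 (β b) _ _ ‖P (M.grad (fun p => s * (1 - Ω b (log (W p)))) p)‖
      ‖P (M.grad (fun p => s * (θ * t (o b) * (1 - χ (o b) p))) p)‖ (abs_le_sqrt ?_)
      (by positivity) (norm_nonneg _) ((hP' _).trans ((norm_le_pi_norm
        (fun b => M.grad (φ b) p) b).trans (hG _ ⟨p, rfl⟩))) (hβ b (sub b hb)) (norm_nonneg _) ?_
      (norm_nonneg _) ?_ ?_)
    · simp only [grad_der (hφ b) ((Imm.sm_const s).mul (s1 b)) ((Imm.sm_const s).mul (s2 b)) hd,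
        map_add, map_smul]
      exact norm_add₃_le.trans_eq (by simp only [norm_smul, Real.norm_eq_abs])
    · linarith [Finset.single_le_sum (fun b _ => nn b) (sub b hb), r0 b, sq_nonneg (β b)]
    · rw [d2, map_smul, norm_smul, mul_neg, norm_neg, Real.norm_eq_abs, abs_mul, abs_of_nonneg hs.1]
      split_ifs with h3
      · simp [h3]
      · have h4 : s * |Ω' b (log (W p))| ≤ (1 - s * (1 - Ω b (log (W p)))) * (3 / 5) := by
          linarith [mul_le_mul_of_nonneg_left (dΩ b (log (W p))).2.2.2 hs.1, hs.2]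
        exact (mul_le_mul_of_nonneg_right h4 (norm_nonneg _)).trans_eq (mul_assoc _ _ _)
    · rcases lt_or_ge (log (W p)) (log (c / t (o b) ^ (7 / 4 : ℝ))) with h3 | h3
      · rw [(sat b p h3).2, sqrt_zero, mul_zero] at h2
        rw [(sat b p h3).1]
        linarith [mul_nonneg (a0 b).le r1]
      · have h4 : s * (θ * t (o b)) * √(M.pre.gam (χ (o b)) (χ (o b)) p) ≤ s * (θ * |Cχ|) := by
          refine (mul_le_mul_of_nonneg_left (((H b).2.2.2.2.2.1 p).trans (div_le_div_of_nonneg_right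
            (le_abs_self _) (t0 b).le)) (mul_nonneg hs.1 (mul_pos θ0 (t0 b)).le)).trans_eq ?_
          have := (t0 b).ne'
          field_simp
        have h5 : K b * (s * (θ * t (o b) * (1 - χ (o b) p))) ≤ K b * (s * (θ * 1 * 1)) := by
          have := K0 b
          have := hs.1
          have := ((H b).2.2.2.2.1 p).2
          gcongr
          exacts [t1 b, sub_le_self _ ((H b).2.2.2.2.1 p).1]
        rw [(hi b _ h3).1]
        linarith [mul_le_mul_of_nonneg_left (hθ b) hs.1,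
          mul_le_mul_of_nonneg_left (e2 b) (mul_nonneg (a0 b).le hs.1)]
    · rcases lt_or_ge (log (W p)) (log (c / t (o b) ^ (7 / 4 : ℝ))) with h3 | h3
      · simp [(sat b p h3).1]
      · simp [(hi b _ h3).2]
  · have h1 : ∀ b, Ω' b (log (W p)) ≠ 0 → k (o b) < W p ∧ W p < k (o b + 1) := fun b hb =>
      ⟨lt_of_not_ge fun h1 => hb (lo b _ (log_le_log (W0 p) h1)).2, lt_of_not_ge fun h1 =>
        (H b).2.2.2.2.2.2.2 p h1 (subset_tsupport _ (by
          simp [(sat b p (lt_of_not_ge fun h2 => hb (hi b _ h2).2)).1]))⟩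
    have h2 : ∑ b, (if Ω' b (log (W p)) = 0 then 0 else 3 / 5 * l) ^ 2 ≤ (3 / 5 * l) ^ 2 := by
      by_cases h2 : ∃ b, Ω' b (log (W p)) ≠ 0
      · obtain ⟨b, hb⟩ := h2
        rw [Finset.sum_eq_single b (fun b' _ hb' => ?_) (by simp), if_neg hb]
        rw [if_pos (by_contra fun h3 => ?_), zero_pow two_ne_zero]
        rcases lt_or_gt_of_ne (ho.ne hb') with h4 | h4
        · linarith [(h1 b hb).1, (h1 b' h3).2, km _ _ h4 (hD b).le]
        · linarith [(h1 b hb).2, (h1 b' h3).1, km _ _ h4 (hD b').le]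
      · rw [Finset.sum_eq_zero fun b _ => by simp [not_not.1 (not_exists.1 h2 b)]]
        positivity
    refine lt_of_le_of_lt (Finset.sum_le_sum (g := fun b => 100 / 3 * x b ^ 2 + 25 / 18 *
      (if Ω' b (log (W p)) = 0 then 0 else 3 / 5 * l) ^ 2 + (4 / 3 * β b ^ 2 + r b)) fun b _ => ?_) ?_
    · nlinarith [sq_nonneg (24 * x b - if Ω' b (log (W p)) = 0 then 0 else 3 / 5 * l),
        sq_nonneg (β b)]
    · rw [Finset.sum_add_distrib, Finset.sum_add_distrib, ← Finset.mul_sum _ _ (25 / 18 : ℝ)]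
      have h3 := Finset.sum_le_sum_of_subset_of_nonneg sub fun b _ _ => nn b
      have h4 := Finset.sum_le_univ_sum_of_nonneg (s := fin (ev (fun b p => BB Y ρ q (φ b p,
        s * (1 - Ω b (log (W p))), s * (θ * t (o b) * (1 - χ (o b) p)))) p))
        (f := fun b => 100 / 3 * x b ^ 2) fun b => by positivity
      have h5 := Finset.sum_le_univ_sum_of_nonneg (s := fin (ev (fun b p => BB Y ρ q (φ b p,
        s * (1 - Ω b (log (W p))), s * (θ * t (o b) * (1 - χ (o b) p)))) p))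
        (f := fun b => (if Ω' b (log (W p)) = 0 then 0 else 3 / 5 * l) ^ 2) fun b => sq_nonneg _
      linarith

end Crest.Agent.N228.G

end
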