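import Crest.Agent.N228.G.Path
import Crest.Agent.N228.N3.Close

/-!
# Row 228, block G (helper15): slopes on graphs, the embedded carrier
-/

set_option autoImplicit false
open MeasureTheory Set Filter Topology Function Metric Real
open scoped ContDiff InnerProductSpace RealInnerProductSpace
open Crest.Agent.N222

noncomputable section

namespace Crest.Agent.N228.G

/-- a contraction which removes `⟨X, z⟩²` from `|z|²` -/
theorem exists_proj {ι : Type} [Fintype ι] (X : E ι) {v : ℝ} (hv : 0 < v) (h : ‖X‖ ^ 2 = 1 - v ^ 2) :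
    ∃ P : E ι →L[ℝ] E ι, ‖P‖ ≤ 1 ∧ ∀ z, ⟪X, z⟫ ^ 2 + ‖P z‖ ^ 2 = ‖z‖ ^ 2 := by
  have h1 : ∀ z, ⟪X, z⟫ ^ 2 + ‖z - ((1 + v)⁻¹ * ⟪X, z⟫) • X‖ ^ 2 = ‖z‖ ^ 2 := fun z => by
    rw [norm_sub_sq_real, inner_smul_right, norm_smul, mul_pow, h, Real.norm_eq_abs, sq_abs,
      real_inner_comm X z]
    have : 1 + v ≠ 0 := by positivity
    field_simp
    ring
  let P : E ι →L[ℝ] E ι := ContinuousLinearMap.id ℝ _ - ((1 + v)⁻¹ • innerSL ℝ X).smulRight X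
  have h2 : ∀ z, ⟪X, z⟫ ^ 2 + ‖P z‖ ^ 2 = ‖z‖ ^ 2 := h1
  exact ⟨P, P.opNorm_le_bound zero_le_one fun z => le_of_sq_le_sq₀
    (by rw [one_mul]; nlinarith [h2 z, sq_nonneg ⟪X, z⟫]) (by positivity), h2⟩

theorem proj2 : ProjStmt := by
  intro d ι _ _ X _ _ _ _ _ M u hu p
  refine ⟨norm_grad_graph_self hu p, ?_⟩
  obtain ⟨P, h1, h2⟩ := exists_proj (M.vv u p • M.grad u p) (M.vv_pos u p) (by
    rw [norm_smul, mul_pow, ← Imm.gam_self_eq, Real.norm_eq_abs, sq_abs]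
    linear_combination M.vv_sq u p)
  have h3 : ∀ f, M.pre.dir (M.Xf u) f p = ⟪M.vv u p • M.grad u p, M.grad f p⟫ := fun f => by
    rw [inner_smul_left, ← Imm.gam_eq_inner, Imm.gam_apply, Imm.dir_apply, Finset.mul_sum]
    exact Finset.sum_congr rfl fun a _ => mul_assoc _ _ _
  refine ⟨P, h1, fun f => ⟨?_, h3 f ▸ h2 _⟩⟩
  have h4 := norm_grad_graph_sq hu f p
  rw [h3, ← h2 (M.grad f p)] at h4
  exact (sq_eq_sq₀ (norm_nonneg _) (norm_nonneg _)).1 (add_left_cancel h4)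

theorem car2 : CarStmt := by
  intro d ι _ _ X _ _ _ _ _ M hi V K δ hV h hK hδ
  obtain ⟨Y, _, _, _, _, _, _, N, e, c, F, h1, h2, h3, h4, h5⟩ :=
    N3.closeInj d ι X M hi V K δ hV h hK hδ
  let L : E ι →ₗᵢ[ℝ] E (Option ι) :=
    ⟨(upL ι ∘L ContinuousLinearMap.inr ℝ ℝ (E ι) :), fun y => by
      change ‖up 0 y‖ = ‖y‖
      simp [EuclideanSpace.norm_eq, up, Fintype.sum_option]⟩
  refine ⟨Option ι, inferInstance, inferInstance, Y, _, ‹_›, ‹_›, _, ‹_›, N, ‹_›, h1, e, L,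
    up c 0, F, h2, fun p hp => ?_, h4, h5⟩
  rw [h3 p hp]
  change _ = up 0 (M.x p) + up c 0
  ext (_ | a) <;> simp [up]

end Crest.Agent.N228.G

end
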