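import Crest.Agent.N228.W.Defs
import Crest.Agent.N228.J.JC
import Crest.Agent.N228.Nk.Pt
import Crest.Agent.N222.F.Coord
import Crest.Agent.N222.J.Imm

/-!
# Row 228, block G (helper15): the path theorem.  FROZEN definitions and statements

A state is an immersed manifold `M`, a closed set `A`, phases `φ c` (colour `c` is *finite* where
`|φ c| ≤ π / 2`) and reserves.  `SStmt m` : in dimension `m` a state can be moved inside the class to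
a state with at most `m - 2` finite colours at every point of `A`.  `LStepStmt m` : one localised
step.  Output of G: `∀ m ≥ 1, SStmt m ∧ LStepStmt m`.
See the team notes h15-G, h15-G2 (row 228).
-/

set_option autoImplicit false
open MeasureTheory Set Filter Topology Function Metric Real
open scoped ContDiff InnerProductSpace RealInnerProductSpace
open Crest.Agent.N222

noncomputable section

/-- more coordinates: the metric `g + ∑ dy_i²` (non smooth `y` are ignored) -/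
def Crest.Agent.N222.Imm.xt {d : ℕ} {ι κ : Type} [Fintype ι] [Fintype κ] {X : Type}
    [TopologicalSpace X] (M : Imm d ι X) (y : κ → X → ℝ) : Imm d (ι ⊕ κ) X := by
  classical
  refine ⟨fun p => WithLp.toLp 2 (Sum.elim (fun a => M.x p a)
    fun i => if ∀ i, M.Sm (y i) then y i p else 0), M.ch, M.mem, fun p => ?_⟩
  have h1 : ContDiffOn ℝ ∞ ((fun p => (WithLp.toLp 2 (Sum.elim (fun a => M.x p a)
      fun i => if ∀ i, M.Sm (y i) then y i p else 0) : E (ι ⊕ κ))) ∘ (M.ch p).symm)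
      (M.ch p).target := by
    refine contDiffOn_euclidean.2 fun c => ?_
    cases c with
    | inl a => exact contDiffOn_euclidean.1 (M.isChart p).sm a
    | inr i =>
      by_cases h : ∀ i, M.Sm (y i)
      · exact (h i p).congr fun z _ => if_pos h
      · exact (contDiffOn_const (c := (0 : ℝ))).congr fun z _ => if_neg h
  refine ⟨h1, fun z hz => ?_⟩
  have h2 := (h1.contDiffAt ((M.ch p).open_target.mem_nhds hz)).differentiableAt (by simp)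
  have h0 : ContDiff ℝ ∞ fun w : E (ι ⊕ κ) => (WithLp.toLp 2 fun a => w (Sum.inl a) : E ι) :=
    contDiff_euclidean.2 fun a => (contDiff_euclidean.1 contDiff_id) (Sum.inl a)
  have h3 := fderiv_comp z (h0.differentiable (by simp) _) h2
  have h5 := (M.isChart p).inj z hz
  rw [show M.x ∘ (M.ch p).symm = _ from rfl.trans (rfl : (fun w : E (ι ⊕ κ) =>
    (WithLp.toLp 2 fun a => w (Sum.inl a) : E ι)) ∘ ((fun p => (WithLp.toLp 2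
      (Sum.elim (fun a => M.x p a) fun i => if ∀ i, M.Sm (y i) then y i p else 0) : E (ι ⊕ κ))) ∘
      (M.ch p).symm) = _), h3] at h5
  exact Injective.of_comp h5

namespace Crest.Agent.N228.G

open Crest.Agent.N228.J (JC)

/-! ### the condition at one point -/

section Pt

variable {C : Type} [Fintype C]

/-- the finite colours -/
def fin (φ : C → ℝ) : Finset C := Finset.univ.filter fun c => |φ c| ≤ π / 2

/-- at most `m - 2` finite colours -/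
def Few (m : ℕ) (φ : C → ℝ) : Prop := (fin φ).card + 2 ≤ m

/-- the admissible slope of a phase -/
def rate (η β t : ℝ) : ℝ := β * cos t + √η / 8 * sin t ^ 2

/-- the potential `V` pays for the slopes `g` of the finite colours and for their reserves -/
def Ok (η r : C → ℝ) (V : ℝ) (φ g : C → ℝ) : Prop :=
  ∃ β : C → ℝ, (∀ c ∈ fin φ, g c < rate (η c) (β c) (φ c)) ∧
    ∑ c ∈ fin φ, (4 / 3 * β c ^ 2 + r c) < V

/-- the class, at one point -/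
def Good (m : ℕ) (η r : C → ℝ) (V : ℝ) (φ g : C → ℝ) : Prop := Few m φ ∨ Ok η r V φ g

/-- signs are kept -/
def Shr1 (a b : ℝ) : Prop := (π / 2 < a → π / 2 < b) ∧ (a < -(π / 2) → b < -(π / 2))

/-- signs are kept, strict form -/
def Shr2 (a b : ℝ) : Prop := (π / 2 ≤ a → π / 2 < b) ∧ (a ≤ -(π / 2) → b < -(π / 2))

/-- What the profile `k` of the colour `c` gives at a point with data `(V, φ, g)`: the class on
every graph (`d1` = derivative along `X`, `d2` = slope on the graph) and on the slice, both with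
room `γ`. -/
structure Spl [DecidableEq C] (m : ℕ) (η r : C → ℝ) (c : C) (γ : ℝ) (k : ℝ → ℝ) (V : ℝ)
    (φ g : C → ℝ) : Prop where
  gr : ∀ (d1 d2 V' : ℝ) (φ' g' : C → ℝ), 0 ≤ d1 → 0 ≤ d2 → d1 ^ 2 + d2 ^ 2 ≤ g c ^ 2 →
    V + min 0 (k (φ c) ^ 2 - 2 * (|deriv k (φ c)| * d1)) - γ ≤ V' → (∀ b, |φ' b - φ b| ≤ γ) →
    (∀ b, b ≠ c → g' b ≤ g b + γ) → g' c ≤ d2 + γ →
    Good (m + 1) η (update r c (r c - η c)) V' φ' g'
  sl : |φ c| ≤ π / 2 → ∀ (V' : ℝ) (φ' g' : C → ℝ),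
    V + k (φ c) ^ 2 - 2 * (|deriv k (φ c)| * g c) - γ - (r c - η c) ≤ V' →
    (∀ b, b ≠ c → |φ' b - φ b| ≤ γ ∧ g' b ≤ g b + γ) → π / 2 < |φ' c| → Good m η r V' φ' g'

end Pt

/-! ### states and paths -/

section St

variable {d : ℕ} {ι : Type} [Fintype ι] [DecidableEq ι] {X : Type} [TopologicalSpace X]
  {C : Type}

/-- signs are kept -/
def Shr (φ ψ : C → X → ℝ) : Prop := ∀ c p, Shr1 (φ c p) (ψ c p)

/-- values of the phases -/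
abbrev ev (φ : C → X → ℝ) (p : X) : C → ℝ := fun c => φ c p

/-- slopes of the phases -/
def gr (M : Imm d ι X) (φ : C → X → ℝ) (p : X) : C → ℝ := fun c => ‖M.grad (φ c) p‖

/-- same charts, same metric -/
def Same {ι' : Type} [Fintype ι'] (M : Imm d ι X) (N : Imm d ι' X) : Prop :=
  M.ch = N.ch ∧ ∀ p, EqOn (gram (M.x ∘ (M.ch p).symm)) (gram (N.x ∘ (M.ch p).symm)) (M.ch p).target

variable [Fintype C]

/-- the class with margin `μ` -/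
def InD (M : Imm d ι X) (A : Set X) (η r : C → ℝ) (μ : ℝ) (φ : C → X → ℝ) : Prop :=
  ∃ F, M.Sm F ∧ ∀ p ∈ A, Good d η r (M.pre.EF F p - μ) (ev φ p) (gr M φ p)

/-- the ledger: `ℓ m c` is the reserve used by the step of colour `c` in dimension `m` -/
def Led (η : C → ℝ) (ℓ : ℕ → C → ℝ) (A : Set X) (φ : C → X → ℝ) : Prop :=
  (∀ k c, 0 ≤ ℓ k c) ∧ (∀ k c, η c ≤ ℓ (k + 1) c) ∧ ∀ k, ∀ p ∈ A, ∀ c ∈ fin (ev φ p),
    2 * η c + ∑ b ∈ fin (ev φ p), ℓ k b ≤ ℓ (k + 1) c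

/-- the colour `c` is parked -/
abbrev park [DecidableEq C] (φ : C → X → ℝ) (c : C) : C → X → ℝ := update φ c fun _ => π

/-- the ledger of one step, which uses the reserve `ρ` of the colour `c` -/
def Led1 [DecidableEq C] (η : C → ℝ) (ℓ : ℕ → C → ℝ) (m : ℕ) (A : Set X) (φ : C → X → ℝ) (c : C)
    (ρ : ℝ) : Prop :=
  Led η ℓ A (park φ c) ∧ η c ≤ ρ ∧ ∀ p ∈ A, |φ c p| ≤ π / 2 →
    2 * η c + ∑ b ∈ fin (ev (park φ c) p), ℓ m b ≤ ρ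

/-- nothing is needed on the boundary of `A` where `c` is finite -/
def Inn (m : ℕ) (A : Set X) (φ : C → X → ℝ) (c : C) : Prop :=
  ∀ p ∈ A, |φ c p| ≤ π / 2 → Few m (ev φ p) ∨ p ∈ interior A

/-- nothing is needed on the boundary of `A` -/
def Inn0 (m : ℕ) (A : Set X) (φ : C → X → ℝ) : Prop :=
  ∀ p ∈ A, Few m (ev φ p) ∨ p ∈ interior A

/-- standing hypotheses -/
structure Ctx (M : Imm d ι X) (A : Set X) (η r : C → ℝ) (μ : ℝ) (φ : C → X → ℝ) : Prop where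
  inj : Injective M.x
  cl : IsClosed A
  eta : ∀ c, 0 < η c
  res : ∀ c, 0 ≤ r c
  mu : 0 ≤ μ
  sm : ∀ c, M.Sm (φ c)

/-- A path in the class which starts at `(M, φ)`, keeps the signs of `φ0` and is supported in `U`. -/
structure IsPath (M : Imm d ι X) (A U : Set X) (η r : C → ℝ) (μ : ℝ) (φ0 φ : C → X → ℝ)
    {κ : Type} [Fintype κ] [DecidableEq κ] (y : ℝ → κ → X → ℝ) (ψ : ℝ → C → X → ℝ) : Prop where
  jy : ∀ i, JC M.atl univ fun s => y s i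
  jψ : ∀ c, JC M.atl univ fun s => ψ s c
  y0 : ∀ i p, y 0 i p = 0
  ψ0 : ψ 0 = φ
  cls : ∀ s ∈ Icc (0 : ℝ) 1, InD (M.xt (y s)) A η r μ (ψ s)
  shr : ∀ s ∈ Icc (0 : ℝ) 1, Shr φ0 (ψ s)
  loc : ∀ s ∈ Icc (0 : ℝ) 1, ∀ p, p ∉ U → (∀ i, y s i p = 0) ∧ ∀ c, ψ s c p = φ c p

/-- existence of a path with a property of the end point -/
def ExPath (M : Imm d ι X) (A U : Set X) (η r : C → ℝ) (μ : ℝ) (φ0 φ : C → X → ℝ)
    (Q : (C → X → ℝ) → Prop) : Prop :=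
  ∃ (κ : Type) (_ : Fintype κ) (_ : DecidableEq κ) (y : ℝ → κ → X → ℝ) (ψ : ℝ → C → X → ℝ),
    IsPath M A U η r μ φ0 φ y ψ ∧ Q (ψ 1)

/-- `(N, φ')` can be reached from `(M, φ)` -/
def Rch (M : Imm d ι X) (A U : Set X) (η r : C → ℝ) (μ : ℝ) (φ0 φ : C → X → ℝ) {ι' : Type}
    [Fintype ι'] (N : Imm d ι' X) (φ' : C → X → ℝ) : Prop :=
  ∃ (κ : Type) (_ : Fintype κ) (_ : DecidableEq κ) (y : ℝ → κ → X → ℝ) (ψ : ℝ → C → X → ℝ),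
    IsPath M A U η r μ φ0 φ y ψ ∧ ψ 1 = φ' ∧ Same (M.xt (y 1)) N

end St

/-- compact states of dimension `d` -/
def AllSt (d : ℕ) (Q : ∀ (ι : Type) [Fintype ι] [DecidableEq ι] (X : Type) [TopologicalSpace X]
    [T2Space X] [SecondCountableTopology X] [MeasurableSpace X] [BorelSpace X] [CompactSpace X]
    (C : Type) [Fintype C] [DecidableEq C], Imm d ι X → Set X → (C → ℝ) → (C → ℝ) → ℝ →
    (ℕ → C → ℝ) → (C → X → ℝ) → Prop) : Prop :=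
  ∀ (ι : Type) [Fintype ι] [DecidableEq ι] (X : Type) [TopologicalSpace X]
    [T2Space X] [SecondCountableTopology X] [MeasurableSpace X] [BorelSpace X] [CompactSpace X]
    (C : Type) [Fintype C] [DecidableEq C] (M : Imm d ι X) (A : Set X) (η r : C → ℝ) (μ : ℝ)
    (ℓ : ℕ → C → ℝ) (φ : C → X → ℝ), Ctx M A η r μ φ → Q ι X C M A η r μ ℓ φ

/-- **the path theorem** in dimension `m` -/
def SStmt (m : ℕ) : Prop := AllSt m fun _ _ _ _ _ _ _ _ _ _ _ _ _ M A η r μ ℓ φ =>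
  Led η ℓ A φ → Inn0 m A φ → InD M A η (r + ℓ m) μ φ →
    ExPath M A univ η r μ φ φ fun ψ => ∀ p ∈ A, Few m (ev ψ p)

/-- the step for one colour -/
def StepStmt (m : ℕ) : Prop := AllSt (m + 1) fun _ _ _ _ _ _ _ _ _ _ _ _ _ M A η r μ ℓ φ =>
  ∀ c ρ, Inn (m + 1) A φ c → Led1 η ℓ m A φ c ρ → ρ ≤ r c → InD M A η r μ φ →
    ExPath M A univ η (update r c (r c - ρ)) μ φ φ fun ψ =>
      ∀ p ∈ A, |ψ c p| ≤ π / 2 → Few (m + 1) (ev ψ p)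

/-- **the localised step** (end point only): nothing changes outside `U`, where the new
coordinates are constant on either side of the band -/
def LStepStmt (m : ℕ) : Prop := AllSt (m + 1) fun _ _ _ X _ _ _ _ _ _ C _ _ M A η r μ ℓ φ =>
  ∀ (U : Set X) c ρ, IsOpen U → (∀ p, |φ c p| ≤ π / 2 → p ∈ U) → Inn (m + 1) A φ c →
    Led1 η ℓ m A φ c ρ → ρ ≤ r c → InD M A η r μ φ →
    ∃ (κ : Type) (_ : Fintype κ) (_ : DecidableEq κ) (y : κ → X → ℝ) (ψ : C → X → ℝ) (a b : κ → ℝ),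
      (∀ i, M.Sm (y i)) ∧ (∀ c', M.Sm (ψ c')) ∧ InD (M.xt y) A η (update r c (r c - ρ)) μ ψ ∧
      Shr φ ψ ∧ (∀ p, p ∉ U → (∀ c', ψ c' p = φ c' p) ∧ (0 < φ c p → ∀ i, y i p = a i) ∧
        (φ c p < 0 → ∀ i, y i p = b i)) ∧
      ∀ p ∈ A, |ψ c p| ≤ π / 2 → Few (m + 1) (ev ψ p)

/-! ### necks -/

section Nk

variable {d : ℕ} {ι : Type} [Fintype ι] [DecidableEq ι] {X : Type} [TopologicalSpace X]
  [MeasurableSpace X]

/-- the gain of the graph of `u` -/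
def Low (M : Imm d ι X) (F h : X → ℝ) (δ : ℝ) (u : X → ℝ) : Prop :=
  ∀ p, min 0 (h p ^ 2 - 2 * |M.pre.dir (M.Xf u) h p|) - δ ≤ Nk.gain M F u p

/-- a neck inside the band of `φ` -/
structure NkD (M : Imm d ι X) (F φ h : X → ℝ) (δ Λ : ℝ) (𝒰 : Ultrafilter ℕ) (u : ℕ → X → ℝ)
    (τ s : ℕ → ℝ) : Prop where
  seq : WSeq M F h Λ 𝒰 u τ s
  low : ∀ j, Low M F h δ (u j)
  bar : ∀ T : ℝ, ∀ᶠ j in (𝒰 : Filter ℕ), ∀ p,
    (π / 2 ≤ φ p → T ≤ u j p) ∧ (φ p ≤ -(π / 2) → u j p ≤ -T)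

/-- the weight on the graph of `u` -/
def wF (M : Imm d ι X) (F w u : X → ℝ) (p : X) : ℝ := F p + log (M.vv u p) + 1 / 2 * log (w p)

variable {C : Type} [Fintype C] [DecidableEq C]

/-- the data of a step -/
structure Dat {m : ℕ} (M : Imm (m + 1) ι X) (A : Set X) (η r : C → ℝ) (μ : ℝ) (φ : C → X → ℝ)
    (c : C) (F : X → ℝ) (γ : ℝ) (k : ℝ → ℝ) (Λ : ℝ) (𝒰 : Ultrafilter ℕ) (u : ℕ → X → ℝ)
    (τ s : ℕ → ℝ) : Prop where
  smF : M.Sm F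
  pos : 0 < γ
  smk : ContDiff ℝ ∞ k
  spl : ∀ p ∈ A, Spl m η r c γ k (M.pre.EF F p - μ) (ev φ p) (gr M φ p)
  nk : NkD M F (φ c) (fun p => k (φ c p)) (γ / 4) Λ 𝒰 u τ s

/-- After the generic shift and the boost: `ψ` moves the colours `b ≠ c` (colour `c` is parked at
`π`), `w` is the Riesz weight, `V` the potential on the slice `N`, `T` the tube around the bad set. -/
structure Mid {m : ℕ} (M : Imm (m + 1) ι X) (A U : Set X) (η r : C → ℝ) (μ : ℝ) (ℓ : ℕ → C → ℝ)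
    (φ : C → X → ℝ) (c : C) (ρ : ℝ) (F : X → ℝ) (𝒰 : Ultrafilter ℕ) (u : ℕ → X → ℝ)
    (N : Imm m ι (M.Sig 𝒰 u)) (ε : ℝ) (w : X → ℝ) (ψ : ℝ → C → X → ℝ) (V : M.Sig 𝒰 u → ℝ)
    (T O : Set X) : Prop where
  pos : 0 < ε
  smw : M.Sm w
  wpos : ∀ p, 0 < w p
  jc : ∀ b, JC M.atl univ fun s => ψ s b
  zero : ψ 0 = park φ c
  shr : ∀ s ∈ Icc (0 : ℝ) 1, Shr (park φ c) (ψ s)
  loc : ∀ s ∈ Icc (0 : ℝ) 1, ∀ p, p ∉ U → ∀ b, ψ s b p = ψ 0 b p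
  gph : ∀ (j : ℕ) (hu : M.Sm (u j)), ∀ s ∈ Icc (0 : ℝ) 1, ∀ p ∈ A, ∀ a e : ℝ,
    (|a| ≤ π / 2 → |φ c p| ≤ π / 2 ∧ e ≤ ε) →
    Good (m + 1) η (update r c (r c - η c)) ((M.gS (u j)).EF (wF M F w (u j)) p - μ - ε)
      (update (ev (ψ s) p) c a) (update (gr (M.graph (u j) hu) (ψ s) p) c e)
  smV : Continuous V
  form : N.Form V
  slc : ∀ q : M.Sig 𝒰 u, q.1 ∈ A → Good m η (r + ℓ m)
    (V q - (μ + (r c - ρ) + η c / 2)) (ev (ψ 1) q.1) (gr N (fun b q => ψ 1 b q.1) q)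
  opT : IsOpen T
  bad : M.Bad 𝒰 u ⊆ T
  few : ∀ p ∈ T, Few m (ev (ψ 1) p)
  opO : IsOpen O
  sb : Sb 𝒰 u ⊆ O
  sub : O ⊆ U
  shr2 : ∀ p ∈ O, ∀ b, b ≠ c → Shr2 (φ b p) (ψ 1 b p)

end Nk

/-- compact states of dimension `m + 1` with the data of a step -/
def AllDat (m : ℕ) (Q : ∀ (ι : Type) [Fintype ι] [DecidableEq ι] (X : Type) [TopologicalSpace X]
    [T2Space X] [SecondCountableTopology X] [MeasurableSpace X] [BorelSpace X] [CompactSpace X]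
    (C : Type) [Fintype C] [DecidableEq C], Imm (m + 1) ι X → Set X → Set X → (C → ℝ) → (C → ℝ) →
    ℝ → (ℕ → C → ℝ) → (C → X → ℝ) → C → ℝ → (X → ℝ) → Ultrafilter ℕ → (ℕ → X → ℝ) → Prop) :
    Prop :=
  AllSt (m + 1) fun ι _ _ X _ _ _ _ _ _ C _ _ M A η r μ ℓ φ =>
    ∀ (U : Set X) (c : C) (ρ : ℝ) (F : X → ℝ) (γ : ℝ) (k : ℝ → ℝ) (Λ : ℝ) (𝒰 : Ultrafilter ℕ)
      (u : ℕ → X → ℝ) (τ s : ℕ → ℝ), Inn (m + 1) A φ c → Led1 η ℓ m A φ c ρ → ρ ≤ r c →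
      Dat M A η r μ φ c F γ k Λ 𝒰 u τ s → IsOpen U → (∀ p, |φ c p| ≤ π / 2 → p ∈ U) →
      Q ι X C M A U η r μ ℓ φ c ρ F 𝒰 u

/-- **the core of the step**: from the graph to a state with few colours in the band of `c` -/
def CoreStmt (m : ℕ) : Prop := AllDat m fun _ _ _ _ _ _ _ _ _ _ _ _ _ M A U η r μ _ φ c ρ _ _ u =>
  ∃ (j : ℕ) (hu : M.Sm (u j)),
    ExPath (M.graph (u j) hu) A U η (update r c (r c - ρ)) μ φ φ fun ψ =>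
      ∀ p ∈ A, |ψ c p| ≤ π / 2 → Few (m + 1) (ev ψ p)

/-- MID: shift, weight, boost, slice -/
def MidStmt : Prop := ∀ m, AllDat m fun ι _ _ _ _ _ _ _ _ _ _ _ _ M A U η r μ ℓ φ c ρ F 𝒰 u =>
  ∃ (N : Imm m ι (M.Sig 𝒰 u)), Neck M 𝒰 u N ∧
    ∃ ε w ψ V T O, Mid M A U η r μ ℓ φ c ρ F 𝒰 u N ε w ψ V T O

/-- GRAFT: the path on the slice is grafted on the neck -/
def GraftStmt : Prop := ∀ m, SStmt m →
  AllDat m fun ι _ _ X _ _ _ _ _ _ _ _ _ M A U η r μ ℓ φ c ρ F 𝒰 u =>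
  ∀ (N : Imm m ι (M.Sig 𝒰 u)), Neck M 𝒰 u N → ∀ ε w ψ V T O,
    Mid M A U η r μ ℓ φ c ρ F 𝒰 u N ε w ψ V T O → ∃ L0 : ℝ, ∀ L, L0 ≤ L → ∀ᶠ j in (𝒰 : Filter ℕ),
    ∀ (hu : M.Sm (u j)) (f : X → ℝ), M.Sm f → (∀ p, Shr1 (φ c p) (f p)) →
      (∀ p, |f p| ≤ π / 2 → |u j p| ≤ L ∧ ‖(M.graph (u j) hu).grad f p‖ ≤ 2 / L) →
      ExPath (M.graph (u j) hu) A U η (update r c (r c - ρ)) μ φ (update (ψ 1) c f)
        fun χ => ∀ p ∈ A, |χ c p| ≤ π / 2 → Few (m + 1) (ev χ p)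

/-- FLIP: the phase of `c` becomes `2 u / L` in its band -/
def FlipStmt : Prop := ∀ γ η0 : ℝ, 0 < γ → 0 < η0 → ∃ L0 : ℝ, 0 < L0 ∧ ∀ L, L0 ≤ L →
  AllImm fun d _ _ _ X _ _ _ _ _ M => CompactSpace X → ∀ (C : Type) [Fintype C] [DecidableEq C]
    (A U : Set X) (η r : C → ℝ) (μ : ℝ) (φ : C → X → ℝ) (c : C) (F u : X → ℝ), η c = η0 →
    (∀ b, 0 ≤ r b) → (∀ b, M.Sm (φ b)) → M.Sm F → M.Sm u → (∀ p, ‖M.grad u p‖ ≤ 1) → IsOpen U →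
    (∀ p, |φ c p| ≤ π / 2 → p ∈ U) →
    (∀ p, (π / 2 ≤ φ c p → L ≤ u p) ∧ (φ c p ≤ -(π / 2) → u p ≤ -L)) →
    (∀ p ∈ A, ∀ a e : ℝ, |a - φ c p| ≤ γ → e ≤ gr M φ p c + γ →
      Good d η r (M.pre.EF F p - μ - γ / 2) (update (ev φ p) c a) (update (gr M φ p) c e)) →
    ∃ f : ℝ → X → ℝ, JC M.atl univ f ∧ f 0 = φ c ∧
      (∀ s ∈ Icc (0 : ℝ) 1, (∀ p, Shr1 (φ c p) (f s p)) ∧ (∀ p, p ∉ U → f s p = φ c p) ∧
        ∀ p ∈ A, Good d η r (M.pre.EF F p - μ) (ev (update φ c (f s)) p)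
          (gr M (update φ c (f s)) p)) ∧
      ∀ p, |f 1 p| ≤ π / 2 → |u p| ≤ L ∧ ‖M.grad (f 1) p‖ ≤ 2 / L

/-! ### solvers -/

/-- SOL: stiff zone, path of graphs -/
def SolStmt : Prop := AllCl fun _ _ _ _ X _ _ _ _ _ _ M F =>
  ∀ (φ : X → ℝ) (a δ : ℝ), M.Sm φ → 0 < a → a < π / 2 → 0 < δ → ∃ K : ℝ, ∀ k : ℝ → ℝ,
    ContDiff ℝ ∞ k → (∀ t, a ≤ t → K ≤ k t) → (∀ t, t ≤ -a → k t ≤ -K) →
    ∃ Λ 𝒰 u τ s, NkD M F φ (fun p => k (φ p)) δ Λ 𝒰 u τ s ∧ ∀ j, ∃ (v : ℝ → X → ℝ) (b : ℝ),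
      JC M.atl univ v ∧ (∀ p, v 0 p = 0) ∧ (∀ p, v 1 p = u j p + b) ∧
      ∀ t ∈ Icc (0 : ℝ) 1, Low M F (fun p => k (φ p)) δ (v t)

/-- LOC: stiff walls on both sides, the graphs are flat beyond them -/
def LocStmt : Prop := AllCl fun _ _ _ _ X _ _ _ _ _ _ M F =>
  ∀ (φ : X → ℝ) (a δ : ℝ), M.Sm φ → 0 < a → a < π / 2 → 0 < δ → ∃ K : ℝ, ∀ k : ℝ → ℝ,
    ContDiff ℝ ∞ k → (∀ t, a ≤ t → k t = k a) → K ≤ k a → (∀ t, t ≤ -a → k t = k (-a)) →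
    k (-a) ≤ -K → ∃ Λ 𝒰 u τ s, NkD M F φ (fun p => k (φ p)) δ Λ 𝒰 u τ s ∧
      ∀ j, ∃ b b' : ℝ, ∀ p, (π / 2 ≤ φ p → u j p = b) ∧ (φ p ≤ -(π / 2) → u j p = b')

/-! ### real analysis at one point -/

/-- SPLIT: the truncated profile, no double counting -/
def SplitStmt : Prop := ∀ (C : Type) [Fintype C] [DecidableEq C] (m : ℕ) (η r : C → ℝ) (c : C)
  (𝒦 : Set (ℝ × (C → ℝ) × (C → ℝ))), IsCompact 𝒦 → (∀ b, 0 ≤ r b) → 0 < η c → η c ≤ r c →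
  (∀ z ∈ 𝒦, 0 ≤ z.2.2 c ∧ Good (m + 1) η r z.1 z.2.1 z.2.2) →
  ∃ γ a : ℝ, 0 < γ ∧ 0 < a ∧ a < π / 2 ∧ ∀ K : ℝ, ∃ k : ℝ → ℝ, ContDiff ℝ ∞ k ∧
    (∀ t, a ≤ t → k t = k a) ∧ K ≤ k a ∧ (∀ t, t ≤ -a → k t = k (-a)) ∧ k (-a) ≤ -K ∧
    ∀ z ∈ 𝒦, Spl m η r c γ k z.1 z.2.1 z.2.2

/-! ### weights, generic shift, boost -/

/-- PROJ: slopes on a graph -/
def ProjStmt : Prop := AllImm fun _ ι _ _ _ _ _ _ _ _ M => ∀ u (hu : M.Sm u) p,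
  ‖(M.graph u hu).grad u p‖ ≤ 1 ∧ ∃ P : E ι →L[ℝ] E ι, ‖P‖ ≤ 1 ∧ ∀ f,
    ‖(M.graph u hu).grad f p‖ = ‖P (M.grad f p)‖ ∧
    M.pre.dir (M.Xf u) f p ^ 2 + ‖P (M.grad f p)‖ ^ 2 = ‖M.grad f p‖ ^ 2

/-- GEN: after a small translation few phases are small near a thin set -/
def GenStmt : Prop := AllImm fun _ _ _ _ X _ _ _ _ _ M => CompactSpace X → Injective M.x →
  ∀ (C : Type) [Fintype C] (m : ℕ) (B : Set X) (φ : C → X → ℝ), IsClosed B → M.Nets m B →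
    (∀ c, M.Sm (φ c)) → ∀ ε > 0, ∃ ξ : C → ℝ, (∀ c, |ξ c| ≤ ε) ∧ ∃ η0 t0 : ℝ, 0 < η0 ∧ 0 < t0 ∧
      ∀ p, ∀ q ∈ B, ‖M.x p - M.x q‖ ≤ t0 →
        (Finset.univ.filter fun c => |φ c p + ξ c| ≤ η0).card + 2 ≤ m

/-- BOOST: nested levels of `log W`, one colour at a time (`W k t χ` as in `Nk.riesz_multi`) -/
def BoostStmt : Prop := AllImm fun _ ι _ _ X _ _ _ _ _ M => CompactSpace X →
  ∀ (C : Type) [Fintype C] (φ : C → X → ℝ) (η : C → ℝ) (η0 Vm Cχ c w0 : ℝ) (D : ℕ) (o : C → ℕ),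
    (∀ b, M.Sm (φ b)) → (∀ b, 0 < η b) → 0 < η0 → 0 < c → 1 ≤ w0 → Injective o → (∀ b, o b < D) →
    ∃ (V0 : ℝ) (g : ℝ → ℝ), 0 ≤ V0 ∧ (∀ k, 0 < g k) ∧
    ∀ (W : X → ℝ) (k t : ℕ → ℝ) (χ : ℕ → X → ℝ), M.Sm W → (∀ p, 1 ≤ W p) → k 0 = w0 →
      (∀ i < D, k i ≤ k (i + 1) ∧ 0 < t i ∧ t i ≤ g (k i) ∧ M.Sm (χ i) ∧
        (∀ p, 0 ≤ χ i p ∧ χ i p ≤ 1) ∧ (∀ p, √(M.pre.gam (χ i) (χ i) p) ≤ Cχ / t i) ∧
        (∀ p, χ i p ≠ 1 ∨ M.pre.gam (χ i) (χ i) p ≠ 0 → c / t i ^ (7 / 4 : ℝ) ≤ W p) ∧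
        ∀ p, k (i + 1) ≤ W p → p ∉ tsupport (χ i)) →
      ∃ ψ : ℝ → C → X → ℝ, (∀ b, JC M.atl univ fun s => ψ s b) ∧ ψ 0 = φ ∧
        (∀ b p, χ (o b) p = 0 → η0 ≤ |φ b p| → π / 2 < |ψ 1 b p|) ∧
        ∀ s ∈ Icc (0 : ℝ) 1, Shr φ (ψ s) ∧ (∀ p, W p < w0 → ∀ b, ψ s b p = φ b p) ∧
          ∀ (p : X) (P : E ι →L[ℝ] E ι) (r : C → ℝ) (V : ℝ), ‖P‖ ≤ 1 → (∀ b, 0 ≤ r b) → V ≤ Vm →
            Ok η r V (ev φ p) (fun b => ‖P (M.grad (φ b) p)‖) →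
            Ok η r (V + V0 + ‖P (M.grad (fun q => log (W q)) p)‖ ^ 2 / 2) (ev (ψ s) p)
              fun b => ‖P (M.grad (ψ s b) p)‖

/-- CAR: a compact part of an embedded manifold with a form inequality lies in a compact EMBEDDED
manifold with a weight -/
def CarStmt : Prop := AllImm fun d ι _ _ X _ _ _ _ _ M => Injective M.x →
  ∀ (V : X → ℝ) (K : Set X) (δ : ℝ), Continuous V → M.Form V → IsCompact K → 0 < δ →
  ExImm d fun ι' _ _ Y _ _ _ _ _ N => CompactSpace Y ∧ Injective N.x ∧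
    ∃ (e : OpenPartialHomeomorph X Y) (L : E ι →ₗᵢ[ℝ] E ι') (c : E ι') (F : Y → ℝ), K ⊆ e.source ∧
      (∀ p ∈ e.source, N.x (e p) = L (M.x p) + c) ∧ N.Sm F ∧
      ∀ p ∈ e.source, V p - δ ≤ N.pre.EF F (e p)

/-- **G** -/
def GStmt : Prop := ∀ m, 1 ≤ m → SStmt m ∧ LStepStmt m

end Crest.Agent.N228.G

end
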