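import Crest.Agent.N228.G.Basic
import Crest.Agent.N228.Nk.Sol
import Crest.Agent.N228.O.Pull

/-! # Row 228, block G (helper16): the core of the step -/

set_option autoImplicit false
set_option linter.unusedSectionVars false
open MeasureTheory Set Filter Topology Function Real
open scoped ContDiff
open Crest.Agent.N222 Crest.Agent.N222.Imm Crest.Agent.N228.J

noncomputable section

namespace Crest.Agent.N228.G

variable {d : ℕ} {ι : Type} [Fintype ι] [DecidableEq ι] {X : Type} [TopologicalSpace X]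
  [MeasurableSpace X] {C : Type} [Fintype C] [DecidableEq C] {M : Imm d ι X}

theorem inD_xt_zero {A : Set X} {η r : C → ℝ} {μ : ℝ} {φ : C → X → ℝ} (h : InD M A η r μ φ)
    {κ : Type} [Fintype κ] [DecidableEq κ] {y : κ → X → ℝ} (hy : ∀ i p, y i p = 0) :
    InD (M.xt y) A η r μ φ := by
  obtain ⟨F, hF, h⟩ := h
  have l := fun p => li_xt (M := M) (p := p) (a := fun _ => 0)
    (fun i => (funext (hy i) : y i = fun _ => 0) ▸ sm_const 0) (.of_forall fun q i => hy i q)
  refine ⟨F, hF, fun p hp => ?_⟩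
  have e1 : M.pre.EF F p = (M.xt y).pre.EF F p := (l p).EF hF
  have e2 : gr M φ p = gr (M.xt y) φ p := funext fun c =>
    (sq_eq_sq₀ (norm_nonneg _) (norm_nonneg _)).1 (by
      rw [← gam_self_eq, ← gam_self_eq]; exact (l p).gam (φ c) (φ c))
  exact e1 ▸ e2 ▸ h p hp

/-- a path without new coordinates, followed by a path -/
theorem prepend {A U : Set X} {η r : C → ℝ} {μ : ℝ} {φ0 : C → X → ℝ} {χ : ℝ → C → X → ℝ}
    {Q : (C → X → ℝ) → Prop} (hj : ∀ c, JC M.atl univ fun s => χ s c)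
    (h : ∀ s ∈ Icc (0 : ℝ) 1, InD M A η r μ (χ s) ∧ Shr φ0 (χ s) ∧
      ∀ p, p ∉ U → ∀ c, χ s c p = χ 0 c p) (hp : ExPath M A U η r μ φ0 (χ 1) Q) :
    ExPath M A U η r μ φ0 (χ 0) Q := by
  obtain ⟨κ, _, _, y, ψ, P, hQ⟩ := hp
  have c1 : Continuous fun s : ℝ => min (2 * s) 1 := by fun_prop
  have c2 : Continuous fun s : ℝ => max (2 * s - 1) 0 := by fun_prop
  set ψ' : ℝ → C → X → ℝ := fun s c p =>
    χ (min (2 * s) 1) c p + ψ (max (2 * s - 1) 0) c p - χ 1 c p with hψ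
  have e1 : ∀ s, 2 * s ≤ 1 → max (2 * s - 1) 0 = 0 ∧ ψ' s = χ (2 * s) := fun s hs => by
    have := max_eq_right (sub_nonpos.2 hs)
    exact ⟨this, by simp only [hψ, this, min_eq_left hs, P.ψ0, add_sub_cancel_right]⟩
  have e2 : ∀ s, 1 ≤ 2 * s → max (2 * s - 1) 0 = 2 * s - 1 ∧ ψ' s = ψ (2 * s - 1) := fun s hs => by
    have := max_eq_left (sub_nonneg.2 hs)
    exact ⟨this, by simp only [hψ, this, min_eq_right hs, add_sub_cancel_left]⟩
  have key : ∀ s ∈ Icc (0 : ℝ) 1, InD (M.xt (y (max (2 * s - 1) 0))) A η r μ (ψ' s) ∧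
      Shr φ0 (ψ' s) ∧ ∀ p, p ∉ U → (∀ i, y (max (2 * s - 1) 0) i p = 0) ∧
        ∀ c, ψ' s c p = χ 0 c p := fun s hs => by
    rcases le_total (2 * s) 1 with h1 | h1
    · obtain ⟨a1, a2, a3⟩ := h (2 * s) ⟨by linarith [hs.1], h1⟩
      rw [(e1 s h1).1, (e1 s h1).2]
      exact ⟨inD_xt_zero a1 P.y0, a2, fun p hp => ⟨fun i => P.y0 i p, a3 p hp⟩⟩
    · have m : 2 * s - 1 ∈ Icc (0 : ℝ) 1 := ⟨by linarith, by linarith [hs.2]⟩
      rw [(e2 s h1).1, (e2 s h1).2]
      exact ⟨P.cls _ m, P.shr _ m, fun p hp => ⟨(P.loc _ m p hp).1, fun c =>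
        ((P.loc _ m p hp).2 c).trans ((h 1 ⟨zero_le_one, le_rfl⟩).2.2 p hp c)⟩⟩
  refine ⟨κ, _, _, fun s => y (max (2 * s - 1) 0), ψ', ⟨fun i => (P.jy i).reparam c2,
    fun c => (((hj c).reparam c1).add ((P.jψ c).reparam c2)).sub
      ((hj c).reparam continuous_const), fun i p => ?_, ?_, fun s hs => (key s hs).1,
    fun s hs => (key s hs).2.1, fun s hs => (key s hs).2.2⟩, ?_⟩
  · rw [(e1 0 (by norm_num)).1, P.y0]
  · rw [(e1 0 (by norm_num)).2, mul_zero]
  · rw [(e2 1 (by norm_num)).2, show (2 * 1 - 1 : ℝ) = 1 by norm_num]; exact hQ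

theorem gr_update (M : Imm d ι X) (φ : C → X → ℝ) (c : C) (f : X → ℝ) (p : X) :
    gr M (update φ c f) p = update (gr M φ p) c ‖M.grad f p‖ := by
  funext b
  rcases eq_or_ne b c with rfl | h
  · simp only [gr, update_self]
  · simp only [gr, update_of_ne h]

theorem jc_update {Λ : Type} [TopologicalSpace Λ] {φ : Λ → C → X → ℝ} {f : Λ → X → ℝ}
    (h : ∀ b, JC M.atl univ fun s => φ s b) (hf : JC M.atl univ f) (c b : C) :
    JC M.atl univ fun s => update (φ s) c (f s) b := by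
  rcases eq_or_ne b c with rfl | e
  · simpa only [update_self] using hf
  · simpa only [update_of_ne e] using h b

theorem sq_graph {u : X → ℝ} (hu : M.Sm u) (f : X → ℝ) (p : X) :
    |M.pre.dir (M.Xf u) f p| ^ 2 + ‖(M.graph u hu).grad f p‖ ^ 2 = ‖M.grad f p‖ ^ 2 := by
  rw [← gam_self_eq, ← gam_self_eq, graph_pre, gS_gam, sq_abs]; ring

theorem norm_graph_le {u : X → ℝ} (hu : M.Sm u) (f : X → ℝ) (p : X) :
    ‖(M.graph u hu).grad f p‖ ≤ ‖M.grad f p‖ :=
  le_of_sq_le_sq (by linarith [sq_graph hu f p, sq_nonneg |M.pre.dir (M.Xf u) f p|]) (norm_nonneg _)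

theorem norm_graph_u {u : X → ℝ} (hu : M.Sm u) (p : X) : ‖(M.graph u hu).grad u p‖ ≤ 1 :=
  le_of_sq_le_sq (by
    rw [← gam_self_eq, graph_pre, gS_gam_u]; linarith [sq_nonneg (M.vv u p)]) zero_le_one

/-- the class on a graph, with room -/
theorem spl_graph {m : ℕ} {η r : C → ℝ} {c : C} {γ μ : ℝ} {k : ℝ → ℝ} {φ : C → X → ℝ} {F u : X → ℝ}
    {p : X} (h : Spl m η r c γ k (M.pre.EF F p - μ) (ev φ p) (gr M φ p)) (hγ : 0 ≤ γ) (hF : M.Sm F)
    (hk : ContDiff ℝ ∞ k) (hφ : M.Sm (φ c)) (hu : M.Sm u)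
    (hl : Low M F (fun p => k (φ c p)) (γ / 4) u) {a e : ℝ} (ha : |a - φ c p| ≤ γ)
    (he : e ≤ gr (M.graph u hu) φ p c + γ) : Good (m + 1) η (update r c (r c - η c))
      ((M.graph u hu).pre.EF (fun q => F q + log (M.vv u q)) p - μ - γ / 2)
      (update (ev φ p) c a) (update (gr (M.graph u hu) φ p) c e) := by
  refine h.gr _ _ _ _ _ (abs_nonneg _) (norm_nonneg _) (sq_graph hu (φ c) p).le ?_ (fun b => ?_)
    (fun b hb => ?_) (by rwa [update_self])
  · have h1 := hl p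
    have h2 : M.pre.dir (M.Xf u) (fun p => k (φ c p)) p =
        deriv k (φ c p) * M.pre.dir (M.Xf u) (φ c) p := by
      simp only [dir_apply, D_comp (hφ.diffAt p) (hk.differentiable (by simp) _).hasDerivAt,
        Finset.mul_sum]
      exact Finset.sum_congr rfl fun _ _ => by ring
    have h3 : 0 ≤ (M.gS u).gam (M.vv u) (M.vv u) p / M.vv u p ^ 2 :=
      div_nonneg (graph_pre hu ▸ gam_self_nonneg (M := M.graph u hu) _ _) (sq_nonneg _)
    rw [h2, abs_mul] at h1
    rw [graph_pre, Nk.EF_graph hF hu]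
    linarith
  · rcases eq_or_ne b c with rfl | hb
    · rwa [update_self]
    · rwa [update_of_ne hb, sub_self, abs_zero]
  · rw [update_of_ne hb]
    exact (norm_graph_le hu _ p).trans (le_add_of_nonneg_right hγ)

theorem core (hM : MidStmt) (hG : GraftStmt) (hFl : FlipStmt) (m : ℕ) (hS : SStmt m) :
    CoreStmt m := by
  intro ι _ _ X _ _ _ _ _ _ C _ _ M A η r μ ℓ φ ctx U c ρ F γ k Λ 𝒰 u τ s hI hL hρ D hU hcU
  obtain ⟨N, hN, ε, w, ψ, V, T, O, Md⟩ :=
    hM m ι X C M A η r μ ℓ φ ctx U c ρ F γ k Λ 𝒰 u τ s hI hL hρ D hU hcU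
  obtain ⟨L0, h0⟩ := hG m hS ι X C M A η r μ ℓ φ ctx U c ρ F γ k Λ 𝒰 u τ s hI hL hρ D hU hcU
    N hN ε w ψ V T O Md
  obtain ⟨L1, hL1, h1⟩ := hFl γ (η c) D.pos (ctx.eta c)
  set L := max (max L0 L1) (2 / ε)
  obtain ⟨j, j0, j1⟩ := ((h0 L (le_max_of_le_left (le_max_left _ _))).and (D.nk.bar L)).exists
  have hu := (D.nk.seq.adm j).sm
  have hF : M.Sm fun q => F q + log (M.vv (u j) q) :=
    D.smF.add (hu.vv.log fun p => (M.vv_pos _ p).ne')
  have hr : ∀ b, update r c (r c - ρ) b ≤ update r c (r c - η c) b := fun b => by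
    rcases eq_or_ne b c with rfl | hb
    · simp only [update_self]; linarith [hL.2.1]
    · simp only [update_of_ne hb, le_refl]
  obtain ⟨f, f1, f2, f3, f4⟩ := h1 L (le_max_of_le_left (le_max_right _ _)) _ _ X
    (M.graph (u j) hu) inferInstance C A U η (update r c (r c - η c)) μ φ c _ (u j) rfl
    (fun b => by
      rcases eq_or_ne b c with rfl | hb
      · rw [update_self]; linarith [hL.2.1]
      · rw [update_of_ne hb]; exact ctx.res b)
    ctx.sm hF hu (norm_graph_u hu) hU hcU j1 fun p hp a e ha he =>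
      spl_graph (D.spl p hp) D.pos.le D.smF D.smk (ctx.sm c) hu (D.nk.low j) ha he
  have one : (1 : ℝ) ∈ Icc (0 : ℝ) 1 := ⟨zero_le_one, le_rfl⟩
  have hf : M.Sm (f 1) := f1.sm (M := M) rfl 1
  have hε : 2 / L ≤ ε := by
    have h2 : 0 < L := hL1.trans_le (le_max_of_le_left (le_max_right _ _))
    rw [div_le_iff₀' h2, ← div_le_iff₀ Md.pos]
    exact le_max_right _ _
  have e1 := prepend (M := M.graph (u j) hu) (χ := fun s => update (ψ s) c (f 1))
    (jc_update Md.jc (JC.of_sm rfl isOpen_univ hf) c) (fun s hs => ⟨⟨wF M F w (u j),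
      hF.add ((sm_const _).mul (Md.smw.log fun p => (Md.wpos p).ne')), fun p hp => ?_⟩,
      Shr.update (fun b hb => (Md.shr s hs).of_park hb) (f3 1 one).1, fun p hp b => ?_⟩)
    (j0 hu (f 1) hf (f3 1 one).1 f4)
  · refine ⟨j, hu, ?_⟩
    have e2 := prepend (M := M.graph (u j) hu) (χ := fun s => update φ c (f s))
      (jc_update (φ := fun _ => φ) (fun b => JC.of_sm rfl isOpen_univ (ctx.sm b)) f1 c) (fun s hs =>
        ⟨⟨_, hF, fun p hp => ((f3 s hs).2.2 p hp).mono le_rfl (fun _ _ => le_rfl) fun b _ => hr b⟩,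
        Shr.update (fun b _ p => Shr1.refl _) (f3 s hs).1, fun p hp b => by
          rcases eq_or_ne b c with rfl | hb
          · simp only [update_self, (f3 s hs).2.1 p hp, f2]
          · simp only [update_of_ne hb]⟩) (by simpa only [Md.zero, park, update_idem] using e1)
    simpa only [f2, update_eq_self] using e2
  · rw [ev_update, gr_update, graph_pre]
    exact (Md.gph j hu s hs p hp _ _ fun h => ⟨((f3 1 one).1 p).abs_le h,
      (f4 p h).2.trans hε⟩).mono (sub_le_self _ Md.pos.le) (fun _ _ => le_rfl) fun b _ => hr b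
  · rcases eq_or_ne b c with rfl | hb
    · simp only [update_self]
    · simp only [update_of_ne hb, Md.loc s hs p hp b]

end Crest.Agent.N228.G

end
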