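import Crest.Agent.N228.G.Defs
import Crest.Agent.N228.Nk.Prof
import Crest.Agent.N222.F.Bump

/-!
# Row 228, block G: FLIP, the phase of `c` becomes `2 u / L` in its band
-/

set_option autoImplicit false
open MeasureTheory Set Filter Topology Function Metric Real
open scoped ContDiff
open Crest.Agent.N222

noncomputable section

namespace Crest.Agent.N228.G

open Crest.Agent.N228.J (JC)

namespace Fl

/-! ### the smooth clamp -/

/-- the smooth clamp -/
abbrev T (δ R t : ℝ) : ℝ := Nk.prof 0 1 δ (R, t)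

/-- its derivative -/
def T' (δ R t : ℝ) : ℝ := 1 - (smoothTransition ((t - R) / δ) + smoothTransition ((-t - R) / δ))

variable {δ R t : ℝ}

theorem T_eq (δ R t : ℝ) : T δ R t = t - Nk.ramp δ (t - R) + Nk.ramp δ (-t - R) := by
  simp only [T, Nk.prof]
  ring

theorem hasDerivAt_T (δ R t : ℝ) : HasDerivAt (T δ R) (T' δ R t) t := by
  have h := ((Nk.contDiff_prof' 0 1 δ R).differentiable (by simp) t).hasDerivAt
  rw [Nk.deriv_prof] at h
  exact h.congr_deriv (by rw [T']; ring)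

theorem T'_mem (hδ : 0 < δ) (hR : 0 ≤ R) (t : ℝ) : 0 ≤ T' δ R t ∧ T' δ R t ≤ 1 := by
  have a1 := smoothTransition.nonneg ((t - R) / δ)
  have a2 := smoothTransition.le_one ((t - R) / δ)
  have b1 := smoothTransition.nonneg ((-t - R) / δ)
  have b2 := smoothTransition.le_one ((-t - R) / δ)
  rw [T']
  refine ⟨?_, by linarith⟩
  rcases le_total t 0 with h | h
  · rw [smoothTransition.zero_of_nonpos (x := (t - R) / δ)
      (div_nonpos_of_nonpos_of_nonneg (by linarith) hδ.le)]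
    linarith
  · rw [smoothTransition.zero_of_nonpos (x := (-t - R) / δ)
      (div_nonpos_of_nonpos_of_nonneg (by linarith) hδ.le)]
    linarith

theorem abs_le_of_T' (hδ : 0 < δ) (hR : 0 ≤ R) (h : T' δ R t ≠ 0) : |t| ≤ R + δ := by
  by_contra hc
  refine h (le_antisymm ?_ (T'_mem hδ hR t).1)
  have a1 := smoothTransition.nonneg ((t - R) / δ)
  have b1 := smoothTransition.nonneg ((-t - R) / δ)
  rw [T']
  rcases lt_abs.1 (not_le.1 hc) with h1 | h1
  · rw [smoothTransition.one_of_one_le (x := (t - R) / δ) ((one_le_div hδ).2 (by linarith))]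
    linarith
  · rw [smoothTransition.one_of_one_le (x := (-t - R) / δ) ((one_le_div hδ).2 (by linarith))]
    linarith

theorem T_soft (hδ : 0 < δ) (h : |t| ≤ R) : T δ R t = t := by
  rw [T, Nk.prof_soft hδ h, one_mul]

theorem abs_T_sub (hδ : 0 < δ) (h : |t| ≤ R + δ) : |T δ R t - t| ≤ δ := by
  rw [abs_le] at h
  obtain ⟨a1, a2⟩ := Nk.ramp_mem (x := t - R) hδ
  obtain ⟨b1, b2⟩ := Nk.ramp_mem (x := -t - R) hδ
  have a3 := a2.trans (max_le (by linarith [h.2]) hδ.le)
  have b3 := b2.trans (max_le (by linarith [h.1]) hδ.le)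
  rw [T_eq, abs_le]
  constructor <;> linarith

theorem T_mem (hδ : 0 < δ) (hR : 0 ≤ R) (t : ℝ) : min t 0 ≤ T δ R t ∧ T δ R t ≤ max t 0 := by
  obtain ⟨a1, a2⟩ := Nk.ramp_mem (x := t - R) hδ
  obtain ⟨b1, b2⟩ := Nk.ramp_mem (x := -t - R) hδ
  rw [T_eq]
  rcases le_total t 0 with h | h
  · have b3 : Nk.ramp δ (-t - R) ≤ -t := b2.trans (max_le (by linarith) (by linarith))
    rw [Nk.ramp_eq_zero (x := t - R) hδ (by linarith), min_eq_left h, max_eq_right h]
    constructor <;> linarith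
  · have a3 : Nk.ramp δ (t - R) ≤ t := a2.trans (max_le (by linarith) h)
    rw [Nk.ramp_eq_zero (x := -t - R) hδ (by linarith), min_eq_right h, max_eq_left h]
    constructor <;> linarith

/-- the new phase lies between `l` and `x` -/
theorem btw (hδ : 0 < δ) (hR : 0 ≤ R) {x l a k : ℝ} (ha : 0 ≤ a ∧ a ≤ 1) (hk : 0 ≤ k ∧ k ≤ 1) :
    min x l ≤ x + k * (l + a * T δ R (x - l) - x) ∧
      x + k * (l + a * T δ R (x - l) - x) ≤ max x l := by
  obtain ⟨h1, h2⟩ := T_mem hδ hR (x - l)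
  generalize T δ R (x - l) = y at *
  have hka : 0 ≤ k * a := mul_nonneg hk.1 ha.1
  have hka' : 0 ≤ k * (1 - a) := mul_nonneg hk.1 (sub_nonneg.2 ha.2)
  have hk' : 0 ≤ 1 - k := sub_nonneg.2 hk.2
  rcases le_total x l with h | h
  · rw [min_eq_left (sub_nonpos.2 h)] at h1
    rw [max_eq_right (sub_nonpos.2 h)] at h2
    rw [min_eq_left h, max_eq_right h]
    constructor
    · nlinarith [mul_nonneg hka (sub_nonneg.2 h1), mul_nonneg hka' (sub_nonneg.2 h)]
    · nlinarith [mul_nonneg hka (neg_nonneg.2 h2), mul_nonneg hk' (sub_nonneg.2 h)]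
  · rw [min_eq_right (sub_nonneg.2 h)] at h1
    rw [max_eq_left (sub_nonneg.2 h)] at h2
    rw [min_eq_right h, max_eq_left h]
    constructor
    · nlinarith [mul_nonneg hka h1, mul_nonneg hk' (sub_nonneg.2 h)]
    · nlinarith [mul_nonneg hka (sub_nonneg.2 h2), mul_nonneg hka' (sub_nonneg.2 h)]

/-! ### the class at one point -/

section Pt

variable {C : Type} [Fintype C] [DecidableEq C] {m : ℕ} {η r φ g : C → ℝ} {V V' : ℝ} {c : C}

omit [DecidableEq C] in
theorem mem_fin : c ∈ fin φ ↔ |φ c| ≤ π / 2 := by simp [fin]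

omit [DecidableEq C] in
theorem good_V (h : Good m η r V φ g) (hV : V ≤ V') : Good m η r V' φ g :=
  h.imp id fun ⟨β, h1, h2⟩ => ⟨β, h1, h2.trans_le hV⟩

theorem good_drop (h : Good m η r V φ g) (hr : ∀ b, 0 ≤ r b) {a : ℝ} (ha : π / 2 < |a|) (e : ℝ) :
    Good m η r V (update φ c a) (update g c e) := by
  have h1 : ∀ b ∈ fin (update φ c a), b ≠ c := fun b hb hbc => by
    rw [mem_fin, hbc, update_self] at hb
    exact hb.not_gt ha
  have h2 : fin (update φ c a) ⊆ fin φ := fun b hb => by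
    have := mem_fin.1 hb
    rwa [update_of_ne (h1 b hb), ← mem_fin] at this
  refine h.imp (fun h => (Nat.add_le_add_right (Finset.card_le_card h2) 2).trans h)
    fun ⟨β, h3, h4⟩ => ⟨β, fun b hb => ?_, lt_of_le_of_lt ?_ h4⟩
  · rw [update_of_ne (h1 b hb), update_of_ne (h1 b hb)]
    exact h3 b (h2 hb)
  · exact Finset.sum_le_sum_of_subset_of_nonneg h2 fun b _ _ => add_nonneg (by positivity) (hr b)

theorem good_new (h : Good m η r V φ g) (hc : |φ c| ≤ π / 2) {a e b : ℝ} (ha : |a| ≤ π / 2)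
    (hb : 0 ≤ b) (hb' : b ≤ √(η c) / 8) (he : e < b) :
    Good m η r (V + 4 / 3 * b ^ 2) (update φ c a) (update g c e) := by
  have h1 : fin (update φ c a) = fin φ := by
    ext x
    rw [mem_fin, mem_fin]
    by_cases hx : x = c
    · rw [hx, update_self]
      exact iff_of_true ha hc
    · rw [update_of_ne hx]
  refine h.imp (fun h => by rwa [Few, h1]) fun ⟨β, h3, h4⟩ => ⟨update β c b, fun x hx => ?_, ?_⟩
  · by_cases hxc : x = c
    · rw [hxc, update_self, update_self, update_self, rate]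
      have c1 := cos_nonneg_of_mem_Icc (abs_le.1 ha)
      have c2 := mul_nonneg c1 (sub_nonneg.2 (cos_le_one a))
      have c3 := sin_sq_add_cos_sq a
      have c4 := mul_le_mul_of_nonneg_right hb' (sq_nonneg (sin a))
      have c5 : 1 ≤ cos a + sin a ^ 2 := by nlinarith
      nlinarith [mul_le_mul_of_nonneg_left c5 hb]
    · rw [update_of_ne hxc, update_of_ne hxc, update_of_ne hxc]
      exact h3 x (h1 ▸ hx)
  · have h5 := mem_fin.2 hc
    rw [h1, ← Finset.add_sum_erase _ _ h5, update_self, Finset.sum_congr rfl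
      (g := fun x => 4 / 3 * β x ^ 2 + r x) fun x hx => by
        rw [update_of_ne (Finset.ne_of_mem_erase hx)]]
    rw [← Finset.add_sum_erase _ _ h5] at h4
    nlinarith [sq_nonneg (β c)]

end Pt

/-! ### gradients -/

variable {d : ℕ} {ι : Type} [Fintype ι] [DecidableEq ι] {X : Type} [TopologicalSpace X]
  {M : Imm d ι X} {p : X}

theorem norm_grad_le {f x l : X → ℝ} (hx : M.Sm x) (hl : M.Sm l) {a : ℝ}
    (h : f =ᶠ[𝓝 p] fun q => l q + a * T δ R (x q - l q))
    (h0 : 0 ≤ a * T' δ R (x p - l p)) (h1 : a * T' δ R (x p - l p) ≤ 1) :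
    ‖M.grad f p‖ ≤ ‖M.grad l p‖ + a * T' δ R (x p - l p) * ‖M.grad x p‖ := by
  have hd := (hx.sub hl).diffAt p
  have hT := hasDerivAt_T δ R (x p - l p)
  have e : M.grad f p = (1 - a * T' δ R (x p - l p)) • M.grad l p +
      (a * T' δ R (x p - l p)) • M.grad x p := by
    ext i
    change M.pre.D i f p = (1 - _) * M.pre.D i l p + _ * M.pre.D i x p
    rw [Imm.D_congr h, Imm.D_add (hl.diffAt p) ((hd.comp hT.differentiableAt).comp
      (g := fun y => a * y) (by fun_prop)), Imm.D_const_mul a (hd.comp hT.differentiableAt),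
      Imm.D_comp hd hT, Imm.D_sub (hx.diffAt p) (hl.diffAt p)]
    ring
  rw [e]
  refine (norm_add_le _ _).trans ?_
  rw [norm_smul, norm_smul, Real.norm_of_nonneg h0, Real.norm_of_nonneg (sub_nonneg.2 h1)]
  nlinarith [mul_nonneg h0 (norm_nonneg (M.grad l p))]

theorem norm_grad_lam {u : X → ℝ} (hu : M.Sm u) {k : ℝ} (hk : 0 ≤ k) (h : ‖M.grad u p‖ ≤ 1) :
    ‖M.grad (fun q => k * u q) p‖ ≤ k := by
  have e : M.grad (fun q => k * u q) p = k • M.grad u p := by
    ext i
    exact Imm.D_const_mul k (hu.diffAt p) i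
  rw [e, norm_smul, Real.norm_of_nonneg hk]
  exact mul_le_of_le_one_right hk h

omit [TopologicalSpace X] in
theorem ev_update {C : Type} [DecidableEq C] (φ : C → X → ℝ) (c : C) (f : X → ℝ) (p : X) :
    ev (update φ c f) p = update (ev φ p) c (f p) := by
  funext b
  by_cases hb : b = c
  · rw [hb, update_self, ev, update_self]
  · rw [update_of_ne hb, ev, update_of_ne hb]

theorem gr_update {C : Type} [DecidableEq C] (φ : C → X → ℝ) (c : C) (f : X → ℝ) (p : X) :
    gr M (update φ c f) p = update (gr M φ p) c ‖M.grad f p‖ := by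
  funext b
  by_cases hb : b = c
  · rw [hb, update_self, gr, update_self]
  · rw [update_of_ne hb, gr, gr, update_of_ne hb]

end Fl

open Fl in
theorem flip : FlipStmt := by
  intro γ η0 hγ hη0
  obtain ⟨b, hb0, hb1, hb2⟩ : ∃ b : ℝ, 0 < b ∧ b ≤ √γ / 2 ∧ b ≤ √η0 / 8 :=
    ⟨min (√γ / 2) (√η0 / 8), by positivity, min_le_left _ _, min_le_right _ _⟩
  have hb3 : 4 / 3 * b ^ 2 ≤ γ / 2 := by
    have h1 := pow_le_pow_left₀ hb0.le hb1 2
    rw [div_pow, Real.sq_sqrt hγ.le] at h1
    linarith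
  have hm : 0 < min b γ := lt_min hb0 hγ
  refine ⟨4 / min b γ, by positivity, fun L hL => ?_⟩
  have hL0 : 0 < L := lt_of_lt_of_le (by positivity) hL
  have hk0 : 0 < 2 / L := by positivity
  have hk : 2 / L < min b γ := by
    rw [div_le_iff₀ hm] at hL
    rw [div_lt_iff₀ hL0]
    linarith
  intro d ι _ _ X _ _ _ _ _ M _ C _ _ A U η r μ φ c F u hη hr hφ _ hu hgu hU hband hbar hyp
  have hl : M.Sm fun q => 2 / L * u q := (Imm.sm_const _).mul hu
  have hgl : ∀ p, ‖M.grad (fun q => 2 / L * u q) p‖ ≤ 2 / L := fun p =>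
    norm_grad_lam hu hk0.le (hgu p)
  have hlu : ∀ p, 2 / L * u p * L = 2 * u p := fun p => by field_simp
  generalize hlam : (fun q => 2 / L * u q) = l at hl hgl
  replace hlu : ∀ p, l p * L = 2 * u p := fun p => by rw [← hlam]; exact hlu p
  obtain ⟨χ, hχ, hχU, hχ1, hχK⟩ := M.exists_bump (K := {p | |φ c p| ≤ π / 2})
    (isClosed_le (hφ c).continuous.abs continuous_const).isCompact hU hband
  obtain ⟨R0, hR0⟩ := isCompact_univ.exists_bound_of_continuousOn
    ((hφ c).sub hl).continuous.continuousOn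
  obtain ⟨R, hRc, hR, hR1, hR2⟩ : ∃ R : ℝ → ℝ, Continuous R ∧ (∀ s, 0 ≤ R s) ∧
      (∀ p, |φ c p - l p| ≤ R 0) ∧ ∀ s, 1 / 2 ≤ s → R s = 0 :=
    ⟨fun s => |R0| * max (1 - 2 * s) 0, by fun_prop, fun s => by positivity,
      fun p => by simpa using (hR0 p (mem_univ p)).trans (le_abs_self R0),
      fun s hs => by simp only [max_eq_right (show 1 - 2 * s ≤ 0 by linarith), mul_zero]⟩
  obtain ⟨a, hac, ha, ha1, ha2⟩ : ∃ a : ℝ → ℝ, Continuous a ∧ (∀ s ≤ 1, 0 ≤ a s ∧ a s ≤ 1) ∧
      (∀ s ≤ 1 / 2, a s = 1) ∧ a 1 = 0 :=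
    ⟨fun s => min 1 (2 - 2 * s), by fun_prop,
      fun s hs => ⟨le_min zero_le_one (by linarith), min_le_left _ _⟩,
      fun s hs => min_eq_left (by linarith), by norm_num⟩
  obtain ⟨f, hf⟩ : ∃ f : ℝ → X → ℝ, f = fun s p =>
    φ c p + χ p * (l p + a s * T γ (R s) (φ c p - l p) - φ c p) := ⟨_, rfl⟩
  have hbt : ∀ s ≤ 1, ∀ p, min (φ c p) (l p) ≤ f s p ∧ f s p ≤ max (φ c p) (l p) :=
    fun s hs p => by rw [hf]; exact btw hγ (hR s) (ha s hs) (hχ1 p)
  have hpi := Real.pi_lt_four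
  have hsh : ∀ s ≤ 1, ∀ p, Shr1 (φ c p) (f s p) := fun s hs p => by
    refine ⟨fun h => lt_of_lt_of_le (lt_min h ?_) (hbt s hs p).1,
      fun h => lt_of_le_of_lt (hbt s hs p).2 (max_lt h ?_)⟩
    · have h1 := (hbar p).1 h.le
      have h2 : 2 ≤ l p := le_of_mul_le_mul_right (by rw [hlu]; linarith) hL0
      linarith
    · have h1 := (hbar p).2 h.le
      have h2 : l p ≤ -2 := le_of_mul_le_mul_right (by rw [hlu]; linarith) hL0
      linarith
  have hfin : ∀ s ≤ 1, ∀ p, |f s p| ≤ π / 2 → |φ c p| ≤ π / 2 := fun s hs p h => by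
    rw [abs_le] at h ⊢
    exact ⟨not_lt.1 fun h1 => ((hsh s hs p).2 h1).not_ge h.1,
      not_lt.1 fun h1 => ((hsh s hs p).1 h1).not_ge h.2⟩
  have hev : ∀ s p, |φ c p| ≤ π / 2 →
      f s =ᶠ[𝓝 p] fun q => l q + a s * T γ (R s) (φ c q - l q) := fun s p hp => by
    filter_upwards [eventually_nhdsSet_iff_forall.1 hχK p hp] with q hq
    rw [hf]
    simp only [hq]
    ring
  have hT : ∀ s ≤ 1, ∀ t, 0 ≤ a s * T' γ (R s) t ∧ a s * T' γ (R s) t ≤ 1 := fun s hs t =>
    ⟨mul_nonneg (ha s hs).1 (T'_mem hγ (hR s) t).1,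
      mul_le_one₀ (ha s hs).2 (T'_mem hγ (hR s) t).1 (T'_mem hγ (hR s) t).2⟩
  have hgr : ∀ s ≤ 1, ∀ p, |φ c p| ≤ π / 2 → ‖M.grad (f s) p‖ ≤
      2 / L + a s * T' γ (R s) (φ c p - l p) * ‖M.grad (φ c) p‖ := fun s hs p hp =>
    (norm_grad_le (hφ c) hl (hev s p hp) (hT s hs _).1 (hT s hs _).2).trans
      (add_le_add_left (hgl p) _)
  refine ⟨f, ?_, ?_, fun s hs => ⟨hsh s hs.2, fun p hp => ?_, fun p hp => ?_⟩, fun p hp => ?_⟩
  · have j1 : JC M.atl univ fun _ : ℝ => φ c := JC.of_sm rfl isOpen_univ (hφ c)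
    have j2 : JC M.atl univ fun _ : ℝ => l := JC.of_sm rfl isOpen_univ hl
    have j3 : JC M.atl univ fun _ : ℝ => χ := JC.of_sm rfl isOpen_univ hχ.sm
    rw [hf]
    exact j1.add (j3.mul ((j2.add ((JC.consts isOpen_univ hac).mul
      (((JC.consts isOpen_univ hRc).prodMk (j1.sub j2)).comp (Nk.contDiff_prof 0 1 γ)))).sub j1))
  · funext p
    rw [hf]
    simp only [ha1 0 (by norm_num), T_soft hγ (hR1 p)]
    ring
  · rw [hf]
    simp only [image_eq_zero_of_notMem_tsupport fun h => hp (hχU h), zero_mul, add_zero]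
  · have h0 := hyp p hp (φ c p) (gr M φ p c) (by simpa using hγ.le) (by linarith)
    rw [update_eq_self, update_eq_self] at h0
    rw [ev_update, gr_update]
    rcases lt_or_ge (π / 2) |f s p| with h1 | h1
    · exact good_drop (good_V h0 (by linarith)) hr h1 _
    have h2 := hfin s hs.2 p h1
    have h3 := hgr s hs.2 p h2
    by_cases h4 : T' γ (R s) (φ c p - l p) = 0
    · rw [h4, mul_zero, zero_mul, add_zero] at h3
      exact good_V (good_new h0 h2 h1 hb0.le (hη ▸ hb2)
        (h3.trans_lt (hk.trans_le (min_le_left _ _)))) (by linarith)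
    · have h5 := abs_le_of_T' hγ (hR s) h4
      refine good_V (hyp p hp _ _ ?_ ?_) (by linarith)
      · rcases le_total s (1 / 2) with h6 | h6
        · rw [(hev s p h2).eq_of_nhds, ha1 s h6]
          refine le_trans (le_of_eq ?_) (abs_T_sub hγ h5)
          congr 1
          ring
        · rw [hR2 s h6, zero_add, abs_le] at h5
          obtain ⟨h7, h8⟩ := hbt s hs.2 p
          have h9 : φ c p - γ ≤ min (φ c p) (l p) := le_min (by linarith) (by linarith [h5.2])
          have h10 : max (φ c p) (l p) ≤ φ c p + γ := max_le (by linarith) (by linarith [h5.1])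
          rw [abs_le]
          constructor <;> linarith
      · have h6 := mul_le_of_le_one_left (norm_nonneg (M.grad (φ c) p))
          (hT s hs.2 (φ c p - l p)).2
        have h7 := hk.trans_le (min_le_right _ _)
        change _ ≤ ‖M.grad (φ c) p‖ + γ
        linarith
  · have h2 := hfin 1 le_rfl p hp
    have h3 := hgr 1 le_rfl p h2
    rw [ha2, zero_mul, zero_mul, add_zero] at h3
    refine ⟨?_, h3⟩
    rw [(hev 1 p h2).eq_of_nhds, ha2, zero_mul, add_zero, abs_le] at hp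
    have h4 := hlu p
    rw [abs_le]
    constructor <;> nlinarith [hp.1, hp.2]

end Crest.Agent.N228.G

end
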