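import Crest.Agent.N228.G.Defs
import Crest.Agent.N228.Nk.Gen

/-! # Row 228, block G (helper16): the generic shift -/

set_option autoImplicit false

namespace Crest.Agent.N228.G

theorem gen : GenStmt := by
  intro d ι _ _ X _ _ _ _ _ M _ hM C _ m B φ hB hN hφ ε hε
  obtain ⟨ξ, h1, η, t, h2, h3, h⟩ := Nk.gen_multi hM hB hN hφ hε
  exact ⟨ξ, h1, η, t, h2, h3, fun p q hq hp => le_trans (Nat.add_le_add_left (by norm_num) _)
    (h p q hq hp _ fun c hc => (Finset.mem_filter.1 hc).2)⟩

end Crest.Agent.N228.G
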