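import Crest.Agent.N228.G.Defs
import Crest.Agent.N228.Nk.Two

/-! # Row 228, block G (helper16): the solvers SOL and LOC -/

set_option autoImplicit false
open MeasureTheory Set Filter Topology Function Real
open scoped ContDiff
open Crest.Agent.N222 Crest.Agent.N222.Imm Crest.Agent.N228.J Crest.Agent.N228.Nk

noncomputable section

namespace Crest.Agent.N228.G

theorem loc : LocStmt := by
  intro d ι _ _ X _ _ _ _ _ _ M F hi hF φ a δ hφ h0 h1 hδ
  have hw : 0 < π / 2 - a := sub_pos.2 h1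
  have e1 : ∀ t, 2 / (π / 2 - a) * (π / 2 - t) < 2 ↔ a < t := fun t => by
    rw [div_mul_eq_mul_div, div_lt_iff₀ hw]; constructor <;> intro <;> linarith
  have e2 : ∀ t, π / 2 ≤ t → 2 / (π / 2 - a) * (π / 2 - t) ≤ 0 := fun t h =>
    mul_nonpos_of_nonneg_of_nonpos (by positivity) (sub_nonpos.2 h)
  obtain ⟨K, H⟩ := two (θp := fun p => 2 / (π / 2 - a) * (π / 2 - φ p))
    (θm := fun p => 2 / (π / 2 - a) * (π / 2 - -φ p)) hi hF
    ((sm_const _).mul ((sm_const _).sub hφ)) ((sm_const _).mul ((sm_const _).sub hφ.neg))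
    (fun p h => le_of_not_gt fun h' => by linarith [(e1 _).1 h, (e1 _).1 h']) hδ
  refine ⟨K, fun k hk k1 k2 k3 k4 => ?_⟩
  obtain ⟨Λ, 𝒰, u, τ, s, hs, hl, hb, hc⟩ := H (fun p => k (φ p)) _ _ (hφ.comp hk) k2 k4
    (fun p h => k1 _ ((e1 _).1 h).le) fun p h => k3 _ (le_neg.1 ((e1 _).1 h).le)
  refine ⟨Λ, 𝒰, u, τ, s, ⟨hs, fun j p => (hl j p).trans (gn_le_gain _ _ _ _),
    fun T => (hb T).mono fun j h p => ⟨fun h' => (h p).1 ((e2 _ h').trans zero_le_one),
      fun h' => (h p).2 ((e2 _ (le_neg.1 h')).trans zero_le_one)⟩⟩, fun j => ?_⟩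
  obtain ⟨lo, hi, h, -⟩ := hc j
  exact ⟨hi, lo, fun p => ⟨fun h' => (h p).1 ((e2 _ h').trans_lt (by norm_num)),
    fun h' => (h p).2 ((e2 _ (le_neg.1 h')).trans_lt (by norm_num))⟩⟩

theorem sol : SolStmt := by
  intro d ι _ _ X _ _ _ _ _ _ M F hi hF φ a δ hφ h0 h1 hδ
  obtain ⟨r0, C, h0, hC, hbar⟩ := sol_bar hi hF
  obtain ⟨r1, h1, l1⟩ := exists_rad hi hφ (sub_pos.2 h1)
  set r := min r0 r1
  have hr : 0 < r := by positivity
  refine ⟨C / r + 1, fun k hk k1 k2 => ?_⟩
  set h : X → ℝ := fun p => k (φ p)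
  have hh : M.Sm h := hφ.comp hk
  obtain ⟨B, hB, bB⟩ := exists_bound (hh.continuous.prodMk (hh.gam hh).continuous)
  simp only [Prod.norm_mk, max_le_iff, Real.norm_eq_abs] at bB
  have hA : 0 < B / δ := by positivity
  obtain ⟨δ0, τ, hδ0, hτ, hτL⟩ := exists_par (σ := min (1 / 2) (δ / (2 * B))) hA (by positivity)
  choose v hv using fun j : ℕ => exists_Sol (Λ := ℝ) (q := fun _ _ => 1)
    (k := fun t p => min (2 * t) 1 * h p) (L := fun t => max (2 * t - 1) 0 * (j + δ0) - δ0) hF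
    (JC.const isOpen_univ 1)
    ((JC.consts isOpen_univ (by fun_prop)).mul (JC.of_sm rfl isOpen_univ hh)) (fun _ _ => le_rfl)
    (by fun_prop) (hτ j).1 (hτ j).2.1 δ0
  have hs : ∀ j, Sol M F (fun _ => 1) h (fun t => prof (B / δ) (τ j) δ0 (j, t)) (v j 1) := fun j => by
    have := ((hv j).2 1).1
    norm_num at this
    exact this
  have hσ : ∀ j : ℕ, τ j * (j + δ0) + B / δ * δ0 < 1 := fun j =>
    ((hτ j).2.2.trans (min_le_left _ _)).trans_lt (by norm_num)
  have out := fun (j : ℕ) t => prof_out (t := t) (hτ j).1.le (hτ j).2.1 hδ0 j.cast_nonneg (hσ j)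
  have low : ∀ j, ∀ t ∈ Icc (0 : ℝ) 1, LowN M F h δ (v j t) := by
    intro j t ht p
    have s := ((hv j).2 t).1
    rcases le_total (2 * t) 1 with h2 | h2
    · have := s.gn_stiff (p := p) hA (prof_stiff (hτ j).2.1 hδ0 (by
        rw [max_eq_right (by linarith), zero_mul, zero_sub, neg_add_cancel]; exact abs_nonneg _))
        (by rw [I.gam_ev (.of_forall fun _ => rfl)]; positivity)
      rw [min_eq_left h2, I.gam_comp_self hh (hasDerivAt_const_mul (2 * t)), one_mul] at this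
      have h3 : (2 * t) ^ 2 * M.pre.gam h h p / (B / δ) ≤ δ := by
        rw [div_le_iff₀ hA, mul_div_cancel₀ _ hδ.ne']
        exact (mul_le_of_le_one_left (gam_self_nonneg _ _) (pow_le_one₀ (by linarith [ht.1]) h2)).trans
          ((le_abs_self _).trans (bB p).2)
      linarith [min_le_left 0 (h p ^ 2 - 2 * |M.pre.dir (M.Xf (v j t)) h p|)]
    · simp only [min_eq_right h2, one_mul] at s
      refine s.low (σ := δ / (2 * B)) hA (by positivity) EventuallyEq.rfl
        ((prof_cases (hτ j).1.le (hτ j).2.1 hδ0 _ _).imp_right fun h =>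
          h.trans (le_trans ?_ ((hτ j).2.2.trans (min_le_right _ _)))) (bB p).1
        ((le_abs_self _).trans ((bB p).2.trans (mul_div_cancel₀ _ hδ.ne').ge))
        (le_of_eq (by field_simp))
      rw [sub_add_cancel]
      exact add_le_add_left (mul_le_mul_of_nonneg_left (mul_le_of_le_one_left (by positivity)
        (max_le (by linarith [ht.2]) zero_le_one)) (hτ j).1.le) _
  obtain ⟨Λ, 𝒰, b, h𝒰, hb, hw⟩ := exists_wseq (L := fun j => j) hs
    (fun j => deriv_prof_le (hτ j).1.le (hτ j).2.1 δ0 _) (fun j => (hτ j).1)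
    (fun j => j.cast_nonneg) (fun j t ht => prof_soft hδ0 ht) tendsto_natCast_atTop_atTop hτL
    (.of_forall fun _ _ _ => rfl)
  refine ⟨Λ, 𝒰, _, _, _, ⟨hw, fun j p => le_trans ?_ (gn_le_gain _ _ _ _), fun T => ?_⟩,
    fun j => ⟨v j, b j, (hv j).1, ((hv j).2 0).2 fun p => by norm_num, fun p => by ring,
      fun t ht p => (low j t ht p).trans (gn_le_gain _ _ _ _)⟩⟩
  · rw [gn_add_const, Xf_add_const]; exact low j 1 ⟨zero_le_one, le_rfl⟩ p
  · filter_upwards [h𝒰 (tendsto_natCast_atTop_atTop.eventually_ge_atTop (2 * T)),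
      h𝒰 (tendsto_natCast_atTop_atTop.eventually_ge_atTop T)] with j j1 j2 p
    refine ⟨fun hp => ?_, fun hp => ?_⟩
    · have := (hbar _ _ _ _ (hs j) r _ p hr (min_le_left _ _)).1 fun p' h' => k1 (φ p') (by
        linarith [(abs_lt.1 (l1 p p' (h'.trans_le (min_le_right _ _)))).1])
      linarith [(out j _).1 (by linarith), hb j]
    · have := (hbar _ _ _ _ (hs j) r _ p hr (min_le_left _ _)).2 fun p' h' => k2 (φ p') (by
        linarith [(abs_lt.1 (l1 p p' (h'.trans_le (min_le_right _ _)))).2])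
      linarith [(out j _).2 (by linarith), hb j]

end Crest.Agent.N228.G

end
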