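import Crest.Agent.N228.G.Mid0
import Crest.Agent.N228.W.All
import Crest.Agent.N228.Nk.Riesz
import Crest.Agent.N228.Gr.Ims
import Crest.Agent.N222.B.Weight

/-!
# Row 228, block G, MID (helper32): shift, weight, boost, slice
-/

set_option autoImplicit false
open MeasureTheory Set Filter Topology Function Metric Real
open scoped ContDiff InnerProductSpace RealInnerProductSpace
open Crest.Agent.N222

noncomputable section

namespace Crest.Agent.N228.G

open Crest.Agent.N228.J (JC)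

open Md in
/-- **MID** -/
theorem mid (hG : GenStmt) (hB : BoostStmt) (hP : ProjStmt) : MidStmt := by
  intro m ι _ _ X _ _ _ _ _ _ C _ _ M A η r μ ℓ φ hctx U c ρ F γ k Λ 𝒰 u τ s _ hled hρ hdat hU hcU
  have hF := hdat.smF
  have hγ := hdat.pos
  have hseq := hdat.nk.seq
  have hh : M.Sm fun p => k (φ c p) := hseq.smh
  have hηc := hctx.eta c
  have hμ := hctx.mu
  have hrc : η c ≤ r c := hled.2.1.trans hρ
  obtain ⟨N, hN, hSl⟩ := wLim m ι X M F _ Λ 𝒰 u τ s hctx.inj hF hseq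
  refine ⟨N, hN, ?_⟩
  have hδ : 0 < γ / 8 := by positivity
  have hgh : ∀ p, M.grad (fun p => k (φ c p)) p = deriv k (φ c p) • M.grad (φ c) p := fun p =>
    grad_comp (hctx.sm c) ((hdat.smk.differentiable (by simp)) _).hasDerivAt
  -- the potential on the slice
  obtain ⟨G, hGs, hGl⟩ := Gr.exists_sm_le M (V := fun p => M.pre.EF F p + k (φ c p) ^ 2 -
    2 * ‖M.grad (fun p => k (φ c p)) p‖) ((hF.EF.continuous.add (hh.continuous.pow 2)).sub
      (continuous_const.mul hh.grad.continuous.norm)) hδ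
  have hS : Slice M F G (Sb 𝒰 u) (M.Bad 𝒰 u) N := hSl G hGs.continuous fun q => by
    have h1 : √(M.pre.gam (fun p => k (φ c p)) (fun p => k (φ c p)) q -
        N.pre.gam (fun q => k (φ c q)) (fun q => k (φ c q)) q) ≤
        ‖M.grad (fun p => k (φ c p)) q‖ := by
      rw [sqrt_le_left (norm_nonneg _), ← Imm.gam_self_eq]
      linarith [Imm.gam_self_nonneg (M := N) (fun q => k (φ c q)) q]
    linarith [(hGl q).2]
  obtain ⟨K, hK, hpN, hpG⟩ := Nk.exists_probe hctx.inj hF Λ hS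
  -- the shift
  have hband : IsCompact {p | |φ c p| ≤ π / 2} :=
    (isClosed_le (hctx.sm c).continuous.abs continuous_const).isCompact
  obtain ⟨χU, hχU, hχs, hχ01, hχ1⟩ := M.exists_bump hband hU hcU
  have hpk : ∀ b, b ≠ c → park φ c b = φ b := fun b hb => update_of_ne hb _ _
  have hpc : park φ c c = fun _ => π := update_self _ _ _
  have hph : ∀ b, M.Sm (park φ c b) := fun b => by
    by_cases hb : b = c
    · rw [hb, hpc]; exact Imm.sm_const _
    · rw [hpk b hb]; exact hctx.sm b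
  obtain ⟨e, he, hsh⟩ := shift hph hχU.sm (fun p => (hχ01 p).1) hγ
  obtain ⟨ξ, hξ, η0, t0, hη0, ht0, hgen⟩ := hG (m + 1) ι X M ‹_› hctx.inj C m (M.Bad 𝒰 u)
    (fun b p => (1 + e) * park φ c b p) hS.closed hS.nets
    (fun b => (Imm.sm_const _).mul (hph b)) e he
  obtain ⟨f, fj, f0, f1, fs⟩ := hsh ξ hξ
  have fsm : ∀ s b, M.Sm (f s b) := fun s b => (fj b).sm rfl s
  obtain ⟨O, hO⟩ : ∃ O, O = interior {p | χU p = 1} := ⟨_, rfl⟩
  have hO1 : ∀ p ∈ O, χU p = 1 := fun p hp => by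
    rw [hO] at hp; exact interior_subset (s := {p | χU p = 1}) hp
  have hOo : IsOpen O := hO ▸ isOpen_interior
  have hSb : ∀ p ∈ Sb 𝒰 u, |φ c p| ≤ π / 2 := fun p hp =>
    sb_band hdat.nk (hctx.sm c).continuous hp
  have hSO : Sb 𝒰 u ⊆ O := fun p hp =>
    hO ▸ mem_interior_iff_mem_nhds.2 (mem_nhdsSet_iff_forall.1 hχ1 p (hSb p hp))
  have hOU : O ⊆ U := fun p hp =>
    hχs (subset_tsupport _ (by rw [mem_support, hO1 p hp]; exact one_ne_zero))
  obtain ⟨t1, ht1, hleb⟩ := Imm.exists_lebesgue hctx.inj hS.closed.isCompact (fun _ : Unit => O)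
    (fun _ => hOo) fun p hp => mem_iUnion.2 ⟨(), hSO (hS.sub hp)⟩
  have ht : 0 < min t0 (t1 / 2) := by positivity
  have hnear : ∀ p, ∀ q ∈ M.Bad 𝒰 u, ‖M.x p - M.x q‖ ≤ min t0 (t1 / 2) → p ∈ O :=
    fun p q hq h => (hleb q hq).elim fun _ h' => h' p (by linarith [min_le_right t0 (t1 / 2)])
  -- the weight and the boost
  obtain ⟨Vm, -, hVm⟩ := Imm.exists_bound (f := fun p => M.pre.EF F p + k (φ c p) ^ 2)
    (hF.EF.continuous.add (hh.continuous.pow 2))
  replace hVm : ∀ p, M.pre.EF F p + k (φ c p) ^ 2 ≤ Vm := fun p => (le_abs_self _).trans (hVm p)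
  obtain ⟨Cχ, c0, hc0, hR⟩ := Nk.riesz_multi hctx.inj hS.closed hS.nets hK
  obtain ⟨w0, hw0⟩ : ∃ w0 : ℝ, w0 = 2 * ((Fintype.card C : ℝ) + 1) := ⟨_, rfl⟩
  obtain ⟨V0, g, hV0, hg, hbo⟩ := hB (m + 1) ι X M ‹_› C (f 1) η η0 Vm Cχ c0 w0 (Fintype.card C)
    (fun b => (Fintype.equivFin C b : ℕ)) (fsm 1) hctx.eta hη0 hc0
    (by have : (0 : ℝ) ≤ Fintype.card C := Nat.cast_nonneg _
        linarith)
    (Fin.val_injective.comp (Equiv.injective _)) fun b => Fin.is_lt _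
  obtain ⟨W, kk, t, χ, hW, hW1, hk0, hWB, hWL, hi⟩ :=
    hR (Fintype.card C) (γ / 8) V0 (min t0 (t1 / 2)) w0 g hδ ht hg
  rw [← hw0] at hWB hWL
  have hW0 : ∀ p, 0 < W p := fun p => one_pos.trans_le (hW1 p)
  have hZ : ∀ p L, Nk.Probe M m K p L → -(γ / 8) ≤ L W / W p ∧ (w0 ≤ W p → V0 ≤ L W / W p) :=
    fun p L hL => ⟨(le_div_iff₀ (hW0 p)).2 (hWL p L hL).1,
      fun h => (le_div_iff₀ (hW0 p)).2 ((hWL p L hL).2 h)⟩
  obtain ⟨β, βj, β0, β1, βs⟩ := hbo W kk t χ hW hW1 hk0 fun i h => by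
    obtain ⟨a1, a2, a3, a4, -, a5⟩ := hi i h
    exact ⟨a1, a2, a3, a4, a5⟩
  obtain ⟨ψ, ψj, ψ0, ψ1, ψs⟩ := concat fj βj β0
  have ψsm : ∀ s b, M.Sm (ψ s b) := fun s b => (ψj b).sm rfl s
  have h01 : (1 : ℝ) ∈ Icc (0 : ℝ) 1 := ⟨zero_le_one, le_rfl⟩
  have key : ∀ s ∈ Icc (0 : ℝ) 1, ∃ s' ∈ Icc (0 : ℝ) 1, Shr (f s') (ψ s) ∧
      (∀ p, W p < w0 → ∀ b, ψ s b p = f s' b p) ∧
      ∀ (p : X) (P : E ι →L[ℝ] E ι) (r : C → ℝ) (V Z : ℝ), ‖P‖ ≤ 1 → (∀ b, 0 ≤ r b) → V ≤ Vm →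
        (-(γ / 8) ≤ Z ∧ (w0 ≤ W p → V0 ≤ Z)) →
        Ok η r V (ev (f s') p) (fun b => ‖P (M.grad (f s' b) p)‖) →
        Ok η r (V + (Z + γ / 8 + ‖P (M.grad (fun q => log (W q)) p)‖ ^ 2 / 2)) (ev (ψ s) p)
          fun b => ‖P (M.grad (ψ s b) p)‖ := by
    intro s hs
    obtain ⟨s', hs', h | h⟩ := ψs s hs
    · rw [h]
      refine ⟨s', hs', fun _ _ => ⟨id, id⟩, fun _ _ _ => rfl, fun p P r V Z _ _ _ hZ h => ?_⟩
      exact ok_mono h (by nlinarith [hZ.1, sq_nonneg ‖P (M.grad (fun q => log (W q)) p)‖])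
    · rw [h]
      obtain ⟨b1, b2, b3⟩ := βs s' hs'
      refine ⟨1, h01, b1, b2, fun p P r V Z hP hr hV hZ h => ?_⟩
      by_cases hp : W p < w0
      · have e1 : ev (β s') p = ev (f 1) p := funext (b2 p hp)
        have e2 : (fun b => ‖P (M.grad (β s' b) p)‖) = fun b => ‖P (M.grad (f 1 b) p)‖ :=
          funext fun b => by
            rw [grad_congr (g := f 1 b) (mem_of_superset
              ((isOpen_lt hW.continuous continuous_const).mem_nhds hp) fun q hq => b2 q hq b)]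
        rw [e1, e2]
        exact ok_mono h (by nlinarith [hZ.1, sq_nonneg ‖P (M.grad (fun q => log (W q)) p)‖])
      · exact ok_mono (b3 p P r V hP hr hV h) (by linarith [hZ.2 (not_lt.1 hp)])
  have hn : ∀ s ∈ Icc (0 : ℝ) 1, ∀ (p : X) (P : E ι →L[ℝ] E ι), ‖P‖ ≤ 1 → ∀ b, b ≠ c →
      |ev (f s) p b - ev φ p b| ≤ γ ∧ ‖P (M.grad (f s b) p)‖ ≤ gr M φ p b + γ :=
    fun s hs p P hP b hb => by
      obtain ⟨-, h1, h2⟩ := (fs s hs).2 b p
      rw [hpk b hb] at h1 h2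
      exact ⟨h1, ((P.le_of_opNorm_le hP _).trans_eq (one_mul _)).trans h2⟩
  have hc : ∀ s ∈ Icc (0 : ℝ) 1, ∀ p, π / 2 < |ev (f s) p c| := fun s hs p =>
    (((fs s hs).1 c p).1 (by rw [hpc]; linarith [pi_pos])).trans_le (le_abs_self _)
  -- constants
  obtain ⟨b0, hb0, hb1, hb2, hb3⟩ : ∃ b0 : ℝ, 0 < b0 ∧ b0 ≤ √(η c) / 8 ∧ b0 ≤ γ / 8 ∧
      b0 ≤ 1 / 8 := ⟨min (√(η c) / 8) (min (γ / 8) (1 / 8)), by positivity, min_le_left _ _,
    (min_le_right _ _).trans (min_le_left _ _), (min_le_right _ _).trans (min_le_right _ _)⟩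
  have hL : ∀ q, Loc N M Subtype.val q := Loc.of_cont continuous_subtype_val hN.x
  have nF : N.Sm fun q => F q := hF.res hL
  have nG : N.Sm fun q => G q := hGs.res hL
  have nW : N.Sm fun q => W q := hW.res hL
  refine ⟨b0 / 2, W, ψ, fun q => G q - N.pre.lapF (fun q => F q) (fun q => W q) q / W q +
    N.pre.gam (fun q => W q) (fun q => W q) q / (2 * W q ^ 2),
    (⋃ i ∈ Finset.range (Fintype.card C), tsupport (χ i))ᶜ ∩
      ⋃ q ∈ M.Bad 𝒰 u, {p | ‖M.x p - M.x q‖ < min t0 (t1 / 2)}, O, half_pos hb0, hW, hW0, ψj,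
    ψ0.trans f0, fun s hs b p => ?_, fun s hs p hp b => ?_, fun j hu s hs p hp a e' hae => ?_, ?_,
    weight m ι _ N _ _ _ nF nG nW (fun q => hW0 q) hS.form, fun q hq => ?_, ?_, fun p hp => ?_,
    fun p hp => ?_, hOo, hSO, hOU, fun p hp b hb => ?_⟩
  · obtain ⟨s', hs', k1, -⟩ := key s hs
    exact shr1_trans ((fs s' hs').1 b p) (k1 b p)
  · obtain ⟨s', hs', -, k2, -⟩ := key s hs
    have h1 : W p < w0 := not_le.1 fun h => by
      obtain ⟨q, hq, h⟩ := hWB p h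
      exact hp (hOU (hnear p q hq h))
    rw [k2 p h1, ψ0, f0]
    exact ((fs s' hs').2 b p).1 (image_eq_zero_of_notMem_tsupport fun h => hp (hχs h))
  · -- the graphs
    obtain ⟨s', hs', k1, -, k3⟩ := key s hs
    obtain ⟨-, P, hP1, hP2⟩ := hP (m + 1) ι X M (u j) hu p
    have hgr : gr (M.graph (u j) hu) (ψ s) p = fun b => ‖P (M.grad (ψ s b) p)‖ :=
      funext fun b => (hP2 _).1
    have hr' : ∀ b, 0 ≤ update r c (r c - η c) b := fun b => by
      by_cases hb : b = c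
      · rw [hb, update_self]; linarith
      · rw [update_of_ne hb]; exact hctx.res b
    rw [hgr]
    refine gph_pt (hdat.spl p hp) hγ.le hrc (d1 := |M.pre.dir (M.Xf (u j)) (φ c) p|)
      (d2 := ‖P (M.grad (φ c) p)‖) (abs_nonneg _) (norm_nonneg _)
      (by rw [sq_abs]; exact (hP2 _).2.le) (hn s' hs' p P hP1) (hc s' hs' p) (fun b => k1 b p)
      (fun V1 hV1 => k3 p P _ V1 _ hP1 hr'
        (by nlinarith [hVm p, sq_nonneg (k (φ c p))]) (hZ p _ (hpG (u j) (hseq.adm j) p)))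
      hb0.le hb1 (fun ha => ⟨(hae ha).1, by linarith [(hae ha).2]⟩) ?_
    have h1 := Nk.EF_graph_w hF hu hW hW0 (1 / 2) p
    have h2 := hdat.nk.low j p
    have h3 : |M.pre.dir (M.Xf (u j)) (fun p => k (φ c p)) p| =
        |deriv k (φ c p)| * |M.pre.dir (M.Xf (u j)) (φ c) p| := by
      rw [Imm.dir_Xf, Imm.dir_Xf, Imm.gam_eq_inner, Imm.gam_eq_inner, hgh, inner_smul_right,
        ← abs_mul]
      congr 1; ring
    have h4 := gam_div (M := M.graph (u j) hu) hW (hW0 p)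
    rw [Imm.graph_pre, (hP2 _).1] at h4
    rw [h4] at h1
    rw [h3] at h2
    have h5 : b0 ^ 2 ≤ γ / 8 * (1 / 8) := by
      rw [sq]; exact mul_le_mul hb2 hb3 hb0.le hδ.le
    change _ ≤ (M.gS (u j)).EF (fun q => F q + log (M.vv (u j) q) + 1 / 2 * log (W q)) p - μ - _
    rw [neg_div]
    linarith
  · exact ((nG.sub ((nF.lapF nW).div nW fun q => (hW0 q).ne')).add ((nW.gam nW).div
      ((Imm.sm_const _).mul (nW.pow 2)) fun q => by have := hW0 q; positivity)).continuous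
  · -- the slice
    obtain ⟨s', hs', k1, -, k3⟩ := key 1 h01
    have hP1 : ‖N.PL q‖ ≤ 1 := ContinuousLinearMap.opNorm_le_bound _ zero_le_one fun w => by
      rw [one_mul]; exact N.norm_PL_le q w
    have hgr : gr N (fun b q => ψ 1 b q.1) q = fun b => ‖N.PL q (M.grad (ψ 1 b) q)‖ :=
      funext fun b => congrArg norm ((hL q).grad ((ψsm 1 b).diffAt _))
    have hb := hSb q q.2.1
    have h0 := hled.2.2 q hq hb
    have h1 : ∑ b ∈ fin (ev (f s') q), ℓ m b ≤ ∑ b ∈ fin (ev (park φ c) q), ℓ m b :=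
      Finset.sum_le_sum_of_subset_of_nonneg
        (fun b hb => mem_fin.2 (shr1_abs ((fs s' hs').1 b q)
          ((mem_fin (φ := ev (f s') q)).1 hb)))
        fun b _ _ => hled.1.1 m b
    have h2 : 0 ≤ |deriv k (φ c q)| * gr M φ q c := mul_nonneg (abs_nonneg _) (norm_nonneg _)
    have hZq : -(γ / 8) ≤ -N.pre.lapF (fun q => F q) (fun q => W q) q / W q ∧
        (w0 ≤ W q → V0 ≤ -N.pre.lapF (fun q => F q) (fun q => W q) q / W q) := hZ q _ (hpN q)
    rw [hgr]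
    refine slc_pt (hdat.spl q hq) hb (hn s' hs' q _ hP1) (hc s' hs' q) (fun b => k1 b q)
      (σ := ρ - 2 * η c) (by linarith) fun h => ok_mono (k3 q _ _ _ _ hP1
        (fun b => add_nonneg (hctx.res b) (hled.1.1 m b)) (by linarith [hVm q]) hZq h) ?_
    have h3 := (hGl q).1
    rw [hgh, norm_smul, Real.norm_eq_abs] at h3
    have h4 := gam_div (M := N) nW (p := q) (hW0 q)
    rw [(hL q).grad (f := fun q => log (W q)) ((hW.log fun p => (hW0 p).ne').diffAt _)] at h4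
    have h5 : N.pre.gam (fun q => W q) (fun q => W q) q / (2 * W q ^ 2) =
        N.pre.gam (fun q => W q) (fun q => W q) q / W q ^ 2 / 2 := by
      rw [div_div, mul_comm]
    rw [h5, h4, neg_div]
    change _ - 2 * (_ * ‖M.grad (φ c) q‖) - _ - _ + _ + _ ≤ _
    linarith
  · exact (isClosed_biUnion_finset fun i _ => isClosed_tsupport _).isOpen_compl.inter
      (isOpen_biUnion fun q _ => isOpen_lt (M.continuous_x.sub continuous_const).norm
        continuous_const)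
  · refine ⟨fun h => ?_, mem_biUnion hp (by simpa using ⟨ht0, ht1⟩)⟩
    obtain ⟨i, hi', h⟩ := mem_iUnion₂.1 h
    exact disjoint_left.1 (hi i (Finset.mem_range.1 hi')).2.2.2.2.1 h hp
  · obtain ⟨q, hq, h⟩ := mem_iUnion₂.1 hp.2
    have hpO := hnear p q hq (le_of_lt h)
    refine le_trans (Nat.add_le_add_right (Finset.card_le_card fun b hb => ?_) 2)
      (hgen p q hq ((le_of_lt h).trans (min_le_left _ _)))
    rw [Finset.mem_filter, ← f1 b p (hO1 p hpO)]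
    refine ⟨Finset.mem_univ _, not_lt.1 fun h1 => ?_⟩
    have h2 := β1 b p (image_eq_zero_of_notMem_tsupport fun h => hp.1
      (mem_iUnion₂.2 ⟨_, Finset.mem_range.2 (Fin.is_lt _), h⟩)) h1.le
    rw [← ψ1] at h2
    exact (not_le.2 h2) ((mem_fin (φ := ev (ψ 1) p)).1 hb)
  · have h1 := f1 b p (hO1 p hp)
    have h2 := (βs 1 h01).1 b p
    have h3 := abs_le.1 (hξ b)
    have h4 : 1 < π / 2 := by linarith [pi_gt_three]
    rw [hpk b hb] at h1
    rw [ψ1]
    exact ⟨fun h => h2.1 (by rw [h1]; nlinarith), fun h => h2.2 (by rw [h1]; nlinarith)⟩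

end Crest.Agent.N228.G

end
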