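import Crest.Agent.N228.G.Defs

/-!
# Row 228, block G: SPLIT (the truncated profile, no double counting)
-/

set_option autoImplicit false
open MeasureTheory Set Filter Topology Function Metric Real
open scoped ContDiff

noncomputable section

namespace Crest.Agent.N228.G

namespace Sp

/-! ### the profile -/

/-- a smooth clamp of the identity -/
theorem clamp {θ0 : ℝ} (h0 : 0 < θ0) (h1 : θ0 < π / 2) : ∃ ψ χ : ℝ → ℝ, ContDiff ℝ ∞ ψ ∧
    (∀ θ, HasDerivAt ψ (χ θ) θ) ∧ (∀ θ, |χ θ| ≤ 1) ∧ (∀ θ, π / 2 ≤ |θ| → χ θ = 0) ∧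
    (∀ θ, |ψ θ| ≤ |θ|) ∧ (∀ θ, |ψ θ| < π / 2) ∧ (∀ θ, π / 2 ≤ θ → ψ θ = ψ (π / 2)) ∧
    θ0 ≤ ψ (π / 2) ∧ ∀ θ, ψ (-θ) = -ψ θ := by
  set θ2 := (θ0 + π / 2) / 2 with hθ2
  have h2 : θ0 < θ2 := by linarith
  have h3 : θ2 < π / 2 := by linarith
  let χ : ContDiffBump (0 : ℝ) := ⟨θ0, θ2, h0, h2⟩
  have hc : Continuous χ := χ.continuous
  have hi : ∀ x y, IntervalIntegrable χ volume x y := fun x y => hc.intervalIntegrable x y
  set ψ : ℝ → ℝ := fun θ => ∫ x in (0 : ℝ)..θ, χ x with hψ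
  have hd : ∀ θ, HasDerivAt ψ (χ θ) θ := fun θ => (hc.integral_hasStrictDerivAt 0 θ).hasDerivAt
  have hb : ∀ θ, |χ θ| ≤ 1 := fun θ => by rw [abs_of_nonneg χ.nonneg]; exact χ.le_one
  have hz : ∀ θ, θ2 ≤ |θ| → χ θ = 0 := fun θ h => χ.zero_of_le_dist (by simpa using h)
  have hle : ∀ θ, |ψ θ| ≤ |θ| := fun θ => by
    have := intervalIntegral.norm_integral_le_of_norm_le_const (a := 0) (b := θ) (C := 1)
      (f := fun x => χ x) fun x _ => hb x
    simpa using this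
  have hodd : ∀ θ, ψ (-θ) = -ψ θ := fun θ => by
    have e := intervalIntegral.integral_comp_neg (a := 0) (b := -θ) (f := fun x => χ x)
    simp only [χ.neg, neg_neg, neg_zero] at e
    simp only [hψ]
    rw [e, intervalIntegral.integral_symm]
  have hsub : ∀ x y, ψ y = ψ x + ∫ t in x..y, χ t := fun x y =>
    (intervalIntegral.integral_add_adjacent_intervals (hi 0 x) (hi x y)).symm
  have hcst : ∀ θ, θ2 ≤ θ → ψ θ = ψ θ2 := fun θ h => by
    rw [hsub θ2 θ, intervalIntegral.integral_congr (g := fun _ => (0 : ℝ)) fun x hx => ?_]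
    · simp
    · rw [uIcc_of_le h] at hx
      exact hz x (hx.1.trans (le_abs_self x))
  have hle2 : ∀ θ, 0 ≤ θ → |ψ θ| < π / 2 := fun θ h => by
    rcases le_total θ θ2 with h' | h'
    · have := hle θ
      rw [abs_of_nonneg h] at this
      linarith
    · have := hle θ2
      rw [abs_of_nonneg (by linarith : 0 ≤ θ2)] at this
      rw [hcst θ h']
      linarith
  refine ⟨ψ, χ, ?_, hd, hb, fun θ h => hz θ (h3.le.trans h), hle, fun θ => ?_, fun θ h => ?_, ?_,
    hodd⟩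
  · rw [contDiff_infty_iff_deriv]
    refine ⟨fun θ => (hd θ).differentiableAt, ?_⟩
    rw [show deriv ψ = χ from funext fun θ => (hd θ).deriv]
    exact χ.contDiff
  · rcases le_total 0 θ with h | h
    · exact hle2 θ h
    · have := hle2 (-θ) (by linarith)
      rwa [hodd, abs_neg] at this
  · rw [hcst θ (h3.le.trans h), hcst _ h3.le]
  · have e : ψ θ0 = θ0 := by
      simp only [hψ]
      rw [intervalIntegral.integral_congr (g := fun _ => (1 : ℝ)) fun x hx => ?_]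
      · simp
      · rw [uIcc_of_le h0.le] at hx
        refine χ.one_of_mem_closedBall ?_
        rw [mem_closedBall, dist_zero_right, Real.norm_eq_abs, abs_of_nonneg hx.1]
        exact hx.2
    rw [hsub θ0, e]
    have := intervalIntegral.integral_nonneg (μ := volume) (f := fun x => χ x) h1.le
      fun x _ => χ.nonneg
    linarith

theorem key_ineq {s x c c' sn T β D : ℝ} (hs : 0 < s) (hx0 : 0 ≤ x) (hx : x ≤ 1) (hc : 0 ≤ c)
    (hcc : c ≤ c') (hc' : 0 < c') (hsn : sn ^ 2 ≤ 1) (hT : 1 + T ^ 2 = 1 / c' ^ 2)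
    (hD : D ≤ β * c + s / 8 * sn ^ 2) :
    2 * (s * x / c' ^ 2 * D) - (s * T) ^ 2 ≤ 4 / 3 * β ^ 2 + s ^ 2 := by
  set k1 := s * x / c' ^ 2 with hk1
  have hk0 : 0 ≤ k1 := by positivity
  have hk : k1 ≤ s * (1 / c' ^ 2) := by
    rw [hk1, mul_one_div]
    gcongr
    nlinarith
  have h1 : k1 * c ≤ s * (1 / c') := by
    calc k1 * c ≤ s * (1 / c' ^ 2) * c' := by gcongr
      _ = s * (1 / c') := by field_simp
  have h2 : (k1 * c) ^ 2 ≤ s ^ 2 * (1 / c' ^ 2) := by
    calc (k1 * c) ^ 2 ≤ (s * (1 / c')) ^ 2 := by gcongr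
      _ = _ := by field_simp
  have h3 : k1 * D ≤ k1 * (β * c + s / 8 * sn ^ 2) := mul_le_mul_of_nonneg_left hD hk0
  have h4 : k1 * (s * sn ^ 2) ≤ s * (1 / c' ^ 2) * (s * 1) := by gcongr
  have h5 : 2 * (β * (k1 * c)) ≤ 4 / 3 * β ^ 2 + 3 / 4 * (k1 * c) ^ 2 := by
    nlinarith [sq_nonneg (β - 3 / 4 * (k1 * c))]
  rw [← hT] at h2 h4
  nlinarith

/-- the profile `k t = √η tan (ψ (L t))` -/
theorem prof {η L : ℝ} (hη : 0 < η) (hL : 1 ≤ L) (K : ℝ) : ∃ k : ℝ → ℝ, ContDiff ℝ ∞ k ∧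
    (∀ t, π / 2 / L ≤ t → k t = k (π / 2 / L)) ∧ K ≤ k (π / 2 / L) ∧
    (∀ t, t ≤ -(π / 2 / L) → k t = k (-(π / 2 / L))) ∧ k (-(π / 2 / L)) ≤ -K ∧
    (∀ t, π / 2 ≤ |t| → deriv k t = 0) ∧
    ∀ t, |t| ≤ π / 2 → ∃ θ, |θ| ≤ π / 2 ∧ |θ - t| ≤ 2 * (L - 1) ∧ ∀ β d, L * d ≤ rate η β θ →
      2 * (|deriv k t| * d) - k t ^ 2 ≤ 4 / 3 * β ^ 2 + η := by
  set s := √η with hs
  have hs0 : 0 < s := Real.sqrt_pos.2 hη
  have hs2 : s ^ 2 = η := Real.sq_sqrt hη.le
  have hL0 : 0 < L := by linarith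
  have hK : 0 < (|K| + 1) / s := by positivity
  obtain ⟨ψ, χ, h1, h2, h3, h4, h5, h6, h7, h8, h9⟩ :=
    clamp (θ0 := arctan ((|K| + 1) / s)) (by simpa using arctan_strictMono hK)
      (arctan_lt_pi_div_two _)
  have hcos : ∀ θ, 0 < cos (ψ θ) := fun θ =>
    cos_pos_of_mem_Ioo ⟨(abs_lt.1 (h6 θ)).1, (abs_lt.1 (h6 θ)).2⟩
  set k : ℝ → ℝ := fun t => s * tan (ψ (L * t)) with hk
  have hd : ∀ t, HasDerivAt k (s * (1 / cos (ψ (L * t)) ^ 2 * (χ (L * t) * L))) t := fun t => by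
    have a1 : HasDerivAt (fun t => ψ (L * t)) (χ (L * t) * L) t := by
      have := (h2 (L * t)).comp t ((hasDerivAt_id t).const_mul L)
      rw [mul_one] at this
      exact this
    exact ((hasDerivAt_tan (hcos (L * t)).ne').comp t a1).const_mul s
  have hodd : ∀ t, k (-t) = -k t := fun t => by simp only [hk, mul_neg, h9, tan_neg]
  have hLa : L * (π / 2 / L) = π / 2 := by field_simp
  have hc1 : ∀ t, π / 2 / L ≤ t → k t = k (π / 2 / L) := fun t ht => by
    simp only [hk]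
    rw [hLa, h7]
    rw [← hLa]
    gcongr
  have hc2 : K ≤ k (π / 2 / L) := by
    simp only [hk]
    rw [hLa]
    have a1 : tan (arctan ((|K| + 1) / s)) ≤ tan (ψ (π / 2)) :=
      strictMonoOn_tan.monotoneOn ⟨neg_pi_div_two_lt_arctan _, arctan_lt_pi_div_two _⟩
        ⟨(abs_lt.1 (h6 _)).1, (abs_lt.1 (h6 _)).2⟩ h8
    rw [tan_arctan, div_le_iff₀ hs0] at a1
    linarith [le_abs_self K]
  have hz : ∀ t, π / 2 ≤ |L * t| → deriv k t = 0 := fun t ht => by
    rw [(hd t).deriv, h4 _ ht]; simp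
  have habs : ∀ t, |L * t| = L * |t| := fun t => by rw [abs_mul, abs_of_pos hL0]
  refine ⟨k, ?_, hc1, hc2, fun t ht => ?_, by rw [hodd]; linarith, fun t ht => hz t ?_,
    fun t ht => ?_⟩
  · refine contDiff_iff_contDiffAt.2 fun t => contDiffAt_const.mul ?_
    exact ContDiffAt.comp (g := tan) (f := fun t => ψ (L * t)) t
      (contDiffAt_tan.2 (hcos (L * t)).ne') (h1.comp (contDiff_const.mul contDiff_id)).contDiffAt
  · rw [hodd, ← hc1 (-t) (by linarith), hodd, neg_neg]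
  · rw [habs]; nlinarith [abs_nonneg t]
  · rcases le_total |L * t| (π / 2) with h | h
    · refine ⟨L * t, h, ?_, fun β d hd' => ?_⟩
      · rw [show L * t - t = (L - 1) * t by ring, abs_mul, abs_of_nonneg (by linarith)]
        nlinarith [pi_le_four]
      · have a1 : |deriv k t| * d = s * |χ (L * t)| / cos (ψ (L * t)) ^ 2 * (L * d) := by
          rw [(hd t).deriv]
          simp only [abs_mul, abs_of_pos hs0, abs_of_pos hL0]
          rw [abs_of_nonneg (by positivity : 0 ≤ 1 / cos (ψ (L * t)) ^ 2)]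
          ring
        have a2 : cos (L * t) ≤ cos (ψ (L * t)) := by
          rw [← cos_abs (L * t), ← cos_abs (ψ _)]
          exact cos_le_cos_of_nonneg_of_le_pi (abs_nonneg _) (by linarith [pi_pos]) (h5 _)
        rw [a1, ← hs2]
        refine key_ineq (sn := sin (L * t)) hs0 (abs_nonneg _) (h3 _)
          (cos_nonneg_of_mem_Icc (abs_le.1 h)) a2 (hcos _) (sin_sq_le_one _) ?_ hd'
        rw [one_div, ← inv_one_add_tan_sq (hcos _).ne', inv_inv]
    · refine ⟨t, ht, by simp; linarith, fun β d _ => ?_⟩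
      rw [hz t h]
      nlinarith [sq_nonneg β, sq_nonneg (k t)]

theorem rate_lip (η β x y : ℝ) : rate η β x ≤ rate η β y + (|β| + √η) * |x - y| := by
  have h1 : β * cos x - β * cos y ≤ |β| * |x - y| := by
    rw [← mul_sub]
    refine (le_abs_self _).trans ?_
    rw [abs_mul]
    exact mul_le_mul_of_nonneg_left (abs_cos_sub_cos_le x y) (abs_nonneg _)
  have h2 : sin x ^ 2 - sin y ^ 2 ≤ 2 * |x - y| := by
    rw [sq_sub_sq]
    refine (le_abs_self _).trans ?_
    rw [abs_mul]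
    have : |sin x + sin y| ≤ 2 := by
      linarith [abs_add_le (sin x) (sin y), abs_sin_le_one x, abs_sin_le_one y]
    exact mul_le_mul this (abs_sin_sub_sin_le x y) (abs_nonneg _) (by norm_num)
  have h3 := Real.sqrt_nonneg η
  have h4 := mul_le_mul_of_nonneg_left h2 h3
  have h5 := mul_nonneg h3 (abs_nonneg (x - y))
  unfold rate
  nlinarith

theorem rate_smul {η β x D l : ℝ} (h0 : 0 ≤ l) (h1 : l ≤ 1) (h : D ≤ rate η β x) :
    l * D ≤ rate η (l * β) x := by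
  have h2 := mul_le_mul_of_nonneg_left h h0
  have h3 : 0 ≤ √η / 8 * sin x ^ 2 := by positivity
  unfold rate at h2 ⊢
  nlinarith

/-- no double counting -/
theorem share {η β x γ g0 d1 d2 g : ℝ} (hγ : 0 < γ) (hg0 : 0 < g0) (hd1 : 0 ≤ d1) (hd2 : 0 ≤ d2)
    (hd2g : d2 ≤ g) (hd : d1 ^ 2 + d2 ^ 2 ≤ g ^ 2) (h : (1 + γ) * g + g0 / 2 < rate η β x) :
    ∃ β1 β2 : ℝ, (1 + γ) * d1 ≤ rate η β1 x ∧ (1 + γ) * d2 + g0 / 2 ≤ rate η β2 x ∧
      β1 ^ 2 + β2 ^ 2 ≤ β ^ 2 := by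
  have hg : 0 ≤ g := hd2.trans hd2g
  have a3 : ((1 + γ) * d1) ^ 2 + ((1 + γ) * d2 + g0 / 2) ^ 2 ≤ ((1 + γ) * g + g0 / 2) ^ 2 := by
    have b1 := mul_le_mul_of_nonneg_left hd (sq_nonneg (1 + γ))
    have b2 := mul_le_mul_of_nonneg_left hd2g (show 0 ≤ (1 + γ) * g0 by positivity)
    nlinarith
  have hD0 : 0 < (1 + γ) * g + g0 / 2 := by positivity
  have a1 : 0 ≤ (1 + γ) * d1 := by positivity
  have a2 : 0 ≤ (1 + γ) * d2 + g0 / 2 := by positivity
  generalize (1 + γ) * g + g0 / 2 = D at *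
  generalize (1 + γ) * d1 = D1 at *
  generalize (1 + γ) * d2 + g0 / 2 = D2 at *
  have a4 : (D1 / D) ^ 2 + (D2 / D) ^ 2 ≤ 1 := by
    rw [div_pow, div_pow, ← add_div, div_le_one (by positivity)]; exact a3
  have l1 : 0 ≤ D1 / D := by positivity
  have l2 : 0 ≤ D2 / D := by positivity
  have l1' : D1 / D ≤ 1 := by nlinarith [sq_nonneg (D2 / D)]
  have l2' : D2 / D ≤ 1 := by nlinarith [sq_nonneg (D1 / D)]
  have r1 := rate_smul l1 l1' h.le
  have r2 := rate_smul l2 l2' h.le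
  rw [div_mul_cancel₀ _ hD0.ne'] at r1 r2
  refine ⟨_, _, r1, r2, ?_⟩
  have := mul_le_mul_of_nonneg_right a4 (sq_nonneg β)
  rw [mul_pow, mul_pow]
  linarith

theorem abs_le_one_add {x B : ℝ} (h : x ^ 2 ≤ B) : |x| ≤ 1 + B := by
  nlinarith [sq_abs x, abs_nonneg x, sq_nonneg (|x| - 1)]

/-! ### room in the class -/

variable {C : Type} [Fintype C]

theorem mem_fin {φ : C → ℝ} {b : C} : b ∈ fin φ ↔ |φ b| ≤ π / 2 := by simp [fin]

theorem mono {m : ℕ} {η r r' : C → ℝ} {V V' : ℝ} {φ g g' : C → ℝ} (h : Good m η r V φ g)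
    (hr : ∀ b, r' b ≤ r b) (hV : V ≤ V') (hg : ∀ b, g' b ≤ g b) : Good m η r' V' φ g' := by
  rcases h with h | ⟨β, h1, h2⟩
  · exact Or.inl h
  · refine Or.inr ⟨β, fun b hb => (hg b).trans_lt (h1 b hb), lt_of_le_of_lt ?_ (h2.trans_le hV)⟩
    exact Finset.sum_le_sum fun b _ => by linarith [hr b]

theorem isOpen_good (m : ℕ) (η : C → ℝ) {r : C → ℝ} (hr : ∀ b, 0 ≤ r b) :
    IsOpen {z : ℝ × (C → ℝ) × (C → ℝ) | Good m η r z.1 z.2.1 z.2.2} := by
  refine isOpen_iff_mem_nhds.2 fun z hz => ?_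
  have h1 : ∀ᶠ w in 𝓝 z, fin w.2.1 ⊆ fin z.2.1 := by
    have : ∀ b, ∀ᶠ w in 𝓝 z, |w.2.1 b| ≤ π / 2 → |z.2.1 b| ≤ π / 2 := fun b => by
      by_cases hb : |z.2.1 b| ≤ π / 2
      · exact Eventually.of_forall fun _ _ => hb
      · have hc : Continuous fun w : ℝ × (C → ℝ) × (C → ℝ) => |w.2.1 b| := by fun_prop
        filter_upwards [hc.continuousAt.eventually (lt_mem_nhds (not_le.1 hb))] with w hw h
        exact absurd h (not_le.2 hw)
    filter_upwards [eventually_all.2 this] with w hw b hb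
    exact mem_fin.2 (hw b (mem_fin.1 hb))
  rcases hz with h | ⟨β, h2, h3⟩
  · filter_upwards [h1] with w hw
    exact Or.inl ((Nat.add_le_add_right (Finset.card_le_card hw) 2).trans h)
  · have h4 : ∀ᶠ w in 𝓝 z, ∀ b ∈ fin z.2.1, w.2.2 b < rate (η b) (β b) (w.2.1 b) := by
      refine (eventually_all_finset _).2 fun b hb => ?_
      have c1 : Continuous fun w : ℝ × (C → ℝ) × (C → ℝ) => w.2.2 b := by fun_prop
      have c2 : Continuous fun w : ℝ × (C → ℝ) × (C → ℝ) => rate (η b) (β b) (w.2.1 b) := by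
        unfold rate; fun_prop
      exact c1.continuousAt.eventually_lt c2.continuousAt (h2 b hb)
    filter_upwards [h1, h4, continuous_fst.continuousAt.eventually (lt_mem_nhds h3)]
      with w hw hw4 hw5
    refine Or.inr ⟨β, fun b hb => hw4 b (hw hb), lt_of_le_of_lt ?_ hw5⟩
    exact Finset.sum_le_sum_of_subset_of_nonneg hw fun b _ _ => by
      linarith [hr b, sq_nonneg (β b)]

theorem room {m : ℕ} {η r : C → ℝ} (hr : ∀ b, 0 ≤ r b) {𝒦 : Set (ℝ × (C → ℝ) × (C → ℝ))}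
    (hK : IsCompact 𝒦) (h : ∀ z ∈ 𝒦, Good m η r z.1 z.2.1 z.2.2) : ∃ g0 > 0, ∀ z ∈ 𝒦,
    ∀ V φ g, z.1 - g0 ≤ V → (∀ b, |φ b - z.2.1 b| ≤ g0) → (∀ b, g b ≤ z.2.2 b + g0) →
      Good m η r V φ g := by
  obtain ⟨δ, hδ, hs⟩ := hK.exists_cthickening_subset_open (isOpen_good m η hr) h
  refine ⟨δ, hδ, fun z hz V φ g h1 h2 h3 => ?_⟩
  have h4 : (z.1 - δ, φ, fun b => z.2.2 b + δ) ∈ cthickening δ 𝒦 := by
    refine mem_cthickening_of_dist_le _ z δ 𝒦 hz ?_
    simp only [Prod.dist_eq, max_le_iff]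
    refine ⟨?_, (dist_pi_le_iff hδ.le).2 fun b => h2 b, (dist_pi_le_iff hδ.le).2 fun b => ?_⟩ <;>
      simp [abs_of_pos hδ]
  exact mono (hs h4) (fun _ => le_rfl) h1 h3

variable [DecidableEq C]

/-- the reference state, in which `c` is finite -/
theorem ref {m : ℕ} {η r : C → ℝ} {W θ D : ℝ} {φ g : C → ℝ} {c : C} (hθ : |θ| ≤ π / 2)
    (h : Good (m + 1) η r W (update φ c θ) (update g c D)) :
    ((fin φ).erase c).card + 2 ≤ m ∨ ∃ β : C → ℝ, D < rate (η c) (β c) θ ∧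
      (∀ b ∈ (fin φ).erase c, g b < rate (η b) (β b) (φ b)) ∧
      4 / 3 * β c ^ 2 + r c + ∑ b ∈ (fin φ).erase c, (4 / 3 * β b ^ 2 + r b) < W := by
  have e : fin (update φ c θ) = insert c ((fin φ).erase c) := by
    ext b
    by_cases hb : b = c
    · subst hb; simp [mem_fin, hθ]
    · simp [mem_fin, hb]
  have hc : c ∉ (fin φ).erase c := Finset.notMem_erase c _
  rcases h with h | ⟨β, h1, h2⟩
  · left
    rw [Few, e, Finset.card_insert_of_notMem hc] at h
    omega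
  · rw [e] at h1 h2
    rw [Finset.sum_insert hc] at h2
    refine Or.inr ⟨β, by simpa using h1 c (Finset.mem_insert_self _ _), fun b hb => ?_, h2⟩
    have := h1 b (Finset.mem_insert_of_mem hb)
    rwa [update_of_ne (Finset.ne_of_mem_erase hb), update_of_ne (Finset.ne_of_mem_erase hb)] at this

theorem ok_update {η r : C → ℝ} {W e β2 : ℝ} {φ g β : C → ℝ} {c : C} (hr : ∀ b, 0 ≤ r b)
    (he : e ≤ r c) (h1 : ∀ b ∈ (fin φ).erase c, g b < rate (η b) (β b) (φ b))
    (h2 : g c < rate (η c) β2 (φ c))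
    (h3 : 4 / 3 * β2 ^ 2 + (r c - e) + ∑ b ∈ (fin φ).erase c, (4 / 3 * β b ^ 2 + r b) < W) :
    Ok η (update r c (r c - e)) W φ g := by
  refine ⟨update β c β2, fun b hb => ?_, ?_⟩
  · by_cases hbc : b = c
    · subst hbc
      rwa [update_self]
    · rw [update_of_ne hbc]
      exact h1 b (Finset.mem_erase.2 ⟨hbc, hb⟩)
  · have b1 : ∑ b ∈ fin φ, (4 / 3 * update β c β2 b ^ 2 + update r c (r c - e) b) ≤
        ∑ b ∈ insert c ((fin φ).erase c),
          (4 / 3 * update β c β2 b ^ 2 + update r c (r c - e) b) := by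
      refine Finset.sum_le_sum_of_subset_of_nonneg (Finset.subset_insert_iff.2 subset_rfl)
        fun b _ _ => ?_
      by_cases hb : b = c
      · subst hb; simp only [update_self]; linarith [sq_nonneg β2]
      · simp only [update_of_ne hb]; linarith [hr b, sq_nonneg (β b)]
    have b2 : ∑ b ∈ (fin φ).erase c, (4 / 3 * update β c β2 b ^ 2 + update r c (r c - e) b) =
        ∑ b ∈ (fin φ).erase c, (4 / 3 * β b ^ 2 + r b) :=
      Finset.sum_congr rfl fun b hb => by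
        rw [update_of_ne (Finset.ne_of_mem_erase hb), update_of_ne (Finset.ne_of_mem_erase hb)]
    rw [Finset.sum_insert (Finset.notMem_erase c _), b2, update_self, update_self] at b1
    linarith

end Sp

open Sp in
theorem split : SplitStmt := by
  intro C _ _ m η r c 𝒦 hK hr hη hηr h
  obtain ⟨g0, hg0, hroom⟩ := room hr hK fun z hz => (h z hz).2
  obtain ⟨B, hB⟩ := hK.isBounded.exists_norm_le
  set N := 4 * (2 + 3 * (1 + |B| + √(η c)) + |B|) with hN
  have hs := Real.sqrt_nonneg (η c)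
  have hB0 := abs_nonneg B
  have hN0 : 0 < N := by positivity
  set γ := g0 / N with hγ
  have hγ0 : 0 < γ := by positivity
  have hγN : γ * N = g0 := by rw [hγ]; field_simp
  have hγ1 : γ * (1 + 3 * (1 + |B| + √(η c))) < g0 / 2 := by
    rw [← hγN, hN]; nlinarith [mul_nonneg hγ0.le hs, mul_nonneg hγ0.le hB0]
  have hγ2 : γ * |B| ≤ g0 / 2 := by
    rw [← hγN, hN]; nlinarith [mul_nonneg hγ0.le hs, mul_nonneg hγ0.le hB0]
  have hγ3 : 2 * γ ≤ g0 := by
    rw [← hγN, hN]; nlinarith [mul_nonneg hγ0.le hs, mul_nonneg hγ0.le hB0]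
  have hL : 1 ≤ 1 + γ := by linarith
  refine ⟨γ, π / 2 / (1 + γ), hγ0, by positivity, div_lt_self (by positivity) (by linarith),
    fun K => ?_⟩
  obtain ⟨k, k1, k2, k3, k4, k5, k6, k7⟩ := prof hη hL K
  refine ⟨k, k1, k2, k3, k4, k5, ?_⟩
  rintro ⟨V, φ, g⟩ hz
  have hg : 0 ≤ g c := (h _ hz).1
  have hVB : V ≤ |B| :=
    (le_abs_self V).trans ((norm_fst_le (V, φ, g)).trans ((hB _ hz).trans (le_abs_self B)))
  have hgB : γ * g c ≤ g0 / 2 := by
    have : g c ≤ |B| := (le_abs_self _).trans ((norm_le_pi_norm g c).trans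
      ((norm_snd_le (φ, g)).trans ((norm_snd_le (V, φ, g)).trans
        ((hB _ hz).trans (le_abs_self B)))))
    nlinarith
  have hroom' := hroom _ hz
  -- the reference state
  have href : ∀ (θ D : ℝ) (φ' g' : C → ℝ), |θ - φ c| ≤ 2 * (1 + γ - 1) → D ≤ g c + g0 →
      (∀ b, b ≠ c → |φ' b - φ b| ≤ γ ∧ g' b ≤ g b + γ) →
      Good (m + 1) η r (V - γ) (update φ' c θ) (update g' c D) := by
    intro θ D φ' g' h1 h2 h3
    refine hroom' _ _ _ (by simp only; linarith) (fun b => ?_) fun b => ?_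
    · by_cases hb : b = c
      · subst hb; simp only [update_self]; linarith
      · simp only [update_of_ne hb]; linarith [(h3 b hb).1]
    · by_cases hb : b = c
      · subst hb; simp only [update_self]; exact h2
      · simp only [update_of_ne hb]; linarith [(h3 b hb).2]
  have hnn : ∀ (β : C → ℝ) (S : Finset C), 0 ≤ ∑ b ∈ S, (4 / 3 * β b ^ 2 + r b) := fun β S =>
    Finset.sum_nonneg fun b _ => by linarith [hr b, sq_nonneg (β b)]
  constructor
  · intro d1 d2 V' φ' g' hd1 hd2 hd hV hφ hg1 hg2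
    simp only at hd hV hφ hg1 hg2
    have hd2g : d2 ≤ g c := by nlinarith [sq_nonneg d1]
    rcases le_total (π / 2) |φ c| with ht | ht
    · rw [k6 _ ht, abs_zero, zero_mul, mul_zero, sub_zero, min_eq_left (sq_nonneg _)] at hV
      refine mono (hroom' V' φ' g' (by simp only; linarith) (fun b => by linarith [hφ b])
        fun b => ?_) (fun b => ?_) le_rfl fun _ => le_rfl
      · by_cases hb : b = c
        · subst hb; simp only; linarith
        · simp only; linarith [hg1 b hb]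
      · by_cases hb : b = c
        · subst hb; simp only [update_self]; linarith
        · rw [update_of_ne hb]
    obtain ⟨θ, t1, t2, t3⟩ := k7 _ ht
    rcases ref t1 (href θ ((1 + γ) * g c + g0 / 2) φ' g' t2 (by linarith)
      fun b hb => ⟨hφ b, hg1 b hb⟩) with h1 | ⟨β, h1, h2, h3⟩
    · left
      have := Finset.pred_card_le_card_erase (s := fin φ') (a := c)
      unfold Few
      omega
    obtain ⟨β1, β2, r1, r2, a5⟩ := share (η := η c) hγ0 hg0 hd1 hd2 hd2g hd h1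
    have r3 := t3 _ _ r1
    have a6 : V - γ - (4 / 3 * β1 ^ 2 + η c) ≤ V' := by
      have : -(4 / 3 * β1 ^ 2 + η c) ≤ min 0 (k (φ c) ^ 2 - 2 * (|deriv k (φ c)| * d1)) :=
        le_min (by linarith [sq_nonneg β1]) (by linarith)
      linarith
    have a7 : |β2| ≤ 1 + |B| := by
      refine abs_le_one_add ?_
      linarith [hnn β ((fin φ').erase c), hr c, sq_nonneg β1, sq_nonneg (β c)]
    refine Or.inr (ok_update (β2 := β2) hr hηr h2 ?_ (by linarith))
    have b1 := rate_lip (η c) β2 θ (φ' c)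
    have b2 : |θ - φ' c| ≤ 3 * γ := by
      have := abs_sub_le θ (φ c) (φ' c)
      rw [abs_sub_comm (φ c)] at this
      linarith [hφ c]
    have b3 : (|β2| + √(η c)) * |θ - φ' c| ≤ (1 + |B| + √(η c)) * (3 * γ) := by gcongr
    have b4 := mul_nonneg hγ0.le hd2
    linarith
  · intro ht V' φ' g' hV hφ hc
    simp only at ht hV hφ
    obtain ⟨θ, t1, t2, t3⟩ := k7 _ ht
    have e : (fin φ').erase c = fin φ' :=
      Finset.erase_eq_of_notMem fun hm => absurd (mem_fin.1 hm) (not_le.2 hc)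
    rcases ref t1 (href θ ((1 + γ) * g c) φ' g' t2 (by linarith) hφ) with h1 | ⟨β, h1, h2, h3⟩
    · rw [e] at h1
      exact Or.inl h1
    · rw [e] at h2 h3
      have := t3 _ _ h1.le
      exact Or.inr ⟨β, h2, by linarith⟩

end Crest.Agent.N228.G

end
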