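import Crest.Agent.N228.G.Step0
import Crest.Agent.N228.G.Core

/-! # Row 228, block G (helper62): the step and the localised step -/

set_option autoImplicit false
set_option linter.unusedSectionVars false
open MeasureTheory Set Filter Topology Function Real
open scoped ContDiff
open Crest.Agent.N222 Crest.Agent.N222.Imm Crest.Agent.N228.J

noncomputable section

namespace Crest.Agent.N228.G

variable {d : ℕ} {ι κ : Type} [Fintype ι] [DecidableEq ι] [Fintype κ] [DecidableEq κ] {X : Type}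
  [TopologicalSpace X] [MeasurableSpace X] {C : Type} [Fintype C] [DecidableEq C] {M : Imm d ι X}
  {A : Set X} {η r : C → ℝ} {μ b : ℝ} {φ : C → X → ℝ} {u v : X → ℝ} {w : κ → X → ℝ}

/-- reindexing -/
def swapL (ι κ : Type) [Fintype ι] [Fintype κ] : E (Option ι ⊕ κ) →ₗᵢ[ℝ] E (ι ⊕ Option κ) where
  toFun z := WithLp.toLp 2 (Sum.elim (fun a => z (.inl (some a)))
    fun i => i.elim (z (.inl none)) fun i => z (.inr i))
  map_add' z z' := by ext (a | _ | i) <;> rfl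
  map_smul' t z := by ext (a | _ | i) <;> rfl
  norm_map' z := by
    rw [← sq_eq_sq₀ (norm_nonneg _) (norm_nonneg _)]
    simp only [EuclideanSpace.norm_sq_eq, Fintype.sum_sum_type, Fintype.sum_option]
    change _ + (‖z (.inl none)‖ ^ 2 + ∑ i, ‖z (.inr i)‖ ^ 2) = _
    exact (add_left_comm _ _ _).trans (add_assoc _ _ _).symm

theorem sm_elim (hv : M.Sm v) (hw : ∀ i, M.Sm (w i)) (i : Option κ) : M.Sm (i.elim v w) := by
  cases i
  exacts [hv, hw _]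

/-- the height of a graph as one more coordinate -/
theorem inD_gx (hu : M.Sm u) (hw : ∀ i, M.Sm (w i)) (hv : ∀ p, v p = u p + b)
    (h : InD ((M.graph u hu).xt w) A η r μ φ) :
    InD (M.xt fun i : Option κ => i.elim v w) A η r μ φ := by
  obtain ⟨F, hF, h⟩ := h
  have h1 : M.Sm v := (funext hv : v = _) ▸ hu.add (sm_const b)
  have l : ∀ p, Gr.LI ((M.graph u hu).xt w) (M.xt fun i : Option κ => i.elim v w) id p := fun p =>
    ⟨swapL ι κ, WithLp.toLp 2 (Sum.elim (fun _ => 0) fun i => i.elim b fun _ => 0),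
      .of_forall fun q => ⟨continuousAt_id, by
        rw [id, xt_x (sm_elim h1 hw), xt_x (M := M.graph u hu) hw]
        ext (a | _ | i)
        exacts [(add_zero _).symm, hv q, (add_zero _).symm]⟩⟩
  refine ⟨F, hF, fun p hp => ?_⟩
  have e1 : ((M.graph u hu).xt w).pre.EF F p = (M.xt fun i : Option κ => i.elim v w).pre.EF F p :=
    (l p).EF hF
  have e2 : gr ((M.graph u hu).xt w) φ p = gr (M.xt fun i : Option κ => i.elim v w) φ p :=
    funext fun c => (sq_eq_sq₀ (norm_nonneg _) (norm_nonneg _)).1 (by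
      rw [← gam_self_eq, ← gam_self_eq]; exact (l p).gam (φ c) (φ c))
  exact e1 ▸ e2 ▸ h p hp

theorem jc_sm {Λ : Type} [TopologicalSpace Λ] {f : Λ → X → ℝ} (h : JC M.atl univ f) (l : Λ) :
    M.Sm (f l) := (M.smOn_univ rfl).1 (h.smOn l)

/-- a path of graphs, followed by a path -/
theorem prepend_graph {φ0 : C → X → ℝ} {Q : (C → X → ℝ) → Prop} {v : ℝ → X → ℝ}
    (hj : JC M.atl univ v) (h0 : ∀ p, v 0 p = 0) (hu : M.Sm u) (h1 : ∀ p, v 1 p = u p + b)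
    (h : ∀ s ∈ Icc (0 : ℝ) 1, InD (M.graph (v s) (jc_sm hj s)) A η r μ φ)
    (hp : ExPath (M.graph u hu) A univ η r μ φ0 φ Q) : ExPath M A univ η r μ φ0 φ Q := by
  obtain ⟨κ, _, _, y, ψ, P, hQ⟩ := hp
  have c1 : Continuous fun s : ℝ => min (2 * s) 1 := by fun_prop
  have c2 : Continuous fun s : ℝ => max (2 * s - 1) 0 := by fun_prop
  have hy : ∀ s i, M.Sm (y s i) := fun s i => jc_sm (M := M) (P.jy i) s
  have m2 : ∀ s ∈ Icc (0 : ℝ) 1, max (2 * s - 1) 0 ∈ Icc (0 : ℝ) 1 := fun s hs =>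
    ⟨le_max_right _ _, max_le (by linarith [hs.2]) zero_le_one⟩
  refine ⟨Option κ, _, _, fun s i => i.elim (v (min (2 * s) 1)) (y (max (2 * s - 1) 0)),
    fun s => ψ (max (2 * s - 1) 0), ⟨fun i => ?_, fun c => (P.jψ c).reparam c2, fun i p => ?_, ?_,
    fun s hs => ?_, fun s hs => P.shr _ (m2 s hs), fun _ _ p hp => absurd (mem_univ p) hp⟩, ?_⟩
  · cases i
    exacts [hj.reparam c1, (P.jy _).reparam c2]
  · cases i
    · simpa using h0 p
    · simpa using P.y0 _ p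
  · simpa using P.ψ0
  · rcases le_total (2 * s) 1 with h2 | h2
    · simp only [max_eq_right (sub_nonpos.2 h2), min_eq_left h2, P.ψ0]
      exact inD_gx (jc_sm hj _) (hy 0) (b := 0) (fun p => (add_zero _).symm)
        (inD_xt_zero (h _ ⟨by linarith [hs.1], h2⟩) P.y0)
    · simp only [min_eq_right h2]
      exact inD_gx hu (hy _) h1 (P.cls _ (m2 s hs))
  · simpa only [show max (2 * 1 - 1 : ℝ) 0 = 1 by norm_num] using hQ

theorem step (hS : SplitStmt) (hSol : SolStmt) (m : ℕ) (hC : CoreStmt m) : StepStmt m := by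
  intro ι _ _ X _ _ _ _ _ _ C _ _ M A η r μ ℓ φ ctx c ρ hI hL hρ ⟨F, hF, hD⟩
  obtain ⟨γ, a, hγ, a0, a1, H⟩ := exists_spl hS ctx hF hD (hL.2.1.trans hρ)
  obtain ⟨K, H'⟩ := hSol _ ι X M F ctx.inj hF (φ c) a (γ / 4) (ctx.sm c) a0 a1 (by positivity)
  obtain ⟨k, k1, k2, k3, k4, k5, k6⟩ := H K
  obtain ⟨Λ, 𝒰, u, τ, s, hN, hv⟩ := H' k k1 (fun t ht => k2 t ht ▸ k3) fun t ht => k4 t ht ▸ k5
  obtain ⟨j, hu, hP⟩ := hC ι X C M A η r μ ℓ φ ctx univ c ρ F γ k Λ 𝒰 u τ s hI hL hρ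
    ⟨hF, hγ, k1, k6, hN⟩ isOpen_univ fun _ _ => mem_univ _
  obtain ⟨v, b, v1, v2, v3, v4⟩ := hv j
  exact prepend_graph v1 v2 hu v3 (fun t ht => inD_graph k6 hγ.le hF (ctx.sm c) k1 _ (v4 t ht)
    (by linarith) hL.2.1) hP

theorem lstep (hS : SplitStmt) (hLoc : LocStmt) (m : ℕ) (hC : CoreStmt m) : LStepStmt m := by
  intro ι _ _ X _ _ _ _ _ _ C _ _ M A η r μ ℓ φ ctx U c ρ hU hcU hI hL hρ ⟨F, hF, hD⟩
  obtain ⟨γ, a, hγ, a0, a1, H⟩ := exists_spl hS ctx hF hD (hL.2.1.trans hρ)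
  obtain ⟨K, H'⟩ := hLoc _ ι X M F ctx.inj hF (φ c) a (γ / 4) (ctx.sm c) a0 a1 (by positivity)
  obtain ⟨k, k1, k2, k3, k4, k5, k6⟩ := H K
  obtain ⟨Λ, 𝒰, u, τ, s, hN, hv⟩ := H' k k1 k2 k3 k4 k5
  obtain ⟨j, hu, κ, _, _, y, ψ, P, hQ⟩ := hC ι X C M A η r μ ℓ φ ctx U c ρ F γ k Λ 𝒰 u τ s hI hL hρ
    ⟨hF, hγ, k1, k6, hN⟩ hU hcU
  obtain ⟨b, b', hb⟩ := hv j
  have m1 : (1 : ℝ) ∈ Icc (0 : ℝ) 1 := ⟨zero_le_one, le_rfl⟩
  have hy : ∀ i, M.Sm (y 1 i) := fun i => jc_sm (M := M) (P.jy i) 1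
  refine ⟨Option κ, _, _, fun i => i.elim (u j) (y 1), ψ 1, fun i => i.elim b fun _ => 0,
    fun i => i.elim b' fun _ => 0, sm_elim hu hy, fun c' => jc_sm (M := M) (P.jψ c') 1,
    inD_gx hu hy (b := 0) (fun p => (add_zero _).symm) (P.cls 1 m1), P.shr 1 m1, fun p hp => ?_, hQ⟩
  have h1 := lt_abs.1 (not_le.1 fun h => hp (hcU p h))
  refine ⟨(P.loc 1 m1 p hp).2, fun h i => ?_, fun h i => ?_⟩ <;> cases i
  · exact (hb p).1 (h1.elim le_of_lt fun _ => by linarith [pi_pos])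
  · exact (P.loc 1 m1 p hp).1 _
  · exact (hb p).2 (h1.elim (fun _ => by linarith [pi_pos]) fun _ => by linarith)
  · exact (P.loc 1 m1 p hp).1 _

end Crest.Agent.N228.G

end
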