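import Crest.Agent.N228.G.Ind
import Crest.Agent.N228.G.Step
import Crest.Agent.N228.G.Split
import Crest.Agent.N228.G.Loc
import Crest.Agent.N228.G.Gen
import Crest.Agent.N228.G.Boost
import Crest.Agent.N228.G.Mid
import Crest.Agent.N228.G.Flip

/-! # Row 228, block G (helper16): assembly -/

set_option autoImplicit false

namespace Crest.Agent.N228.G

theorem gstmt_of' (hP : ProjStmt) (hG : GraftStmt) : GStmt :=
  gstmt_of (mid gen boost hP) hG flip (step split sol) (lstep split loc)

end Crest.Agent.N228.G
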