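import Crest.Agent.N228.G.Core
import Crest.Agent.N228.N3.Band

/-! # Row 228, block G (helper16): the induction over colours and dimensions -/

set_option autoImplicit false
set_option linter.unusedSectionVars false
open MeasureTheory Set Filter Topology Function Real
open scoped ContDiff
open Crest.Agent.N222 Crest.Agent.N222.Imm Crest.Agent.N228.J

noncomputable section

namespace Crest.Agent.N228.G

variable {d : ℕ} {ι : Type} [Fintype ι] [DecidableEq ι] {X : Type} [TopologicalSpace X]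
  [MeasurableSpace X] {C : Type} [Fintype C] [DecidableEq C] {M : Imm d ι X} {A U : Set X}
  {η r : C → ℝ} {μ : ℝ} {φ0 φ : C → X → ℝ} {Q : (C → X → ℝ) → Prop}

theorem inD_xt_xt {κ κ' : Type} [Fintype κ] [DecidableEq κ] [Fintype κ'] [DecidableEq κ']
    {y : κ → X → ℝ} {z : κ' → X → ℝ} (hy : ∀ i, M.Sm (y i)) (hz : ∀ i, M.Sm (z i))
    (h : InD ((M.xt y).xt z) A η r μ φ) : InD (M.xt (Sum.elim y z)) A η r μ φ := by
  obtain ⟨F, hF, h⟩ := h
  have l : ∀ p, Gr.LI ((M.xt y).xt z) (M.xt (Sum.elim y z)) id p := fun p =>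
    ⟨(LinearIsometryEquiv.piLpCongrLeft 2 ℝ ℝ (Equiv.sumAssoc ι κ κ')).toLinearIsometry, 0,
      .of_forall fun q => ⟨continuousAt_id, by
        rw [id, xt_x (Sum.rec hy hz), xt_x (M := M.xt y) hz, xt_x hy, add_zero]
        ext (b | i | i) <;> rfl⟩⟩
  refine ⟨F, hF, fun p hp => ?_⟩
  have e1 : ((M.xt y).xt z).pre.EF F p = (M.xt (Sum.elim y z)).pre.EF F p := (l p).EF hF
  have e2 : gr ((M.xt y).xt z) φ p = gr (M.xt (Sum.elim y z)) φ p := funext fun c =>
    (sq_eq_sq₀ (norm_nonneg _) (norm_nonneg _)).1 (by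
      rw [← gam_self_eq, ← gam_self_eq]; exact (l p).gam (φ c) (φ c))
  exact e1 ▸ e2 ▸ h p hp

theorem inD_res {r' : C → ℝ} (h : InD M A η r μ φ) (hr : r' ≤ r) : InD M A η r' μ φ :=
  let ⟨F, hF, h⟩ := h
  ⟨F, hF, fun p hp => (h p hp).mono le_rfl (fun _ _ => le_rfl) fun c _ => hr c⟩

/-- the constant path -/
theorem exPath_const (hφ : ∀ c, M.Sm (φ c)) (h : InD M A η r μ φ) (hQ : Q φ) :
    ExPath M A U η r μ φ φ Q :=
  ⟨Empty, _, _, fun _ _ _ => 0, fun _ => φ, ⟨fun i => i.elim,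
    fun c => JC.of_sm rfl isOpen_univ (hφ c), fun _ _ => rfl, rfl,
    fun _ _ => inD_xt_zero h fun _ _ => rfl, fun _ _ => Shr.refl _,
    fun _ _ _ _ => ⟨fun _ => rfl, fun _ => rfl⟩⟩, hQ⟩

/-- concatenation -/
theorem append {κ : Type} [Fintype κ] [DecidableEq κ] {y : ℝ → κ → X → ℝ} {χ : ℝ → C → X → ℝ}
    {r' : C → ℝ} (P : IsPath M A U η r' μ φ0 φ y χ) (hr : r ≤ r')
    (hp : ExPath (M.xt (y 1)) A U η r μ (χ 1) (χ 1) Q) : ExPath M A U η r μ φ0 φ Q := by
  obtain ⟨κ', _, _, z, ψ, P', hQ⟩ := hp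
  have one : (1 : ℝ) ∈ Icc (0 : ℝ) 1 := ⟨zero_le_one, le_rfl⟩
  have c1 : Continuous fun s : ℝ => min (2 * s) 1 := by fun_prop
  have c2 : Continuous fun s : ℝ => max (2 * s - 1) 0 := by fun_prop
  have sy : ∀ s i, M.Sm (y s i) := fun s i => (P.jy i).sm rfl s
  have sz : ∀ s i, M.Sm (z s i) := fun s i => (P'.jy i).sm (M := M) rfl s
  set ψ' : ℝ → C → X → ℝ := fun s c p =>
    χ (min (2 * s) 1) c p + ψ (max (2 * s - 1) 0) c p - χ 1 c p with hψ
  have e1 : ∀ s, 2 * s ≤ 1 → max (2 * s - 1) 0 = 0 ∧ ψ' s = χ (2 * s) := fun s hs => by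
    have := max_eq_right (sub_nonpos.2 hs)
    exact ⟨this, by simp only [hψ, this, min_eq_left hs, P'.ψ0, add_sub_cancel_right]⟩
  have e2 : ∀ s, 1 ≤ 2 * s → max (2 * s - 1) 0 = 2 * s - 1 ∧ ψ' s = ψ (2 * s - 1) := fun s hs => by
    have := max_eq_left (sub_nonneg.2 hs)
    exact ⟨this, by simp only [hψ, this, min_eq_right hs, add_sub_cancel_left]⟩
  have key : ∀ s ∈ Icc (0 : ℝ) 1,
      InD (M.xt (Sum.elim (y (min (2 * s) 1)) (z (max (2 * s - 1) 0)))) A η r μ (ψ' s) ∧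
      Shr φ0 (ψ' s) ∧ ∀ p, p ∉ U →
        (∀ i, Sum.elim (y (min (2 * s) 1)) (z (max (2 * s - 1) 0)) i p = 0) ∧
        ∀ c, ψ' s c p = φ c p := fun s hs => by
    rcases le_total (2 * s) 1 with h1 | h1
    · have m : 2 * s ∈ Icc (0 : ℝ) 1 := ⟨by linarith [hs.1], h1⟩
      rw [(e1 s h1).1, (e1 s h1).2, min_eq_left h1]
      exact ⟨inD_xt_xt (sy _) (sz _) (inD_xt_zero (inD_res (P.cls _ m) hr) P'.y0), P.shr _ m,
        fun p hp => ⟨Sum.rec (P.loc _ m p hp).1 fun i => P'.y0 i p, (P.loc _ m p hp).2⟩⟩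
    · have m : 2 * s - 1 ∈ Icc (0 : ℝ) 1 := ⟨by linarith, by linarith [hs.2]⟩
      rw [(e2 s h1).1, (e2 s h1).2, min_eq_right h1]
      exact ⟨inD_xt_xt (sy _) (sz _) (P'.cls _ m), (P.shr 1 one).trans (P'.shr _ m),
        fun p hp => ⟨Sum.rec (P.loc _ one p hp).1 (P'.loc _ m p hp).1, fun c =>
          ((P'.loc _ m p hp).2 c).trans ((P.loc _ one p hp).2 c)⟩⟩
  refine ⟨κ ⊕ κ', _, _, fun s => Sum.elim (y (min (2 * s) 1)) (z (max (2 * s - 1) 0)), ψ',
    ⟨Sum.rec (fun i => (P.jy i).reparam c1) fun i => (P'.jy i).reparam c2,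
    fun c => (((P.jψ c).reparam c1).add ((P'.jψ c).reparam c2)).sub
      ((P.jψ c).reparam continuous_const), fun i p => ?_, ?_, fun s hs => (key s hs).1,
    fun s hs => (key s hs).2.1, fun s hs => (key s hs).2.2⟩, ?_⟩
  · rw [(e1 0 (by norm_num)).1, mul_zero, min_eq_left zero_le_one]
    exact i.rec (fun i => P.y0 i p) fun i => P'.y0 i p
  · rw [(e1 0 (by norm_num)).2, mul_zero, P.ψ0]
  · rw [(e2 1 (by norm_num)).2, show (2 * 1 - 1 : ℝ) = 1 by norm_num]; exact hQ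

/-- curves -/
theorem sstmt_one : SStmt 1 := by
  intro ι _ _ X _ _ _ _ _ _ C _ _ M A η r μ ℓ φ ctx hL hI hD
  have hF : ∀ ψ : C → ℝ, ¬ Few 1 ψ := fun ψ h => by unfold Few at h; omega
  refine exPath_const ctx.sm (inD_res hD (le_add_of_nonneg_right (hL.1 1))) fun p hp => ?_
  obtain ⟨F, sF, h⟩ := hD
  obtain ⟨q, hq, hm⟩ := ctx.cl.isCompact.exists_isMaxOn ⟨p, hp⟩ sF.neg.continuous.continuousOn
  have h1 := lap_nonpos_of_isLocalMax sF.neg
    (hm.isLocalMax (mem_interior_iff_mem_nhds.1 ((hI q hq).resolve_left (hF _))))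
  have h2 := ((h q hq).resolve_left (hF _)).pos fun c => add_nonneg (ctx.res c) (hL.1 1 c)
  have h3 : M.pre.EF F q = M.pre.scal q - 2 * M.pre.lap F q - M.pre.gam F F q := by simp [Pre.EF]
  have h4 : M.pre.lap (fun p => -F p) q = -M.pre.lap F q := by
    have : ∀ a, M.pre.D a (fun p => -F p) = fun p => -M.pre.D a F p := fun a =>
      funext fun p => D_neg ..
    simp only [lap_apply, this, D_neg, Finset.sum_neg_distrib]
  exfalso
  linarith [ctx.mu, Bd.scal_one M q, gam_self_nonneg (M := M) F q]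

/-- one colour after the other -/
theorem sstmt_succ {m : ℕ} (hm : 1 ≤ m) (hS : StepStmt m) : SStmt (m + 1) := by
  intro ι _ _ X _ _ _ _ _ _ C _ _ M A η r μ ℓ φ ctx hL hI hD
  have key : ∀ (I : Finset C) (ι : Type) [Fintype ι] [DecidableEq ι] (M : Imm (m + 1) ι X)
      (φ : C → X → ℝ), Ctx M A η r μ φ → Led η ℓ A φ → Inn0 (m + 1) A φ →
      InD M A η (fun b => r b + if b ∈ I then ℓ (m + 1) b else 0) μ φ →
      (∀ p ∈ A, ∀ c ∉ I, |φ c p| ≤ π / 2 → Few (m + 1) (ev φ p)) →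
      ExPath M A univ η r μ φ φ fun ψ => ∀ p ∈ A, Few (m + 1) (ev ψ p) := by
    have h0 : ∀ I : Finset C, r ≤ fun b => r b + if b ∈ I then ℓ (m + 1) b else 0 := fun I b =>
      le_add_of_nonneg_right (ite_nonneg (hL.1 _ _) le_rfl)
    intro I
    induction I using Finset.induction_on with
    | empty =>
      intro ι _ _ M φ ctx _ _ hD h
      refine exPath_const ctx.sm (inD_res hD (h0 _)) fun p hp => ?_
      by_contra hn
      exact hn (few_of_none (by omega) fun c => lt_of_not_ge fun hc => hn (h p hp c (by simp) hc))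
    | insert c I hc ih =>
      intro ι _ _ M φ ctx hL hI hD h
      obtain ⟨κ, _, _, y, ψ, P, hQ⟩ := hS ι X C M A η _ μ ℓ φ
        ⟨ctx.inj, ctx.cl, ctx.eta, fun b => (ctx.res b).trans (h0 _ b), ctx.mu, ctx.sm⟩ c _
        (hI.inn c) (hL.led1 m c) (by simpa using ctx.res c) hD
      have e : (update (fun b => r b + if b ∈ insert c I then ℓ (m + 1) b else 0) c
          ((r c + if c ∈ insert c I then ℓ (m + 1) c else 0) - ℓ (m + 1) c)) =
          fun b => r b + if b ∈ I then ℓ (m + 1) b else 0 := by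
        funext b
        rcases eq_or_ne b c with rfl | hb
        · simp [hc]
        · simp [hb]
      rw [e] at P
      have one : (1 : ℝ) ∈ Icc (0 : ℝ) 1 := ⟨zero_le_one, le_rfl⟩
      have hs := P.shr 1 one
      refine append P (h0 I) (ih _ _ _ ⟨xt_inj ctx.inj _, ctx.cl, ctx.eta, ctx.res, ctx.mu,
        fun b => (P.jψ b).sm (M := M) rfl 1⟩ (hL.shr hs) (hI.shr hs) (P.cls 1 one)
        fun p hp b hb h1 => ?_)
      rcases eq_or_ne b c with rfl | e
      · exact hQ p hp h1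
      · exact (h p hp b (by simp [e, hb]) ((hs b p).abs_le h1)).shr fun a => hs a p
  exact key Finset.univ ι M φ ctx hL hI (by simp only [Finset.mem_univ, if_true]; exact hD)
    fun _ _ c hc => absurd (by simp) hc

/-- **G** from the two steps -/
theorem gstmt_of (hM : MidStmt) (hG : GraftStmt) (hF : FlipStmt)
    (h1 : ∀ m, CoreStmt m → StepStmt m) (h2 : ∀ m, CoreStmt m → LStepStmt m) : GStmt := by
  have key : ∀ m, 1 ≤ m → SStmt m := fun m hm => by
    induction m, hm using Nat.le_induction with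
    | base => exact sstmt_one
    | succ m hm ih => exact sstmt_succ hm (h1 m (core hM hG hF m ih))
  exact fun m hm => ⟨key m hm, h2 m (core hM hG hF m (key m hm))⟩

end Crest.Agent.N228.G

end
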