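import Crest.Agent.N228.G.Defs
import Crest.Agent.N222.F.Lip

/-!
# Row 228, block G, MID (helper32): the class at one point, the shift, concatenation
-/

set_option autoImplicit false
open MeasureTheory Set Filter Topology Function Metric Real
open scoped ContDiff InnerProductSpace RealInnerProductSpace
open Crest.Agent.N222

noncomputable section

namespace Crest.Agent.N228.G.Md

open Crest.Agent.N228.J (JC)

section Pt

variable {C : Type} [Fintype C] {η r : C → ℝ} {V V' : ℝ} {φ φ' g g' : C → ℝ} {m : ℕ}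

theorem mem_fin {c : C} : c ∈ fin φ ↔ |φ c| ≤ π / 2 := by simp [fin]

theorem shr1_abs {a b : ℝ} (h : Shr1 a b) (hb : |b| ≤ π / 2) : |a| ≤ π / 2 := by
  by_contra hc
  rcases lt_abs.1 (not_le.1 hc) with h1 | h1
  · have := h.1 h1; have := le_abs_self b; linarith
  · have := h.2 (by linarith); have := neg_abs_le b; linarith

theorem shr1_trans {a b c : ℝ} (h : Shr1 a b) (h' : Shr1 b c) : Shr1 a c :=
  ⟨fun x => h'.1 (h.1 x), fun x => h'.2 (h.2 x)⟩

theorem few_of_sub (h : Few m φ) (hs : ∀ c, |φ' c| ≤ π / 2 → |φ c| ≤ π / 2) : Few m φ' :=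
  le_trans (Nat.add_le_add_right
    (Finset.card_le_card fun c hc => mem_fin.2 (hs c (mem_fin.1 hc))) 2) h

theorem ok_mono (h : Ok η r V φ g) (hV : V ≤ V') : Ok η r V' φ g := by
  obtain ⟨β, h1, h2⟩ := h
  exact ⟨β, h1, h2.trans_le hV⟩

/-- reserves are paid by the potential -/
theorem ok_add (h : Ok η r V φ g) (l : C → ℝ) :
    Ok η (r + l) (V + ∑ b ∈ fin φ, l b) φ g := by
  obtain ⟨β, h1, h2⟩ := h
  refine ⟨β, h1, ?_⟩
  have : ∑ c ∈ fin φ, (4 / 3 * β c ^ 2 + (r + l) c) =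
      ∑ c ∈ fin φ, (4 / 3 * β c ^ 2 + r c) + ∑ b ∈ fin φ, l b := by
    rw [← Finset.sum_add_distrib]
    exact Finset.sum_congr rfl fun c _ => by rw [Pi.add_apply]; ring
  rw [this]; linarith

variable [DecidableEq C]

/-- parking a colour frees its reserve -/
theorem ok_park {c : C} (h : Ok η r V φ g) (hc : π / 2 < |φ' c|)
    (he : ∀ b, b ≠ c → φ' b = φ b ∧ g' b = g b) :
    Ok η r (V - if |φ c| ≤ π / 2 then r c else 0) φ' g' := by
  obtain ⟨β, h1, h2⟩ := h
  have hf : fin φ' = (fin φ).erase c := by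
    ext b
    rw [Finset.mem_erase, mem_fin, mem_fin]
    by_cases hb : b = c
    · subst hb; simp [hc]
    · simp [hb, (he b hb).1]
  refine ⟨β, fun b hb => ?_, ?_⟩
  · rw [hf, Finset.mem_erase] at hb
    rw [(he b hb.1).1, (he b hb.1).2]
    exact h1 b hb.2
  · rw [hf]
    split_ifs with h0
    · rw [← Finset.add_sum_erase _ _ (mem_fin.2 h0)] at h2
      nlinarith [sq_nonneg (β c)]
    · rw [Finset.erase_eq_of_notMem fun x => h0 (mem_fin.1 x)]
      linarith

theorem le_rate {η0 b a : ℝ} (hb : 0 ≤ b) (hb' : b ≤ √η0 / 8) (ha : |a| ≤ π / 2) :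
    b ≤ rate η0 b a := by
  have h0 : 0 ≤ cos a := cos_nonneg_of_mem_Icc (abs_le.1 ha)
  have h1 := cos_le_one a
  have h2 := sin_sq a
  have h3 : b * sin a ^ 2 ≤ √η0 / 8 * sin a ^ 2 := mul_le_mul_of_nonneg_right hb' (sq_nonneg _)
  have h4 : 0 ≤ b * (cos a * (1 - cos a)) := mul_nonneg hb (mul_nonneg h0 (by linarith))
  unfold rate
  rw [h2] at h3 ⊢
  nlinarith

/-- a parked colour comes back with a small slope -/
theorem ok_put {c : C} (h : Ok η r V φ g) (hc : π / 2 < |φ c|) {a e b : ℝ} (hb : 0 ≤ b)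
    (hb' : b ≤ √(η c) / 8) (he : |a| ≤ π / 2 → e < b) :
    Ok η r (V + if |a| ≤ π / 2 then 4 / 3 * b ^ 2 + r c else 0) (update φ c a) (update g c e) := by
  obtain ⟨β, h1, h2⟩ := h
  have hn : c ∉ fin φ := fun x => (not_le.2 hc) (mem_fin.1 x)
  have hs : ∑ x ∈ fin φ, (4 / 3 * update β c b x ^ 2 + r x) =
      ∑ x ∈ fin φ, (4 / 3 * β x ^ 2 + r x) :=
    Finset.sum_congr rfl fun x hx => by rw [update_of_ne (ne_of_mem_of_not_mem hx hn)]
  refine ⟨update β c b, fun x hx => ?_, ?_⟩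
  · rw [mem_fin] at hx
    by_cases hxc : x = c
    · subst hxc
      simp only [update_self] at hx ⊢
      exact (he hx).trans_le (le_rate hb hb' hx)
    · simp only [update_of_ne hxc] at hx ⊢
      exact h1 x (mem_fin.2 hx)
  · split_ifs with h0
    · have hf : fin (update φ c a) = insert c (fin φ) := by
        ext x
        rw [Finset.mem_insert, mem_fin, mem_fin]
        by_cases hxc : x = c
        · subst hxc; simp [h0]
        · simp [hxc]
      rw [hf, Finset.sum_insert hn, hs, update_self]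
      linarith
    · have hf : fin (update φ c a) = fin φ := by
        ext x
        rw [mem_fin, mem_fin]
        by_cases hxc : x = c
        · subst hxc; simp [h0, hc]
        · simp [hxc]
      rw [hf, hs]
      linarith

/-- the class on a graph -/
theorem gph_pt {c : C} {γ : ℝ} {k : ℝ → ℝ} (hS : Spl m η r c γ k V φ g) (hγ : 0 ≤ γ)
    (hr : η c ≤ r c) {d1 d2 : ℝ} (h1 : 0 ≤ d1) (h2 : 0 ≤ d2) (h12 : d1 ^ 2 + d2 ^ 2 ≤ g c ^ 2)
    {φ1 g1 ψ gψ : C → ℝ} (hn : ∀ b, b ≠ c → |φ1 b - φ b| ≤ γ ∧ g1 b ≤ g b + γ)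
    (hc : π / 2 < |φ1 c|) (hs : ∀ b, Shr1 (φ1 b) (ψ b)) {Δ : ℝ}
    (hb : ∀ V0, V0 ≤ V → Ok η (update r c (r c - η c)) V0 φ1 g1 →
      Ok η (update r c (r c - η c)) (V0 + Δ) ψ gψ)
    {a e b : ℝ} (hb0 : 0 ≤ b) (hb1 : b ≤ √(η c) / 8)
    (hae : |a| ≤ π / 2 → |φ c| ≤ π / 2 ∧ e < b)
    (hV : V + min 0 (k (φ c) ^ 2 - 2 * (|deriv k (φ c)| * d1)) - γ + Δ + 4 / 3 * b ^ 2 ≤ V') :
    Good (m + 1) η (update r c (r c - η c)) V' (update ψ c a) (update gψ c e) := by
  have hG := hS.gr d1 d2 _ (update φ1 c (φ c)) (update g1 c d2) h1 h2 h12 le_rfl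
    (fun x => by
      by_cases hx : x = c
      · subst hx; simpa using hγ
      · rw [update_of_ne hx]; exact (hn x hx).1)
    (fun x hx => by rw [update_of_ne hx]; exact (hn x hx).2) (by rw [update_self]; linarith)
  rcases hG with hG | hG
  · refine Or.inl (few_of_sub hG fun x hx => ?_)
    by_cases hxc : x = c
    · subst hxc
      simp only [update_self] at hx ⊢
      exact (hae hx).1
    · simp only [update_of_ne hxc] at hx ⊢
      exact shr1_abs (hs x) hx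
  · have h3 := ok_park (φ' := φ1) (g' := g1) hG hc fun x hx => by
      rw [update_of_ne hx, update_of_ne hx]; exact ⟨rfl, rfl⟩
    simp only [update_self] at h3
    have hm := min_le_left 0 (k (φ c) ^ 2 - 2 * (|deriv k (φ c)| * d1))
    have h4 := hb _ (by split_ifs <;> linarith) h3
    have hψ : π / 2 < |ψ c| := not_le.1 fun x => (not_le.2 hc) (shr1_abs (hs c) x)
    refine Or.inr (ok_mono (ok_put h4 hψ hb0 hb1 fun x => (hae x).2) ?_)
    simp only [update_self]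
    have := sq_nonneg b
    by_cases ha : |a| ≤ π / 2
    · rw [if_pos ha, if_pos (hae ha).1]; linarith
    · rw [if_neg ha]; split_ifs <;> linarith

/-- the class on the slice -/
theorem slc_pt {c : C} {γ : ℝ} {k : ℝ → ℝ} (hS : Spl m η r c γ k V φ g) (h0 : |φ c| ≤ π / 2)
    {φ1 g1 ψ gψ : C → ℝ} (hn : ∀ b, b ≠ c → |φ1 b - φ b| ≤ γ ∧ g1 b ≤ g b + γ)
    (hc : π / 2 < |φ1 c|) (hs : ∀ b, Shr1 (φ1 b) (ψ b)) {σ : ℝ} {l : C → ℝ}
    (hl : ∑ b ∈ fin φ1, l b ≤ σ)
    (hb : Ok η (r + l) (V + k (φ c) ^ 2 - 2 * (|deriv k (φ c)| * g c) - γ - (r c - η c) + σ) φ1 g1 →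
      Ok η (r + l) V' ψ gψ) : Good m η (r + l) V' ψ gψ := by
  rcases hS.sl h0 _ φ1 g1 le_rfl hn hc with hG | hG
  · exact Or.inl (few_of_sub hG fun x hx => shr1_abs (hs x) hx)
  · exact Or.inr (hb (ok_mono (ok_add hG l) (by linarith)))

end Pt

variable {d : ℕ} {ι : Type} [Fintype ι] [DecidableEq ι] {X : Type} [TopologicalSpace X]
  {C : Type} {M : Imm d ι X}

theorem grad_lin {f g h : X → ℝ} (hf : M.Sm f) (hg : M.Sm g) (hh : M.Sm h) (a b : ℝ) (p : X) :
    M.grad (fun q => f q + (a * g q + b * h q)) p =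
      M.grad f p + (a • M.grad g p + b • M.grad h p) := by
  have h1 : M.Sm fun q => a * g q := (Imm.sm_const a).mul hg
  have h2 : M.Sm fun q => b * h q := (Imm.sm_const b).mul hh
  ext c
  change M.pre.D c _ p = M.pre.D c f p + (a * M.pre.D c g p + b * M.pre.D c h p)
  rw [Imm.D_add (hf.diffAt p) ((h1.add h2).diffAt p), Imm.D_add (h1.diffAt p) (h2.diffAt p),
    Imm.D_const_mul a (hg.diffAt p), Imm.D_const_mul b (hh.diffAt p)]

theorem grad_congr {f g : X → ℝ} {p : X} (h : f =ᶠ[𝓝 p] g) : M.grad f p = M.grad g p := by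
  ext c; exact Imm.D_congr h c

theorem grad_comp {f : X → ℝ} {p : X} (hf : M.Sm f) {g : ℝ → ℝ} {g' : ℝ}
    (hg : HasDerivAt g g' (f p)) : M.grad (fun q => g (f q)) p = g' • M.grad f p := by
  ext c; exact Imm.D_comp (hf.diffAt p) hg c

theorem gam_div {w : X → ℝ} (hw : M.Sm w) {p : X} (h0 : 0 < w p) :
    M.pre.gam w w p / w p ^ 2 = ‖M.grad (fun q => log (w q)) p‖ ^ 2 := by
  rw [grad_comp hw (hasDerivAt_log h0.ne'), norm_smul, Imm.gam_self_eq, mul_pow, norm_inv,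
    Real.norm_eq_abs, inv_pow, sq_abs, div_eq_inv_mul]

/-- the shift: dilation and translation of the phases where `χ = 1` -/
theorem shift [Fintype C] [T2Space X] [CompactSpace X] {φ : C → X → ℝ} (hφ : ∀ b, M.Sm (φ b))
    {χ : X → ℝ} (hχ : M.Sm χ) (h01 : ∀ p, 0 ≤ χ p) {γ : ℝ} (hγ : 0 < γ) :
    ∃ e : ℝ, 0 < e ∧ ∀ ξ : C → ℝ, (∀ b, |ξ b| ≤ e) → ∃ f : ℝ → C → X → ℝ,
      (∀ b, JC M.atl univ fun s => f s b) ∧ f 0 = φ ∧
      (∀ b p, χ p = 1 → f 1 b p = (1 + e) * φ b p + ξ b) ∧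
      ∀ s ∈ Icc (0 : ℝ) 1, Shr φ (f s) ∧ ∀ b p, (χ p = 0 → f s b p = φ b p) ∧
        |f s b p - φ b p| ≤ γ ∧ ‖M.grad (f s b) p‖ ≤ ‖M.grad (φ b) p‖ + γ := by
  have hm : ∀ b, M.Sm fun p => χ p * φ b p := fun b => hχ.mul (hφ b)
  obtain ⟨K, hK, hb⟩ := Imm.exists_bound (f := fun p b => (|χ p * φ b p| + |χ p|) +
      (‖M.grad (fun p => χ p * φ b p) p‖ + ‖M.grad χ p‖)) (continuous_pi fun b =>
    ((hm b).continuous.abs.add hχ.continuous.abs).add
      ((hm b).grad.continuous.norm.add hχ.grad.continuous.norm))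
  have hb' : ∀ b p, |χ p * φ b p| + |χ p| ≤ K ∧
      ‖M.grad (fun p => χ p * φ b p) p‖ + ‖M.grad χ p‖ ≤ K := fun b p => by
    have h1 := (le_abs_self _).trans ((norm_le_pi_norm _ b).trans (hb p))
    have h2 : 0 ≤ |χ p * φ b p| + |χ p| := by positivity
    have h3 : 0 ≤ ‖M.grad (fun p => χ p * φ b p) p‖ + ‖M.grad χ p‖ := by positivity
    constructor <;> linarith
  have he : 0 < γ / K := div_pos hγ hK
  have heK : γ / K * K = γ := div_mul_cancel₀ _ hK.ne'
  refine ⟨γ / K, he, fun ξ hξ => ⟨fun s b p =>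
    φ b p + (s * (γ / K) * (χ p * φ b p) + s * ξ b * χ p), fun b => ?_, ?_, fun b p h => ?_,
    fun s hs => ⟨fun b p => ?_, fun b p => ⟨fun h => ?_, ?_, ?_⟩⟩⟩⟩
  · exact (JC.of_sm rfl isOpen_univ (hφ b)).add
      (((JC.consts isOpen_univ (continuous_id.mul continuous_const)).mul
        (JC.of_sm rfl isOpen_univ (hm b))).add
      ((JC.consts isOpen_univ (continuous_id.mul continuous_const)).mul
        (JC.of_sm rfl isOpen_univ hχ)))
  · funext b p; simp
  · beta_reduce; rw [h]; ring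
  · have h1 := abs_le.1 (hξ b)
    have h2 : 0 ≤ s * χ p := mul_nonneg hs.1 (h01 p)
    have h3 : 1 ≤ π / 2 := by linarith [pi_gt_three]
    constructor
    · intro h
      have : 0 ≤ s * χ p * (γ / K * φ b p + ξ b) := mul_nonneg h2 (by nlinarith)
      nlinarith
    · intro h
      have : s * χ p * (γ / K * φ b p + ξ b) ≤ 0 :=
        mul_nonpos_of_nonneg_of_nonpos h2 (by nlinarith)
      nlinarith
  · beta_reduce; rw [h]; ring
  · have h1 : |s * (γ / K)| ≤ γ / K := by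
      rw [abs_of_nonneg (mul_nonneg hs.1 he.le)]; nlinarith [hs.2]
    have h2 : |s * ξ b| ≤ γ / K := by
      rw [abs_mul, abs_of_nonneg hs.1]; nlinarith [hs.2, hs.1, hξ b, abs_nonneg (ξ b)]
    rw [add_sub_cancel_left]
    refine (abs_add_le _ _).trans ?_
    rw [abs_mul, abs_mul (s * ξ b)]
    nlinarith [(hb' b p).1, abs_nonneg (χ p * φ b p), abs_nonneg (χ p)]
  · have h1 : |s * (γ / K)| ≤ γ / K := by
      rw [abs_of_nonneg (mul_nonneg hs.1 he.le)]; nlinarith [hs.2]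
    have h2 : |s * ξ b| ≤ γ / K := by
      rw [abs_mul, abs_of_nonneg hs.1]; nlinarith [hs.2, hs.1, hξ b, abs_nonneg (ξ b)]
    rw [grad_lin (hφ b) (hm b) hχ]
    refine (norm_add_le _ _).trans (add_le_add le_rfl ((norm_add_le _ _).trans ?_))
    rw [norm_smul, norm_smul, Real.norm_eq_abs, Real.norm_eq_abs]
    nlinarith [(hb' b p).2, norm_nonneg (M.grad (fun p => χ p * φ b p) p),
      norm_nonneg (M.grad χ p)]

/-- concatenation of two paths -/
theorem concat {f g : ℝ → C → X → ℝ} (hf : ∀ b, JC M.atl univ fun s => f s b)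
    (hg : ∀ b, JC M.atl univ fun s => g s b) (h : g 0 = f 1) : ∃ ψ : ℝ → C → X → ℝ,
    (∀ b, JC M.atl univ fun s => ψ s b) ∧ ψ 0 = f 0 ∧ ψ 1 = g 1 ∧
    ∀ s ∈ Icc (0 : ℝ) 1, ∃ s' ∈ Icc (0 : ℝ) 1, ψ s = f s' ∨ ψ s = g s' := by
  refine ⟨fun s b p => f (min (2 * s) 1) b p + g (max (2 * s - 1) 0) b p - f 1 b p,
    fun b => ?_, ?_, ?_, fun s hs => ?_⟩
  · exact (((hf b).reparam (e := fun s : ℝ => min (2 * s) 1) (by fun_prop)).add
      ((hg b).reparam (e := fun s : ℝ => max (2 * s - 1) 0) (by fun_prop))).sub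
      ((hf b).reparam (e := fun _ : ℝ => (1 : ℝ)) continuous_const)
  · funext b p; norm_num [h]
  · funext b p; norm_num
  · rcases le_total (2 * s) 1 with h1 | h1
    · refine ⟨2 * s, ⟨by linarith [hs.1], h1⟩, Or.inl ?_⟩
      funext b p
      beta_reduce
      rw [min_eq_left h1, max_eq_right (by linarith), h]; ring
    · refine ⟨2 * s - 1, ⟨by linarith, by linarith [hs.2]⟩, Or.inr ?_⟩
      funext b p
      beta_reduce
      rw [min_eq_right h1, max_eq_left (by linarith)]; ring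

/-- the slice lies in the band -/
theorem sb_band [MeasurableSpace X] {F φ h : X → ℝ} {δ Λ : ℝ} {𝒰 : Ultrafilter ℕ}
    {u : ℕ → X → ℝ} {τ s : ℕ → ℝ} (hN : NkD M F φ h δ Λ 𝒰 u τ s) (hφ : Continuous φ) {p : X}
    (hp : p ∈ Sb 𝒰 u) : |φ p| ≤ π / 2 := by
  by_contra hc
  refine hp ?_
  rcases lt_abs.1 (not_le.1 hc) with h1 | h1
  · exact Or.inl ⟨{q | π / 2 < φ q}, (isOpen_lt continuous_const hφ).mem_nhds h1,
      (hN.bar 1).mono fun j hj q hq => lt_of_lt_of_le one_pos ((hj q).1 (le_of_lt hq))⟩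
  · refine Or.inr ⟨{q | φ q < -(π / 2)}, (isOpen_lt hφ continuous_const).mem_nhds
      (show φ p < _ by linarith), (hN.bar 1).mono fun j hj q hq => ?_⟩
    have := (hj q).2 (le_of_lt hq)
    change 0 < -u j q
    linarith

end Crest.Agent.N228.G.Md

end
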