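import Crest.Agent.N228.G.Basic
import Crest.Agent.N228.O.Same

/-!
# Row 228, block G (helper15): more coordinates, equal metrics, concatenation of paths
-/

set_option autoImplicit false
set_option linter.unusedSectionVars false
open MeasureTheory Set Filter Topology Function Metric Real
open scoped ContDiff InnerProductSpace RealInnerProductSpace
open Crest.Agent.N222

noncomputable section

namespace Crest.Agent.N228.G

open Crest.Agent.N228.J (JC)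

variable {d : ℕ} {ι ι' ι'' κ κ' : Type} [Fintype ι] [Fintype ι'] [Fintype ι''] [Fintype κ]
  [Fintype κ'] {X : Type} [TopologicalSpace X] {M : Imm d ι X} {N : Imm d ι' X} {N' : Imm d ι'' X}
  {y y' : κ → X → ℝ} {u : X → ℝ}

theorem le_of_sq_le_sq₀ {a b : ℝ} (h : a ^ 2 ≤ b ^ 2) (hb : 0 ≤ b) : a ≤ b :=
  (le_abs_self a).trans (abs_le_of_sq_le_sq' h hb |> fun h => abs_le.2 h)

/-! ### more coordinates -/

theorem xt_ch (M : Imm d ι X) (y : κ → X → ℝ) : (M.xt y).ch = M.ch := rfl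

theorem xt_atl (M : Imm d ι X) (y : κ → X → ℝ) : (M.xt y).atl = M.atl := rfl

theorem xt_inl (M : Imm d ι X) (y : κ → X → ℝ) (p : X) (a : ι) :
    (M.xt y).x p (Sum.inl a) = M.x p a := rfl

theorem xt_inr (hy : ∀ i, M.Sm (y i)) (p : X) (i : κ) : (M.xt y).x p (Sum.inr i) = y i p :=
  if_pos hy

theorem xt_inj (h : Injective M.x) (y : κ → X → ℝ) : Injective (M.xt y).x := fun p q e =>
  h (by ext a; exact congrArg (fun w : E (ι ⊕ κ) => w (Sum.inl a)) e)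

theorem graph_inj (h : Injective M.x) (hu : M.Sm u) : Injective (M.graph u hu).x := fun _ _ e =>
  h (congrArg down e)

/-- `df(v) df(w)` in the chart at `p` -/
def dd (M : Imm d ι X) (f : X → ℝ) (p : X) (z v w : E (Fin d)) : ℝ :=
  fderiv ℝ (f ∘ (M.ch p).symm) z v * fderiv ℝ (f ∘ (M.ch p).symm) z w

theorem inner_eq_sum (hc : N.ch = M.ch) {p : X} {z : E (Fin d)} (hz : z ∈ (M.ch p).target)
    (v w : E (Fin d)) :
    ⟪fderiv ℝ (N.x ∘ (M.ch p).symm) z v, fderiv ℝ (N.x ∘ (M.ch p).symm) z w⟫ =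
      ∑ a, dd M (fun q => N.x q a) p z v w := by
  classical
  rw [PiLp.inner_apply]
  refine Finset.sum_congr rfl fun a _ => ?_
  rw [← Imm.fderiv_coord (hc ▸ N.isChart p) hz, ← Imm.fderiv_coord (hc ▸ N.isChart p) hz]
  simp only [dd, RCLike.inner_apply, conj_trivial, mul_comm]
  rfl

theorem dd_const (c : ℝ) (p : X) (z v w : E (Fin d)) : dd M (fun _ => c) p z v w = 0 := by
  rw [dd, show (fun _ : X => c) ∘ (M.ch p).symm = fun _ => c from rfl, fderiv_fun_const]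
  simp

theorem dd_add_const (f : X → ℝ) (c : ℝ) (p : X) (z v w : E (Fin d)) :
    dd M (fun q => f q + c) p z v w = dd M f p z v w := by
  rw [dd, show (fun q => f q + c) ∘ (M.ch p).symm = fun q => (f ∘ (M.ch p).symm) q + c from rfl,
    fderiv_add_const, dd]

theorem sum_dd_xt (hc : N.ch = M.ch) (hy : ∀ i, M.Sm (y i)) (p : X) (z v w : E (Fin d)) :
    ∑ a, dd M (fun q => (N.xt y).x q a) p z v w =
      ∑ a, dd M (fun q => N.x q a) p z v w + ∑ i, dd M (y i) p z v w := by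
  have hy' : ∀ i, N.Sm (y i) := fun i => by rw [Imm.Sm, hc]; exact hy i
  simp only [Fintype.sum_sum_type, xt_inl, xt_inr hy']

theorem same_of_dd (hc : N.ch = M.ch) (h : ∀ p, ∀ z ∈ (M.ch p).target, ∀ v w,
    ∑ a, dd M (fun q => M.x q a) p z v w = ∑ a, dd M (fun q => N.x q a) p z v w) : Same M N :=
  ⟨hc.symm, fun p z hz => by
    ext i j
    simp only [gram, Matrix.of_apply]
    rw [inner_eq_sum rfl hz, inner_eq_sum hc hz, h p z hz]⟩

theorem Same.dd (h : Same M N) (p : X) {z : E (Fin d)} (hz : z ∈ (M.ch p).target)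
    (v w : E (Fin d)) :
    ∑ a, dd M (fun q => M.x q a) p z v w = ∑ a, dd M (fun q => N.x q a) p z v w := by
  rw [← inner_eq_sum rfl hz, ← inner_eq_sum h.1.symm hz, ← gram_sum, ← gram_sum, h.2 p hz]

namespace Same

theorem refl (M : Imm d ι X) : Same M M := ⟨rfl, fun _ _ _ => rfl⟩

theorem symm (h : Same M N) : Same N M := ⟨h.1.symm, fun p => h.1 ▸ (h.2 p).symm⟩

theorem trans (h : Same M N) (h' : Same N N') : Same M N' :=
  ⟨h.1.trans h'.1, fun p => (h.2 p).trans (h.1 ▸ h'.2 p)⟩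

theorem sm (h : Same M N) {F : Type} [NormedAddCommGroup F] [NormedSpace ℝ F] {f : X → F}
    (hf : M.Sm f) : N.Sm f := by rw [Imm.Sm, ← h.1]; exact hf

theorem xt (h : Same M N) (hy : ∀ i, M.Sm (y i)) : Same (M.xt y) (N.xt y) :=
  same_of_dd h.1.symm fun p z hz v w =>
    (sum_dd_xt rfl hy p z v w).trans <| ((congrArg (· + _) (h.dd p hz v w))).trans
      (sum_dd_xt h.1.symm hy p z v w).symm

end Same

/-- constant coordinates do not change the metric -/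
theorem same_xt_const (M : Imm d ι X) (a : κ → ℝ) (h : ∀ i p, y i p = a i) : Same (M.xt y) M := by
  obtain rfl : y = fun i _ => a i := funext fun i => funext (h i)
  exact Same.symm <| same_of_dd rfl fun p z _ v w => by
    rw [sum_dd_xt rfl fun _ => Imm.sm_const _]; simp [dd_const]

theorem sm_elim2 {y' : κ' → X → ℝ} (hy : ∀ i, M.Sm (y i)) (hy' : ∀ i, M.Sm (y' i)) :
    ∀ i, M.Sm (Sum.elim y y' i) := by rintro (i | i); exacts [hy i, hy' i]

theorem same_xt_xt {y' : κ' → X → ℝ} (hy : ∀ i, M.Sm (y i)) (hy' : ∀ i, M.Sm (y' i)) :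
    Same (M.xt (Sum.elim y y')) ((M.xt y).xt y') :=
  same_of_dd rfl fun p z _ v w => by
    have h1 := sum_dd_xt (M := M) rfl (sm_elim2 hy hy') p z v w
    have h2 := sum_dd_xt (M := M) (N := M.xt y) rfl hy' p z v w
    rw [sum_dd_xt rfl hy, add_assoc] at h2
    rw [Fintype.sum_sum_type (fun i => dd M (Sum.elim y y' i) p z v w)] at h1
    exact h1.trans h2.symm

/-- translations of the new coordinates -/
theorem same_xt_add (hy : ∀ i, M.Sm (y i)) (a : κ → ℝ) (h : ∀ i p, y' i p = y i p + a i) :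
    Same (M.xt y') (M.xt y) := by
  obtain rfl : y' = fun i p => y i p + a i := funext fun i => funext (h i)
  exact same_of_dd rfl fun p z _ v w => by
    have h1 := sum_dd_xt (M := M) rfl (fun i => (hy i).add (Imm.sm_const (a i))) p z v w
    simp only [dd_add_const] at h1
    exact h1.trans (sum_dd_xt (M := M) rfl hy p z v w).symm

theorem same_graph (hu : M.Sm u) : Same (M.xt fun _ : Unit => u) (M.graph u hu) :=
  same_of_dd rfl fun p z _ v w => by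
    refine (sum_dd_xt (M := M) rfl (fun _ => hu) p z v w).trans ?_
    rw [Fintype.sum_option, Fintype.sum_unique (fun _ : Unit => dd M u p z v w), add_comm]
    rfl

variable [DecidableEq ι] [DecidableEq ι'] [DecidableEq κ] [DecidableEq κ']

/-- larger metric, smaller gradients -/
theorem norm_grad_le (hc : N.ch = M.ch) (p : X)
    (h : ∀ v, ∑ a, dd M (fun q => M.x q a) p (M.ch p p) v v ≤
      ∑ a, dd M (fun q => N.x q a) p (M.ch p p) v v) (f : X → ℝ) :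
    ‖N.grad f p‖ ≤ ‖M.grad f p‖ := by
  have he : IsChart N.x (M.ch p) := hc ▸ N.isChart p
  have hz := (M.ch p).map_source (M.mem p)
  obtain ⟨v, hv⟩ := Imm.PL_mem_range he (M.mem p) (N.grad f p)
  rw [Imm.PL_grad] at hv
  have h1 := congrArg (fun T : E (Fin d) →L[ℝ] ℝ => T v) ((Imm.fderiv_chart f he (M.mem p)).symm.trans
    (Imm.fderiv_chart f (M.isChart p) (M.mem p)))
  simp only [ContinuousLinearMap.comp_apply, Imm.td_eq_inner, hv, real_inner_self_eq_norm_sq] at h1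
  have h2 := h v
  rw [← inner_eq_sum rfl hz, ← inner_eq_sum hc hz, hv, real_inner_self_eq_norm_sq,
    real_inner_self_eq_norm_sq] at h2
  have h3 := (real_inner_le_norm _ _).trans (mul_le_mul_of_nonneg_left
    (le_of_sq_le_sq₀ h2 (norm_nonneg _)) (norm_nonneg (M.grad f p)))
  rw [← h1] at h3
  by_contra h4
  nlinarith [norm_nonneg (M.grad f p), not_le.1 h4]

theorem norm_grad_xt_le (hy : ∀ i, M.Sm (y i)) (f : X → ℝ) (p : X) :
    ‖(M.xt y).grad f p‖ ≤ ‖M.grad f p‖ :=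
  norm_grad_le (N := M.xt y) (M := M) rfl p (fun v => by
    rw [sum_dd_xt rfl hy]
    exact le_add_of_nonneg_right (Finset.sum_nonneg fun i _ => mul_self_nonneg _)) f

theorem norm_grad_graph_sq [MeasurableSpace X] (hu : M.Sm u) (f : X → ℝ) (p : X) :
    M.pre.dir (M.Xf u) f p ^ 2 + ‖(M.graph u hu).grad f p‖ ^ 2 = ‖M.grad f p‖ ^ 2 := by
  rw [← Imm.gam_self_eq, ← Imm.gam_self_eq, Imm.graph_pre, Imm.gS_gam]; ring

theorem norm_grad_graph_le [MeasurableSpace X] (hu : M.Sm u) (f : X → ℝ) (p : X) :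
    ‖(M.graph u hu).grad f p‖ ≤ ‖M.grad f p‖ :=
  le_of_sq_le_sq₀ (by
    nlinarith [norm_grad_graph_sq hu f p, sq_nonneg (M.pre.dir (M.Xf u) f p)]) (norm_nonneg _)

theorem norm_grad_graph_self [MeasurableSpace X] (hu : M.Sm u) (p : X) :
    ‖(M.graph u hu).grad u p‖ ≤ 1 :=
  le_of_sq_le_sq₀ (by
    rw [← Imm.gam_self_eq, Imm.graph_pre, Imm.gS_gam_u]; nlinarith [sq_nonneg (M.vv u p)])
    zero_le_one

theorem Same.gam (h : Same M N) (f g : X → ℝ) (p : X) : N.pre.gam f g p = M.pre.gam f g p := by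
  rw [Imm.gam_coord (h.1 ▸ N.isChart p : IsChart N.x (M.ch p)) (M.mem p),
    Imm.gam_coord (M.isChart p) (M.mem p)]
  simp only [R247.Bo84.gam, Crest.GeometryTopology.CoordMetric.inverseField,
    h.2 p ((M.ch p).map_source (M.mem p))]

theorem Same.same (h : Same M N) : N228.Same M N univ := ⟨h.1.symm, fun p _ f g _ _ => h.gam f g p⟩

theorem Same.norm_grad (h : Same M N) (f : X → ℝ) (p : X) : ‖N.grad f p‖ = ‖M.grad f p‖ := by
  rw [← sq_eq_sq₀ (norm_nonneg _) (norm_nonneg _), ← Imm.gam_self_eq, ← Imm.gam_self_eq, h.gam]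

variable {C : Type} {φ φ0 φ' φ1 : C → X → ℝ}

theorem Same.gr (h : Same M N) (φ : C → X → ℝ) (p : X) : gr N φ p = gr M φ p :=
  funext fun c => h.norm_grad (φ c) p

theorem gr_upd [DecidableEq C] (M : Imm d ι X) (φ : C → X → ℝ) (c : C) (f : X → ℝ) (p : X) :
    gr M (update φ c f) p = update (gr M φ p) c ‖M.grad f p‖ := by
  funext b
  by_cases h : b = c
  · subst h; simp [gr]
  · simp [gr, update_of_ne h]

theorem gr_nonneg (M : Imm d ι X) (φ : C → X → ℝ) (p : X) (c : C) : 0 ≤ gr M φ p c := norm_nonneg _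

theorem continuous_gr (h : ∀ c, M.Sm (φ c)) : Continuous (gr M φ) :=
  continuous_pi fun c => (h c).grad.continuous.norm

theorem continuous_ev (h : ∀ c, M.Sm (φ c)) : Continuous (ev φ) :=
  continuous_pi fun c => (h c).continuous

variable [Fintype C] {A U U' : Set X} {η r r' : C → ℝ} {μ μ' : ℝ}

theorem InD.mono (h : InD M A η r μ φ) (hr : ∀ c, r' c ≤ r c) (hμ : μ' ≤ μ) : InD M A η r' μ' φ := by
  obtain ⟨F, hF, h⟩ := h
  exact ⟨F, hF, fun p hp => (h p hp).mono (by linarith) (fun _ _ => le_rfl) fun c _ => hr c⟩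

theorem IsPath.smy {y : ℝ → κ → X → ℝ} {ψ : ℝ → C → X → ℝ} (h : IsPath M A U η r μ φ0 φ y ψ)
    (s : ℝ) (i : κ) : M.Sm (y s i) := (h.jy i).sm rfl s

theorem IsPath.smψ {y : ℝ → κ → X → ℝ} {ψ : ℝ → C → X → ℝ} (h : IsPath M A U η r μ φ0 φ y ψ)
    (s : ℝ) (c : C) : M.Sm (ψ s c) := (h.jψ c).sm rfl s

theorem IsPath.mono {y : ℝ → κ → X → ℝ} {ψ : ℝ → C → X → ℝ} (h : IsPath M A U η r μ φ0 φ y ψ)
    (hr : ∀ c, r' c ≤ r c) (hU : U ⊆ U') (h0 : Shr φ1 φ0) : IsPath M A U' η r' μ φ1 φ y ψ :=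
  ⟨h.jy, h.jψ, h.y0, h.ψ0, fun s hs => (h.cls s hs).mono hr le_rfl,
    fun s hs => h0.trans (h.shr s hs), fun s hs p hp => h.loc s hs p fun x => hp (hU x)⟩

theorem ExPath.mono {Q Q' : (C → X → ℝ) → Prop} (h : ExPath M A U η r μ φ0 φ Q)
    (hr : ∀ c, r' c ≤ r c) (hU : U ⊆ U') (h0 : Shr φ1 φ0) (hQ : ∀ ψ, Shr φ0 ψ → Q ψ → Q' ψ) :
    ExPath M A U' η r' μ φ1 φ Q' := by
  obtain ⟨κ, _, _, y, ψ, h, hq⟩ := h
  exact ⟨κ, _, _, y, ψ, h.mono hr hU h0, hQ _ (h.shr 1 ⟨zero_le_one, le_rfl⟩) hq⟩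

theorem Rch.mono (h : Rch M A U η r μ φ0 φ N φ') (hr : ∀ c, r' c ≤ r c) (hU : U ⊆ U')
    (h0 : Shr φ1 φ0) : Rch M A U' η r' μ φ1 φ N φ' := by
  obtain ⟨κ, _, _, y, ψ, h, hq⟩ := h
  exact ⟨κ, _, _, y, ψ, h.mono hr hU h0, hq⟩

variable [T2Space X] [SecondCountableTopology X]

theorem Same.EF (h : Same M N) {F : X → ℝ} (hF : M.Sm F) (p : X) : N.pre.EF F p = M.pre.EF F p :=
  h.same.EF isOpen_univ (mem_univ p) hF

theorem InD.congr (h : InD M A η r μ φ) (e : Same M N) : InD N A η r μ φ := by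
  obtain ⟨F, hF, h⟩ := h
  exact ⟨F, e.sm hF, fun p hp => by rw [e.EF hF, e.gr]; exact h p hp⟩

/-- a path which only moves the phases -/
theorem rch_phase {ψ : ℝ → C → X → ℝ} (hj : ∀ c, JC M.atl univ fun s => ψ s c)
    (hc : ∀ s ∈ Icc (0 : ℝ) 1, InD M A η r μ (ψ s)) (hs : ∀ s ∈ Icc (0 : ℝ) 1, Shr φ0 (ψ s))
    (hl : ∀ s ∈ Icc (0 : ℝ) 1, ∀ p, p ∉ U → ∀ c, ψ s c p = ψ 0 c p) :
    Rch M A U η r μ φ0 (ψ 0) M (ψ 1) :=
  have e : Same (M.xt fun (_ : Empty) _ => 0) M := same_xt_const M (fun _ => 0) fun _ _ => rfl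
  ⟨Empty, inferInstance, inferInstance, fun _ _ _ => 0, ψ, ⟨fun i => i.elim, hj, fun _ _ => rfl, rfl,
    fun s h => (hc s h).congr e.symm, hs, fun s h p hp => ⟨fun _ => rfl, hl s h p hp⟩⟩, rfl, e⟩

theorem exPath_refl {Q : (C → X → ℝ) → Prop} (hs : ∀ c, M.Sm (φ c)) (hc : InD M A η r μ φ)
    (h0 : Shr φ0 φ) (hQ : Q φ) : ExPath M A U η r μ φ0 φ Q := by
  obtain ⟨κ, _, _, y, ψ, h, h1, -⟩ := rch_phase (ψ := fun _ => φ) (U := U)
    (fun c => JC.of_sm rfl isOpen_univ (hs c)) (fun _ _ => hc) (fun _ _ => h0) fun _ _ _ _ _ => rfl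
  exact ⟨κ, _, _, y, ψ, h, h1 ▸ hQ⟩

/-- **concatenation** -/
theorem IsPath.append {y : ℝ → κ → X → ℝ} {ψ : ℝ → C → X → ℝ} {z : ℝ → κ' → X → ℝ}
    {χ : ℝ → C → X → ℝ} (h : IsPath M A U η r μ φ0 φ y ψ) (e : Same (M.xt (y 1)) N)
    (h' : IsPath N A U η r μ φ0 (ψ 1) z χ) :
    ∃ (w : ℝ → κ ⊕ κ' → X → ℝ) (θ : ℝ → C → X → ℝ), IsPath M A U η r μ φ0 φ w θ ∧ θ 1 = χ 1 ∧
      Same (M.xt (w 1)) (N.xt (z 1)) := by
  have hc : N.atl = M.atl := by
    have := e.1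
    unfold Imm.atl
    congr 1
    exact this.symm
  have sz : ∀ s i, M.Sm (z s i) := fun s i => e.symm.sm (h'.smy s i)
  have c1 : Continuous fun s : ℝ => min (2 * s) 1 := by fun_prop
  have c2 : Continuous fun s : ℝ => max (2 * s - 1) 0 := by fun_prop
  have key : ∀ s ∈ Icc (0 : ℝ) 1, (min (2 * s) 1 ∈ Icc (0 : ℝ) 1 ∧ max (2 * s - 1) 0 = 0) ∨
      (min (2 * s) 1 = 1 ∧ max (2 * s - 1) 0 ∈ Icc (0 : ℝ) 1) := fun s hs => by
    rcases le_total (2 * s) 1 with a | a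
    · exact Or.inl ⟨⟨le_min (by linarith [hs.1]) zero_le_one, min_le_right _ _⟩,
        max_eq_right (by linarith)⟩
    · exact Or.inr ⟨min_eq_right a, le_max_right _ _, max_le (by linarith [hs.2]) zero_le_one⟩
  have e2 : ∀ t, Same (M.xt (Sum.elim (y 1) (z t))) (N.xt (z t)) := fun t =>
    (same_xt_xt (h.smy 1) (sz t)).trans (e.xt (sz t))
  have e1 : ∀ t, Same (M.xt (Sum.elim (y t) (z 0))) (M.xt (y t)) := fun t =>
    (same_xt_xt (h.smy t) (sz 0)).trans (same_xt_const _ (fun _ => 0) h'.y0)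
  have a1 : ∀ t, (fun c p => ψ t c p + χ 0 c p - ψ 1 c p) = ψ t := fun t => by
    rw [h'.ψ0]; funext c p; ring
  have a2 : ∀ t, (fun c p => ψ 1 c p + χ t c p - ψ 1 c p) = χ t := fun t => by funext c p; ring
  refine ⟨fun s => Sum.elim (y (min (2 * s) 1)) (z (max (2 * s - 1) 0)),
    fun s c p => ψ (min (2 * s) 1) c p + χ (max (2 * s - 1) 0) c p - ψ 1 c p,
    ⟨?_, fun c => (((h.jψ c).reparam c1).add ((hc ▸ h'.jψ c).reparam c2)).sub
      ((h.jψ c).reparam (e := fun _ => 1) continuous_const), ?_, ?_, fun s hs => ?_, fun s hs => ?_,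
      fun s hs p hp => ?_⟩, ?_, ?_⟩
  · rintro (i | i)
    exacts [(h.jy i).reparam c1, (hc ▸ h'.jy i).reparam c2]
  · rintro (i | i) p
    · simpa using h.y0 i p
    · simpa using h'.y0 i p
  · simpa [a1] using h.ψ0
  · rcases key s hs with ⟨a, b⟩ | ⟨a, b⟩
    · simp only [b, a1]; exact (h.cls _ a).congr (e1 _).symm
    · simp only [a, a2]; exact (h'.cls _ b).congr (e2 _).symm
  · rcases key s hs with ⟨a, b⟩ | ⟨a, b⟩
    · simp only [b, a1]; exact h.shr _ a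
    · simp only [a, a2]; exact h'.shr _ b
  · have o : (1 : ℝ) ∈ Icc (0 : ℝ) 1 := ⟨zero_le_one, le_rfl⟩
    have z0 : (0 : ℝ) ∈ Icc (0 : ℝ) 1 := ⟨le_rfl, zero_le_one⟩
    obtain ⟨a, b⟩ : min (2 * s) 1 ∈ Icc (0 : ℝ) 1 ∧ max (2 * s - 1) 0 ∈ Icc (0 : ℝ) 1 := by
      rcases key s hs with ⟨a, b⟩ | ⟨a, b⟩
      exacts [⟨a, b.symm ▸ z0⟩, ⟨a.symm ▸ o, b⟩]
    refine ⟨?_, fun c => ?_⟩
    · rintro (i | i)
      exacts [(h.loc _ a p hp).1 i, (h'.loc _ b p hp).1 i]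
    · rw [(h.loc _ a p hp).2, (h'.loc _ b p hp).2]; ring
  · norm_num [a2]
  · norm_num; exact e2 1

theorem Rch.trans [DecidableEq ι''] {φ'' : C → X → ℝ} (h : Rch M A U η r μ φ0 φ N φ')
    (h' : Rch N A U η r μ φ0 φ' N' φ'') : Rch M A U η r μ φ0 φ N' φ'' := by
  obtain ⟨κ, _, _, y, ψ, h, rfl, e⟩ := h
  obtain ⟨κ', _, _, z, χ, h', rfl, e'⟩ := h'
  obtain ⟨w, θ, H, e1, e2⟩ := h.append e h'
  exact ⟨_, _, _, w, θ, H, e1, e2.trans e'⟩

theorem Rch.exPath {Q : (C → X → ℝ) → Prop} (h : Rch M A U η r μ φ0 φ N φ')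
    (h' : ExPath N A U η r μ φ0 φ' Q) : ExPath M A U η r μ φ0 φ Q := by
  obtain ⟨κ, _, _, y, ψ, h, rfl, e⟩ := h
  obtain ⟨κ', _, _, z, χ, h', hq⟩ := h'
  obtain ⟨w, θ, H, e1, -⟩ := h.append e h'
  exact ⟨_, _, _, w, θ, H, e1 ▸ hq⟩

theorem IsPath.rch {y : ℝ → κ → X → ℝ} {ψ : ℝ → C → X → ℝ} (h : IsPath M A U η r μ φ0 φ y ψ) :
    Rch M A U η r μ φ0 φ (M.xt (y 1)) (ψ 1) := ⟨_, _, _, y, ψ, h, rfl, Same.refl _⟩

end Crest.Agent.N228.G

end
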