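import Crest.Agent.N228.G.Defs
import Crest.Agent.N228.Gr.Ims

/-!
# Row 228, block G: PROJ (slopes on a graph) and CAR (closing up with an embedding) (helper60)
-/

set_option autoImplicit false
set_option linter.unusedSectionVars false
open MeasureTheory Set Filter Topology Function Metric
open scoped ContDiff InnerProductSpace RealInnerProductSpace
open Crest.Agent.N222 Crest.Agent.N222.Imm

noncomputable section

namespace Crest.Agent.N228.G

namespace Proj

variable {ι κ : Type} [Fintype ι] [Fintype κ]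

/-- `(1 - (1 + v)⁻¹ X ⊗ X)² = 1 - X ⊗ X` when `|X|² = 1 - v²` -/
theorem exists_root (X : E ι) {v : ℝ} (hv : 0 < v) (hX : ‖X‖ ^ 2 = 1 - v ^ 2) :
    ∃ P : E ι →L[ℝ] E ι, ‖P‖ ≤ 1 ∧ ∀ z, ⟪X, z⟫ ^ 2 + ‖P z‖ ^ 2 = ‖z‖ ^ 2 := by
  set P : E ι →L[ℝ] E ι := 1 - (1 + v)⁻¹ • (innerSL ℝ X).smulRight X with hP
  have h : ∀ z, ⟪X, z⟫ ^ 2 + ‖P z‖ ^ 2 = ‖z‖ ^ 2 := fun z => by
    have e : P z = z - ((1 + v)⁻¹ * ⟪X, z⟫) • X := by simp [hP, mul_smul]
    rw [e, norm_sub_sq_real, real_inner_smul_right, norm_smul, mul_pow, hX, Real.norm_eq_abs,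
      sq_abs, real_inner_comm X z]
    have : 1 + v ≠ 0 := by positivity
    field_simp
    ring
  refine ⟨P, ContinuousLinearMap.opNorm_le_bound _ zero_le_one fun z => ?_, h⟩
  rw [one_mul]
  exact abs_le_of_sq_le_sq' (by linarith [h z, sq_nonneg ⟪X, z⟫]) (norm_nonneg _) |>.2

/-- the horizontal inclusion -/
def upI (ι : Type) [Fintype ι] [DecidableEq ι] : E ι →ₗᵢ[ℝ] E (Option ι) where
  toFun y := up 0 y
  map_add' y z := by rw [up_add, add_zero]
  map_smul' c y := by rw [smul_up, mul_zero]; rfl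
  norm_map' y := (sq_eq_sq₀ (norm_nonneg _) (norm_nonneg _)).1 <| by
    change ‖up 0 y‖ ^ 2 = _
    rw [norm_sq_up]; ring

/-- the inclusion of the first factor -/
def inI (ι κ : Type) [Fintype ι] [Fintype κ] : E ι →ₗᵢ[ℝ] E (ι ⊕ κ) where
  toFun y := WithLp.toLp 2 (Sum.elim (fun a => y a) fun _ => 0)
  map_add' y z := by ext c; cases c <;> simp
  map_smul' c y := by ext c; cases c <;> simp
  norm_map' y := by
    change ‖(WithLp.toLp 2 (Sum.elim (fun a => y a) fun _ => 0) : E (ι ⊕ κ))‖ = _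
    simp [EuclideanSpace.norm_eq, Fintype.sum_sum_type]

variable {d : ℕ} {X : Type} [TopologicalSpace X] {M : Imm d ι X} {y : κ → X → ℝ}

theorem xt_inl (p : X) (a : ι) : (M.xt y).x p (Sum.inl a) = M.x p a := rfl

theorem xt_inr (hy : ∀ i, M.Sm (y i)) (p : X) (i : κ) : (M.xt y).x p (Sum.inr i) = y i p :=
  if_pos hy

theorem xt_zero (hy : ∀ i, M.Sm (y i)) {p : X} (h : ∀ i, y i p = 0) :
    (M.xt y).x p = inI ι κ (M.x p) := by
  ext c
  cases c with
  | inl a => rfl
  | inr i => exact (xt_inr hy p i).trans (h i)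

end Proj

open Proj

theorem proj : ProjStmt := by
  intro d ι _ _ X _ _ _ _ _ M u hu p
  have hv := M.vv_pos u p
  constructor
  · refine (abs_le_of_sq_le_sq' ?_ zero_le_one).2
    rw [← gam_self_eq, graph_pre, gS_gam_u]
    linarith [sq_nonneg (M.vv u p)]
  · obtain ⟨P, hP, h⟩ := exists_root (M.vv u p • M.grad u p) hv (by
      rw [norm_smul, mul_pow, Real.norm_eq_abs, sq_abs, ← gam_self_eq]
      linear_combination M.vv_sq u p)
    refine ⟨P, hP, fun f => ?_⟩
    have h1 := h (M.grad f p)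
    rw [real_inner_smul_left, ← gam_eq_inner, ← dir_Xf] at h1
    refine ⟨(sq_eq_sq₀ (norm_nonneg _) (norm_nonneg _)).1 ?_, h1⟩
    rw [← gam_self_eq, graph_pre, gS_gam, gam_self_eq]
    linarith

theorem car : CarStmt := by
  intro d ι _ _ X _ _ _ _ _ M hinj V K δ hV hF hK hδ
  obtain ⟨Y, _, _, _, _, _, _, N, e, c, F, hKe, hx, hsF, hEF⟩ := Gr.close_up hV hF hK hδ
  have hK' : IsCompact (e '' K) := hK.image_of_continuousOn (e.continuousOn.mono hKe)
  obtain ⟨χ, hχ, hs, -, h1⟩ := N.exists_bump hK' e.open_target (by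
    rintro _ ⟨p, hp, rfl⟩
    exact e.map_source (hKe hp))
  obtain ⟨n, y, hy, hsep⟩ := N.exists_separating
  set z : Option (Fin n) → Y → ℝ := fun i q => (1 - χ q) * i.elim 1 fun k => y k q with hz
  have hzs : ∀ i, N.Sm (z i) := fun i => ((sm_const 1).sub hχ.sm).mul <| by
    cases i with
    | none => exact sm_const 1
    | some k => exact hy k
  have hz0 : ∀ q, χ q = 1 → (N.xt z).x q = inI _ _ (N.x q) := fun q hq =>
    xt_zero hzs fun i => by simp [hz, hq]
  refine ⟨Option ι ⊕ Option (Fin n), inferInstance, inferInstance, Y, _, ‹_›, ‹_›, _, ‹_›, N.xt z,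
    ‹_›, fun q q' hq => ?_,
    e.restrOpen (e.source ∩ e ⁻¹' interior {q | χ q = 1}) (e.isOpen_inter_preimage isOpen_interior),
    (inI _ _).comp (upI ι), inI _ _ (up c 0), F, fun p hp => ⟨hKe hp, hKe hp, ?_⟩,
    fun p hp => ?_, hsF, fun p hp => ?_⟩
  · have e1 : N.x q = N.x q' := by
      ext a
      exact congrArg (fun w : E (Option ι ⊕ Option (Fin n)) => w (Sum.inl a)) hq
    have e2 : ∀ i, z i q = z i q' := fun i => by
      rw [← xt_inr hzs, ← xt_inr hzs, hq]
    have e3 : χ q = χ q' := by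
      have := e2 none
      simp only [hz, Option.elim, mul_one] at this
      linarith
    by_cases h : χ q = 1
    · have m1 : q ∈ e.target := hs (subset_tsupport _ (by simp [h]))
      have m2 : q' ∈ e.target := hs (subset_tsupport _ (by simp [← e3, h]))
      rw [← e.right_inv m1, ← e.right_inv m2, hx _ (e.map_target m1), hx _ (e.map_target m2)] at e1
      rw [← e.right_inv m1, ← e.right_inv m2, hinj (congrArg down e1)]
    · refine hsep q q' fun k => ?_
      have := e2 (some k)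
      simp only [hz, Option.elim, ← e3] at this
      exact mul_left_cancel₀ (sub_ne_zero.2 (Ne.symm h)) this
  · exact mem_interior_iff_mem_nhds.2 (eventually_nhdsSet_iff_forall.1 h1 _ (mem_image_of_mem _ hp))
  · change (N.xt z).x (e p) = inI _ _ (up 0 (M.x p)) + _
    have h2 : e p ∈ {q | χ q = 1} := interior_subset hp.2.2
    rw [hz0 _ h2, hx p hp.1, ← map_add, up_add, zero_add, add_zero]
  · have hl : Gr.LI N (N.xt z) id (e p) := ⟨inI _ _, 0, by
      filter_upwards [mem_interior_iff_mem_nhds.1 hp.2.2] with q hq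
      exact ⟨continuousAt_id, by rw [add_zero]; exact hz0 q hq⟩⟩
    exact (hEF p hp.1).trans_eq (hl.EF (F := F) hsF)

end Crest.Agent.N228.G

end
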