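import Crest.Agent.N228.G.Basic

/-! # Row 228, block G (helper62): the profile on a state, the class on graphs -/

set_option autoImplicit false
set_option linter.unusedSectionVars false
open MeasureTheory Set Filter Topology Function Real
open scoped ContDiff
open Crest.Agent.N222 Crest.Agent.N222.Imm

noncomputable section

namespace Crest.Agent.N228.G

variable {m : ℕ} {ι : Type} [Fintype ι] [DecidableEq ι] {X : Type} [TopologicalSpace X]
  {C : Type} [Fintype C] [DecidableEq C] {M : Imm (m + 1) ι X} {A : Set X} {η r : C → ℝ}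
  {μ γ δ δ' : ℝ} {φ : C → X → ℝ} {F v : X → ℝ} {c : C} {k : ℝ → ℝ} {p : X}

/-- SPLIT on a state -/
theorem exists_spl [CompactSpace X] (hS : SplitStmt) (hC : Ctx M A η r μ φ) (hF : M.Sm F)
    (h : ∀ p ∈ A, Good (m + 1) η r (M.pre.EF F p - μ) (ev φ p) (gr M φ p)) (hc : η c ≤ r c) :
    ∃ γ a : ℝ, 0 < γ ∧ 0 < a ∧ a < π / 2 ∧ ∀ K : ℝ, ∃ k : ℝ → ℝ, ContDiff ℝ ∞ k ∧
      (∀ t, a ≤ t → k t = k a) ∧ K ≤ k a ∧ (∀ t, t ≤ -a → k t = k (-a)) ∧ k (-a) ≤ -K ∧
      ∀ p ∈ A, Spl m η r c γ k (M.pre.EF F p - μ) (ev φ p) (gr M φ p) := by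
  have h1 : Continuous fun p => (M.pre.EF F p - μ, ev φ p, gr M φ p) :=
    (hF.EF.continuous.sub continuous_const).prodMk
      ((continuous_pi fun b => (hC.sm b).continuous).prodMk
        (continuous_pi fun b => (hC.sm b).grad.continuous.norm))
  obtain ⟨γ, a, h2, h3, h4, H⟩ := hS C m η r c _ (hC.cl.isCompact.image h1) hC.res (hC.eta c) hc
    (forall_mem_image.2 fun p hp => ⟨norm_nonneg _, h p hp⟩)
  refine ⟨γ, a, h2, h3, h4, fun K => ?_⟩
  obtain ⟨k, k1, k2, k3, k4, k5, k6⟩ := H K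
  exact ⟨k, k1, k2, k3, k4, k5, fun p hp => k6 _ (mem_image_of_mem _ hp)⟩

variable [MeasurableSpace X]

theorem sq_grad_graph {d : ℕ} {M : Imm d ι X} (hv : M.Sm v) (f : X → ℝ) (p : X) :
    M.pre.dir (M.Xf v) f p ^ 2 + ‖(M.graph v hv).grad f p‖ ^ 2 = ‖M.grad f p‖ ^ 2 := by
  rw [← gam_self_eq, ← gam_self_eq, graph_pre, gS_gam]
  ring

theorem gr_graph_le {d : ℕ} {M : Imm d ι X} (hv : M.Sm v) (φ : C → X → ℝ) (p : X) (b : C) :
    gr (M.graph v hv) φ p b ≤ gr M φ p b :=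
  le_of_sq_le_sq (le_of_le_of_eq (le_add_of_nonneg_left (sq_nonneg _)) (sq_grad_graph hv (φ b) p))
    (norm_nonneg _)

/-- the class on a graph, with room for the colour `c` -/
theorem good_graph (h : Spl m η r c γ k (M.pre.EF F p - μ) (ev φ p) (gr M φ p)) (hγ : 0 ≤ γ)
    (hF : M.Sm F) (hφ : M.Sm (φ c)) (hk : ContDiff ℝ ∞ k) (hv : M.Sm v)
    (hl : Low M F (fun p => k (φ c p)) δ v) (hδ : δ + δ' ≤ γ) {a e : ℝ} (ha : |a - φ c p| ≤ γ)
    (he : e ≤ gr (M.graph v hv) φ p c + γ) :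
    Good (m + 1) η (update r c (r c - η c))
      ((M.graph v hv).pre.EF (fun q => F q + log (M.vv v q)) p - μ - δ') (update (ev φ p) c a)
      (update (gr (M.graph v hv) φ p) c e) := by
  refine h.gr |M.pre.dir (M.Xf v) (φ c) p| (gr (M.graph v hv) φ p c) _ _ _ (abs_nonneg _)
    (norm_nonneg _) ?_ ?_ (fun b => ?_) (fun b hb => ?_) (by rwa [update_self])
  · rw [sq_abs]; exact (sq_grad_graph hv (φ c) p).le
  · have h1 := hl p
    have h2 : M.pre.dir (M.Xf v) (fun p => k (φ c p)) p =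
        deriv k (φ c p) * M.pre.dir (M.Xf v) (φ c) p := by
      simp only [dir_apply, D_comp (hφ.diffAt p) (hk.differentiable (by simp) _).hasDerivAt,
        Finset.mul_sum]
      exact Finset.sum_congr rfl fun _ _ => by ring
    have h3 : 0 ≤ (M.gS v).gam (M.vv v) (M.vv v) p / M.vv v p ^ 2 :=
      div_nonneg (graph_pre hv ▸ gam_self_nonneg (M := M.graph v hv) _ p) (sq_nonneg _)
    rw [h2, abs_mul] at h1
    rw [graph_pre, Nk.EF_graph hF hv]
    linarith
  · by_cases hb : b = c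
    · subst hb; rwa [update_self]
    · rw [update_of_ne hb, sub_self, abs_zero]; exact hγ
  · rw [update_of_ne hb]; linarith [gr_graph_le hv φ p b]

/-- the class on a graph -/
theorem inD_graph (h : ∀ p ∈ A, Spl m η r c γ k (M.pre.EF F p - μ) (ev φ p) (gr M φ p))
    (hγ : 0 ≤ γ) (hF : M.Sm F) (hφ : M.Sm (φ c)) (hk : ContDiff ℝ ∞ k) (hv : M.Sm v)
    (hl : Low M F (fun p => k (φ c p)) δ v) (hδ : δ ≤ γ) {ρ : ℝ} (hρ : η c ≤ ρ) :
    InD (M.graph v hv) A η (update r c (r c - ρ)) μ φ := by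
  refine ⟨_, hF.add (hv.vv.log fun p => (M.vv_pos v p).ne'), fun p hp => ?_⟩
  have h1 := good_graph (h p hp) hγ hF hφ hk hv hl (δ' := 0) (by linarith) (a := ev φ p c)
    (by simpa using hγ) (le_add_of_nonneg_right hγ)
  rw [update_eq_self, update_eq_self, sub_zero] at h1
  refine h1.mono le_rfl (fun _ _ => le_rfl) fun b _ => ?_
  by_cases hb : b = c
  · subst hb; simp only [update_self]; linarith
  · simp only [update_of_ne hb, le_refl]

end Crest.Agent.N228.G

end
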